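import Vale.Agent.P106.H25.LatN
import Vale.Agent.P127.TV.Shift

/-!
# P106 / H25 : the group of the kappa regime and its words

State `X = (V, Z, ε)` and `M` (central).  `St X M u m ρ σ a b` : `b` is the image of `a` under `(u, m)`:
`X b = X a + u` up to `ρ`, `M b = M a + ε_a (V_b - V_a) + m` up to `σ`.
Product: `(u, m) (u', m') = (u + u', m + m' + u'₀ u₂)`.
-/

set_option autoImplicit false

namespace Vale.Agent.P106.H25

open Finset Vale.Agent.P127 Vale.Agent.P127.Stk Vale.Agent.P127.TV Vale.Agent.P106.TV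

variable {Ω : Type} [Fintype Ω]

/-- `b` is the image of `a` under the group element `(u, m)` -/
def St (X : Ω → Fin 3 → ℝ) (M : Ω → ℝ) (u : Fin 3 → ℝ) (m ρ σ : ℝ) (a b : Ω) : Prop :=
  (∀ i, |X b i - X a i - u i| ≤ ρ) ∧ |M b - M a - X a 2 * (X b 0 - X a 0) - m| ≤ σ

variable {X : Ω → Fin 3 → ℝ} {M : Ω → ℝ}

theorem St.refl (a : Ω) : St X M (fun _ => 0) 0 0 0 a a := by
  refine ⟨fun i => by simp, by simp⟩

theorem St.mono {u : Fin 3 → ℝ} {m ρ σ ρ' σ' : ℝ} {a b : Ω} (h : St X M u m ρ σ a b)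
    (h1 : ρ ≤ ρ') (h2 : σ ≤ σ') : St X M u m ρ' σ' a b :=
  ⟨fun i => (h.1 i).trans h1, h.2.trans h2⟩

/-- composition -/
theorem St.comp {u u' : Fin 3 → ℝ} {m m' ρ ρ' σ σ' : ℝ} {a b c : Ω} (h : St X M u m ρ σ a b)
    (h' : St X M u' m' ρ' σ' b c) :
    St X M (fun i => u i + u' i) (m + m' + u' 0 * u 2) (ρ + ρ')
      (σ + σ' + (|u 2| * ρ' + |u' 0| * ρ + ρ * ρ')) a c := by
  refine ⟨fun i => ?_, ?_⟩
  · have e1 := h.1 i
    have e2 := h'.1 i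
    have : X c i - X a i - (u i + u' i) = (X b i - X a i - u i) + (X c i - X b i - u' i) := by ring
    rw [this]
    exact (abs_add_le _ _).trans (add_le_add e1 e2)
  · have e1 := h.2
    have e2 := h'.2
    set r := X b 2 - X a 2 - u 2 with hr
    set s := X c 0 - X b 0 - u' 0 with hs
    have h1 : |r| ≤ ρ := h.1 2
    have h2 : |s| ≤ ρ' := h'.1 0
    have : M c - M a - X a 2 * (X c 0 - X a 0) - (m + m' + u' 0 * u 2) =
        (M b - M a - X a 2 * (X b 0 - X a 0) - m) +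
          (M c - M b - X b 2 * (X c 0 - X b 0) - m') + (u 2 * s + u' 0 * r + r * s) := by
      rw [hr, hs]; ring
    rw [this]
    refine (abs_add_le _ _).trans (add_le_add ((abs_add_le _ _).trans (add_le_add e1 e2)) ?_)
    refine (abs_add_le _ _).trans (add_le_add ((abs_add_le _ _).trans (add_le_add ?_ ?_)) ?_)
    · rw [abs_mul]
      exact mul_le_mul_of_nonneg_left h2 (abs_nonneg _)
    · rw [abs_mul]
      exact mul_le_mul_of_nonneg_left h1 (abs_nonneg _)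
    · rw [abs_mul]
      exact mul_le_mul h1 h2 (abs_nonneg _) ((abs_nonneg _).trans h1)

/-- composition of near invariances, with simple bounds -/
theorem sub_comp {Q : Law Ω} {u u' w : Fin 3 → ℝ} {m m' n ρ ρ' ρ₂ σ σ' σ₂ e e' e₂ : ℝ}
    (h : SubC Q Q (St X M u m ρ σ) e) (h' : SubC Q Q (St X M u' m' ρ' σ') e')
    (hw : ∀ i, w i = u i + u' i) (hn : n = m + m' + u' 0 * u 2) (hρ : ρ + ρ' ≤ ρ₂)
    (hσ : σ + σ' + (|u 2| * ρ' + |u' 0| * ρ + ρ * ρ') ≤ σ₂) (he : e + e' ≤ e₂) :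
    SubC Q Q (St X M w n ρ₂ σ₂) e₂ := by
  refine (SubC.comp h h').mono ?_ he
  rintro a c ⟨b, h1, h2⟩
  have h3 := (h1.comp h2).mono hρ hσ
  have : w = fun i => u i + u' i := funext hw
  rw [this, hn]
  exact h3

/-- powers of a generator (`m = u₀ u₂ / 2`) -/
theorem sub_pow {Q : Law Ω} {u : Fin 3 → ℝ} {ρ e : ℝ} (hu : ∀ i, |u i| ≤ 1) (hρ : 0 ≤ ρ)
    (hρ1 : ρ ≤ 1)
    (h : SubC Q Q (St X M u (u 0 * u 2 / 2) ρ ρ) e) (n : ℕ) :
    SubC Q Q (St X M (fun i => n * u i) ((n : ℝ) ^ 2 * (u 0 * u 2 / 2)) (n * ρ)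
      (2 * (n : ℝ) ^ 2 * ρ)) (n * e) := by
  induction n with
  | zero =>
    refine (SubC.refl Q).mono ?_ (by simp)
    rintro a b rfl
    refine ⟨fun i => by simp, by simp⟩
  | succ n ih =>
    have hn0 : (0 : ℝ) ≤ n := Nat.cast_nonneg n
    refine sub_comp ih h (fun i => ?_) ?_ ?_ ?_ ?_
    · push_cast; ring
    · push_cast; ring
    · push_cast; linarith
    · have h1 : |(n : ℝ) * u 2| * ρ ≤ n * ρ := by
        rw [abs_mul, abs_of_nonneg hn0]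
        refine mul_le_mul_of_nonneg_right ?_ hρ
        nlinarith [hu 2, abs_nonneg (u 2)]
      have h2 : |u 0| * (n * ρ) ≤ n * ρ := mul_le_of_le_one_left (by positivity) (hu 0)
      have h3 : n * ρ * ρ ≤ n * ρ := mul_le_of_le_one_right (by positivity) hρ1
      push_cast
      nlinarith
    · push_cast; linarith

/-- the commutator of two generators -/
theorem sub_comm4 {Q : Law Ω} {u w : Fin 3 → ℝ} {ρ e : ℝ} (hu : ∀ i, |u i| ≤ 1)
    (hw : ∀ i, |w i| ≤ 1) (hρ : 0 ≤ ρ) (hρ1 : ρ ≤ 1) (he : 0 ≤ e)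
    (h : SubC Q Q (St X M u (u 0 * u 2 / 2) ρ ρ) e)
    (h' : SubC Q Q (St X M w (w 0 * w 2 / 2) ρ ρ) e)
    (hi : SubC Q Q (St X M (fun i => - u i) (u 0 * u 2 / 2) ρ ρ) e)
    (hi' : SubC Q Q (St X M (fun i => - w i) (w 0 * w 2 / 2) ρ ρ) e) :
    SubC Q Q (St X M (fun _ => 0) (w 0 * u 2 - u 0 * w 2) (4 * ρ) (20 * ρ)) (4 * e) := by
  have hρ2 : ρ * ρ ≤ ρ := mul_le_of_le_one_right hρ hρ1
  have e1 : SubC Q Q (St X M (fun i => u i + w i) (u 0 * u 2 / 2 + w 0 * w 2 / 2 + w 0 * u 2)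
      (2 * ρ) (5 * ρ)) (2 * e) := by
    refine sub_comp h h' (fun i => rfl) rfl (by linarith) ?_ (by linarith)
    have h1 : |u 2| * ρ ≤ ρ := mul_le_of_le_one_left hρ (hu 2)
    have h2 : |w 0| * ρ ≤ ρ := mul_le_of_le_one_left hρ (hw 0)
    linarith
  have e2 : SubC Q Q (St X M (fun i => w i)
      (u 0 * u 2 / 2 + w 0 * w 2 / 2 + w 0 * u 2 + u 0 * u 2 / 2 + (- u 0) * (u 2 + w 2))
      (3 * ρ) (12 * ρ)) (3 * e) := by
    refine sub_comp e1 hi (fun i => by ring) rfl (by linarith) ?_ (by linarith)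
    have h1 : |u 2 + w 2| * ρ ≤ 2 * ρ := by
      refine mul_le_mul_of_nonneg_right ?_ hρ
      exact (abs_add_le _ _).trans (by linarith [hu 2, hw 2])
    have h2 : |(- u 0)| * (2 * ρ) ≤ 2 * ρ :=
      mul_le_of_le_one_left (by linarith) (by rw [abs_neg]; exact hu 0)
    nlinarith
  refine sub_comp e2 hi' (fun i => by ring) (by ring) (by linarith) ?_ (by linarith)
  have h1 : |w 2| * ρ ≤ ρ := mul_le_of_le_one_left hρ (hw 2)
  have h2 : |(- w 0)| * (3 * ρ) ≤ 3 * ρ :=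
    mul_le_of_le_one_left (by linarith) (by rw [abs_neg]; exact hw 0)
  nlinarith

/-- powers of a pure shift -/
theorem sub_shift {Q : Law Ω} {c ρ σ e : ℝ} (hρ : 0 ≤ ρ)
    (h : SubC Q Q (St X M (fun _ => 0) c ρ σ) e) (k : ℕ) :
    SubC Q Q (St X M (fun _ => 0) (k * c) (k * ρ) (k * σ + (k : ℝ) ^ 2 * ρ ^ 2)) (k * e) := by
  induction k with
  | zero =>
    refine (SubC.refl Q).mono ?_ (by simp)
    rintro a b rfl
    refine ⟨fun i => by simp, by simp⟩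
  | succ n ih =>
    have hn0 : (0 : ℝ) ≤ n := Nat.cast_nonneg n
    refine sub_comp ih h (fun i => by simp) ?_ ?_ ?_ ?_
    · push_cast; ring
    · push_cast; linarith
    · simp only [abs_zero, zero_mul, zero_add]
      push_cast
      nlinarith [sq_nonneg ρ]
    · push_cast; linarith

/-- the central displacement of the word `g₁^n₀ g₂^n₁ g₃^n₂` -/
noncomputable def dr (v : Fin 3 → Fin 3 → ℝ) (n : Fin 3 → ℕ) : ℝ :=
  (n 0 : ℝ) ^ 2 * (v 0 0 * v 0 2 / 2) + (n 1 : ℝ) ^ 2 * (v 1 0 * v 1 2 / 2) +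
    (n 1 * v 1 0) * (n 0 * v 0 2) + (n 2 : ℝ) ^ 2 * (v 2 0 * v 2 2 / 2) +
    (n 2 * v 2 0) * (n 0 * v 0 2 + n 1 * v 1 2)

theorem dr_le {v : Fin 3 → Fin 3 → ℝ} (hv : ∀ k i, |v k i| ≤ 1) {n : Fin 3 → ℕ} {R : ℕ}
    (hn : ∀ i, n i ≤ R) : |dr v n| ≤ 5 * (R : ℝ) ^ 2 := by
  have hR : ∀ i, (n i : ℝ) ≤ R := fun i => by exact_mod_cast hn i
  have h0 : ∀ i, (0 : ℝ) ≤ n i := fun i => Nat.cast_nonneg _
  have hp : ∀ i j, |(n i : ℝ) * v i j| ≤ R := fun i j => by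
    rw [abs_mul, abs_of_nonneg (h0 i)]
    calc (n i : ℝ) * |v i j| ≤ n i * 1 := mul_le_mul_of_nonneg_left (hv i j) (h0 i)
      _ ≤ R := by rw [mul_one]; exact hR i
  have hR0 : (0 : ℝ) ≤ R := Nat.cast_nonneg _
  have hq : ∀ i j k l, |((n i : ℝ) * v i j) * (n k * v k l)| ≤ (R : ℝ) ^ 2 := fun i j k l => by
    rw [abs_mul, pow_two]
    exact mul_le_mul (hp i j) (hp k l) (abs_nonneg _) hR0
  have e : dr v n = ((n 0 : ℝ) * v 0 0) * (n 0 * v 0 2) / 2 + ((n 1 : ℝ) * v 1 0) * (n 1 * v 1 2) / 2 +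
      (n 1 * v 1 0) * (n 0 * v 0 2) + ((n 2 : ℝ) * v 2 0) * (n 2 * v 2 2) / 2 +
      ((n 2 * v 2 0) * (n 0 * v 0 2) + (n 2 * v 2 0) * (n 1 * v 1 2)) := by
    unfold dr; ring
  rw [e]
  have a1 := abs_le.1 (hq 0 0 0 2)
  have a2 := abs_le.1 (hq 1 0 1 2)
  have a3 := abs_le.1 (hq 1 0 0 2)
  have a4 := abs_le.1 (hq 2 0 2 2)
  have a5 := abs_le.1 (hq 2 0 0 2)
  have a6 := abs_le.1 (hq 2 0 1 2)
  rw [abs_le]
  constructor <;> linarith [a1.1, a1.2, a2.1, a2.2, a3.1, a3.2, a4.1, a4.2, a5.1, a5.2, a6.1, a6.2]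

/-- **the words** `g₁^n₀ g₂^n₁ g₃^n₂ [g₁, g₃]^k` -/
theorem sub_word {Q : Law Ω} (v : Fin 3 → Fin 3 → ℝ) {ρ e : ℝ} {R R₃ : ℕ}
    (hv : ∀ k i, |v k i| ≤ 1) (hρ : 0 ≤ ρ) (he : 0 ≤ e)
    (hR : 1 ≤ R) (hR3 : 1 ≤ R₃) (hρ1 : R₃ * ρ ≤ 1)
    (h : ∀ k, SubC Q Q (St X M (v k) (v k 0 * v k 2 / 2) ρ ρ) e)
    (hi : ∀ k, SubC Q Q (St X M (fun i => - v k i) (v k 0 * v k 2 / 2) ρ ρ) e)
    {n : Fin 3 → ℕ} (hn : ∀ i, n i ≤ R) {k : ℕ} (hk : k ≤ R₃) :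
    SubC Q Q (St X M (cmb v fun i => n i) (dr v n + k * (v 2 0 * v 0 2 - v 0 0 * v 2 2))
      ((3 * R + 4 * R₃) * ρ) ((17 * (R : ℝ) ^ 2 + 36 * R₃ + 24 * R * R₃) * ρ))
      ((3 * R + 4 * R₃) * e) := by
  have hR3r : (1 : ℝ) ≤ R₃ := by exact_mod_cast hR3
  have hRr : (1 : ℝ) ≤ R := by exact_mod_cast hR
  have hρ1' : ρ ≤ 1 := by nlinarith
  have hnR : ∀ i, (n i : ℝ) ≤ R := fun i => by exact_mod_cast hn i
  have h0 : ∀ i, (0 : ℝ) ≤ n i := fun i => Nat.cast_nonneg _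
  have hkR : (k : ℝ) ≤ R₃ := by exact_mod_cast hk
  have hk0 : (0 : ℝ) ≤ k := Nat.cast_nonneg _
  have hp : ∀ i j, |(n i : ℝ) * v i j| ≤ R := fun i j => by
    rw [abs_mul, abs_of_nonneg (h0 i)]
    calc (n i : ℝ) * |v i j| ≤ n i * 1 := mul_le_mul_of_nonneg_left (hv i j) (h0 i)
      _ ≤ R := by rw [mul_one]; exact hnR i
  have hnsq : ∀ i, (n i : ℝ) ^ 2 ≤ (R : ℝ) ^ 2 := fun i => pow_le_pow_left₀ (h0 i) (hnR i) 2
  have hpw := fun i => sub_pow (hv i) hρ hρ1' (h i) (n i)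
  have hnρ : ∀ i, (n i : ℝ) * ρ ≤ R * ρ := fun i => mul_le_mul_of_nonneg_right (hnR i) hρ
  have hsρ : ∀ i, 2 * (n i : ℝ) ^ 2 * ρ ≤ 2 * (R : ℝ) ^ 2 * ρ := fun i =>
    mul_le_mul_of_nonneg_right (mul_le_mul_of_nonneg_left (hnsq i) (by norm_num)) hρ
  have hRρ : (R : ℝ) * ρ * ρ ≤ R * ρ := mul_le_of_le_one_right (by positivity) hρ1'
  have hRR : (R : ℝ) ≤ R ^ 2 := by nlinarith
  -- g₁^n₀ g₂^n₁
  have s1 : SubC Q Q (St X M (fun i => (n 0 : ℝ) * v 0 i + n 1 * v 1 i)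
      ((n 0 : ℝ) ^ 2 * (v 0 0 * v 0 2 / 2) + (n 1 : ℝ) ^ 2 * (v 1 0 * v 1 2 / 2) +
        (n 1 * v 1 0) * (n 0 * v 0 2)) (2 * R * ρ) (7 * (R : ℝ) ^ 2 * ρ)) (2 * R * e) := by
    refine sub_comp (hpw 0) (hpw 1) (fun i => rfl) rfl ?_ ?_ ?_
    · linarith [hnρ 0, hnρ 1]
    · have b1 : |(n 0 : ℝ) * v 0 2| * (n 1 * ρ) ≤ R * (R * ρ) :=
        mul_le_mul (hp 0 2) (hnρ 1) (by positivity) (by positivity)
      have b2 : |(n 1 : ℝ) * v 1 0| * (n 0 * ρ) ≤ R * (R * ρ) :=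
        mul_le_mul (hp 1 0) (hnρ 0) (by positivity) (by positivity)
      have b3 : (n 0 : ℝ) * ρ * (n 1 * ρ) ≤ R * ρ * R := by
        refine mul_le_mul (hnρ 0) ?_ (by positivity) (by positivity)
        exact (mul_le_of_le_one_right (h0 1) hρ1').trans (hnR 1)
      nlinarith [hsρ 0, hsρ 1]
    · have : ∀ i, (n i : ℝ) * e ≤ R * e := fun i => mul_le_mul_of_nonneg_right (hnR i) he
      linarith [this 0, this 1]
  -- g₁^n₀ g₂^n₁ g₃^n₂
  have s2 : SubC Q Q (St X M (fun i => ((n 0 : ℝ) * v 0 i + n 1 * v 1 i) + n 2 * v 2 i)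
      (dr v n) (3 * R * ρ) (17 * (R : ℝ) ^ 2 * ρ)) (3 * R * e) := by
    refine sub_comp s1 (hpw 2) (fun i => rfl) ?_ ?_ ?_ ?_
    · unfold dr; ring
    · linarith [hnρ 2]
    · have b0 : |(n 0 : ℝ) * v 0 2 + n 1 * v 1 2| ≤ 2 * R := by
        refine (abs_add_le _ _).trans ?_
        linarith [hp 0 2, hp 1 2]
      have b1 : |(n 0 : ℝ) * v 0 2 + n 1 * v 1 2| * (n 2 * ρ) ≤ 2 * R * (R * ρ) :=
        mul_le_mul b0 (hnρ 2) (by positivity) (by positivity)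
      have b2 : |(n 2 : ℝ) * v 2 0| * (2 * R * ρ) ≤ R * (2 * R * ρ) :=
        mul_le_mul_of_nonneg_right (hp 2 0) (by positivity)
      have b3 : 2 * R * ρ * (n 2 * ρ) ≤ 2 * R * ρ * R := by
        refine mul_le_mul_of_nonneg_left ?_ (by positivity)
        exact (mul_le_of_le_one_right (h0 2) hρ1').trans (hnR 2)
      nlinarith [hsρ 2]
    · have : (n 2 : ℝ) * e ≤ R * e := mul_le_mul_of_nonneg_right (hnR 2) he
      linarith
  -- the commutators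
  have c1 := sub_comm4 (hv 0) (hv 2) hρ hρ1' he (h 0) (h 2) (hi 0) (hi 2)
  have c2 := sub_shift (by positivity) c1 k
  refine sub_comp s2 c2 (fun i => ?_) ?_ ?_ ?_ ?_
  · rw [show cmb v (fun i => (n i : ℝ)) i = ∑ k, (n k : ℝ) * v k i from rfl, Fin.sum_univ_three]
    ring
  · ring
  · nlinarith
  · have b1 : |((n 0 : ℝ) * v 0 2 + n 1 * v 1 2) + n 2 * v 2 2| ≤ 3 * R := by
      refine (abs_add_le _ _).trans ?_
      refine (add_le_add (abs_add_le _ _) le_rfl).trans ?_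
      linarith [hp 0 2, hp 1 2, hp 2 2]
    have b2 : |((n 0 : ℝ) * v 0 2 + n 1 * v 1 2) + n 2 * v 2 2| * (k * (4 * ρ)) ≤
        3 * R * (R₃ * (4 * ρ)) := mul_le_mul b1 (mul_le_mul_of_nonneg_right hkR (by positivity))
          (by positivity) (by positivity)
    have b3 : (k : ℝ) * (20 * ρ) ≤ R₃ * (20 * ρ) := mul_le_mul_of_nonneg_right hkR (by positivity)
    have b4 : (k : ℝ) ^ 2 * (4 * ρ) ^ 2 ≤ 16 * (R₃ * ρ) := by
      have e1 : (k : ℝ) ^ 2 * (4 * ρ) ^ 2 = 16 * ((k * ρ) * (k * ρ)) := by ring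
      have e2 : (k : ℝ) * ρ ≤ R₃ * ρ := mul_le_mul_of_nonneg_right hkR hρ
      have e3 : ((k : ℝ) * ρ) * (k * ρ) ≤ (R₃ * ρ) * 1 :=
        mul_le_mul e2 (e2.trans hρ1) (by positivity) (by positivity)
      rw [e1]; linarith
    have b5 : 3 * R * ρ * (k * (4 * ρ)) ≤ 12 * R * R₃ * ρ := by
      have e2 : (k : ℝ) * (4 * ρ) ≤ R₃ * 4 := by
        refine mul_le_mul hkR (by linarith) (by positivity) (by positivity)
      calc 3 * R * ρ * (k * (4 * ρ)) ≤ 3 * R * ρ * (R₃ * 4) :=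
            mul_le_mul_of_nonneg_left e2 (by positivity)
        _ = 12 * R * R₃ * ρ := by ring
    simp only [abs_zero, zero_mul, add_zero]
    nlinarith
  · have : (k : ℝ) * (4 * e) ≤ R₃ * (4 * e) := mul_le_mul_of_nonneg_right hkR (by positivity)
    linarith

end Vale.Agent.P106.H25
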