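import Vale.Agent.P106.H25.LabR
import Vale.Agent.P106.U.CellN

/-!
# P106 / H25 : digits of the nominal position and the two differences `Ed`, `Hd`

* `Cls C t b i' ω ω'` : same letter, same digits of `v`, `w`, close `X, N, Z` at the time `s i'` (scale `t`).
* `tr` : transfer of bounds of `Ed`, `Hd` from one functional to another one.
* `dig_E`, `dig_H` : bounds from the digits of `A k b i'`;  `E_dig`, `H_dig` : digits from the bounds.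
-/

set_option autoImplicit false

namespace Vale.Agent.P106.H25

open Finset Vale.Agent.P127 Vale.Agent.P127.Stk
open Vale.Agent.P127.U.CellD (q2 rd q2_pos q2_add q2_le rd_le lt_rd rd_err rd_mono rd_sub fl1_fl1
  q2_mul_pow div_pow_eq)
open Vale.Agent.P106.U.Cell Vale.Agent.P106.U.H84

/-- difference of the own slopes with respect to `Φ` -/
noncomputable def Ed (Φ : Fu) (l l' : Ray) (p p' s : ℝ) : ℝ :=
  p' * Φ.cN l' s - p * Φ.cN l s - Φ.ka * (l'.v - l.v) - Φ.al * (l'.X s - l.X s)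

/-- difference of the values of `Φ`, with the true slope -/
noncomputable def Hd (Φ : Fu) (l l' : Ray) (p s : ℝ) : ℝ :=
  Φ.cN l s * ((l'.N s - l.N s) - p * (l'.X s - l.X s)) - Φ.ka * l.dz l' s -
    Φ.al * (((l'.X s - l.X s) ^ 2 + (l'.N s - l.N s) ^ 2) / 2)

lemma Ed_eq (Φ : Fu) (l l' : Ray) (p p' s : ℝ) :
    (p' * Φ.cN l' s - Φ.cV l' s) - (p * Φ.cN l s - Φ.cV l s) = Ed Φ l l' p p' s := by
  unfold Ed Fu.cV; ring

lemma Hd_eq (Φ : Fu) (l l' : Ray) (p s : ℝ) :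
    Φ.g l' s - Φ.g l s = Hd Φ l l' p s + (p * Φ.cN l s - Φ.cV l s) * (l'.X s - l.X s) := by
  rw [Fu.g_sub]; unfold Hd; ring

lemma cN_sub (Φ : Fu) (l l' : Ray) (s : ℝ) :
    Φ.cN l' s = Φ.cN l s - Φ.ka * (l'.w - l.w) - Φ.al * (l'.N s - l.N s) := by
  unfold Fu.cN; ring

variable {Ω τ : Type} {C : Pth Ω τ}

/-- closeness at the time `s i'`, at the scale `t` -/
structure Cls (C : Pth Ω τ) (t : ℝ) (b i' : ℕ) (ω ω' : Ω) : Prop where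
  T : C.T i' ω' = C.T i' ω
  v : fl1 b (C.l ω').v = fl1 b (C.l ω).v
  w : fl1 (b - C.μ) ((C.l ω').w + C.o 1) = fl1 (b - C.μ) ((C.l ω).w + C.o 1)
  X : |(C.l ω').X (C.s i' ω) - (C.l ω).X (C.s i' ω)| ≤ t * q2 b
  N : |(C.l ω').N (C.s i' ω) - (C.l ω).N (C.s i' ω)| ≤ 3 * 2 ^ C.μ * (t * q2 b)
  Z : |C.Zs b (C.s i' ω) ω' - C.Zs b (C.s i' ω) ω| ≤ t * q2 b * q2 b

lemma Cls.mono {t t' : ℝ} {b i' : ℕ} {ω ω' : Ω} (h : Cls C t b i' ω ω') (ht : t ≤ t') :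
    Cls C t' b i' ω ω' := by
  have hb := q2_pos b
  refine ⟨h.T, h.v, h.w, h.X.trans ?_, h.N.trans ?_, h.Z.trans ?_⟩
  · gcongr
  · gcongr
  · gcongr

lemma qmu {μ b : ℕ} (h : μ ≤ b) : q2 (b - μ) = 2 ^ μ * q2 b := by
  conv_rhs => rw [show b = μ + (b - μ) by omega, q2_add, ← mul_assoc, q2_mul_pow, one_mul]

/-- **transfer of the bounds to a second functional** -/
theorem tr {K t e h : ℝ} {b i' rk R : ℕ} {ω ω' : Ω} (hK : 1 ≤ K) (ht : 0 < t) (hh : 0 ≤ h)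
    (hC : Cls C t b i' ω ω') (hb : 4 * C.μ ≤ b) (hR : R ≤ rk + b) (hR2 : 2 * C.μ ≤ R)
    {F1 F2 : Fu} {p p' : ℝ}
    (hp : |p| ≤ q2 (2 * C.μ)) (hp' : |p'| ≤ q2 (2 * C.μ))
    (hc1 : 1 ≤ K * |F1.cN (C.l ω) (C.s i' ω)|) (hcK : |F1.cN (C.l ω) (C.s i' ω)| ≤ K)
    (hc2 : |F2.cN (C.l ω) (C.s i' ω)| ≤ K) (hk : |F1.ka| ≤ 2 * K) (hal : |F1.al| * t ≤ K)
    (hdk : |F2.cN (C.l ω) (C.s i' ω) / F1.cN (C.l ω) (C.s i' ω) * F1.ka - F2.ka| ≤ K * q2 rk)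
    (hda : |F2.cN (C.l ω) (C.s i' ω) / F1.cN (C.l ω) (C.s i' ω) * F1.al - F2.al| * t ≤ K * q2 rk)
    (hE : |Ed F1 (C.l ω) (C.l ω') p p' (C.s i' ω)| ≤ e * q2 R)
    (hH : |Hd F1 (C.l ω) (C.l ω') p (C.s i' ω)| ≤ h * (t * q2 b * q2 R)) :
    |Ed F2 (C.l ω) (C.l ω') p p' (C.s i' ω)| ≤ (K ^ 2 * e + 6 * K) * q2 R ∧
    |(C.l ω').N (C.s i' ω) - (C.l ω).N (C.s i' ω)| ≤ K * (h + 16 * K) * (t * q2 b) ∧
    |Hd F2 (C.l ω) (C.l ω') p (C.s i' ω)| ≤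
      3 * K ^ 3 * (h + 16 * K) ^ 2 * (t * q2 b * q2 R) := by
  have hM : (1 : ℝ) ≤ 2 ^ C.μ := one_le_pow₀ (by norm_num)
  have hb0 := q2_pos b
  obtain ⟨r, hr0⟩ : ∃ r : ℝ, q2 R = r * q2 b := ⟨q2 R / q2 b, by field_simp⟩
  have hr : 0 < r := by
    have h1 := q2_pos R
    rw [hr0] at h1
    exact pos_of_mul_pos_left h1 hb0.le
  have hrr : q2 rk ≤ r := by
    have h1 : q2 (rk + b) ≤ q2 R := q2_le hR
    rw [hr0, q2_add] at h1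
    exact le_of_mul_le_mul_right h1 hb0
  have m21 : q2 (2 * C.μ) ≤ 1 := Pth.q2_le_one _
  have hMm : 2 ^ C.μ * q2 (2 * C.μ) ≤ 1 := by
    rw [two_mul, q2_add, ← mul_assoc, q2_mul_pow, one_mul]
    exact Pth.q2_le_one _
  have hMb : (2 ^ C.μ) ^ 2 * q2 b ≤ q2 (2 * C.μ) := by
    have e1 : ((2 : ℝ) ^ C.μ) ^ 2 = 2 ^ (2 * C.μ) := by rw [← pow_mul, mul_comm]
    rw [e1, ← qmu (by omega : 2 * C.μ ≤ b)]
    exact q2_le (by omega)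
  have hv : |(C.l ω').v - (C.l ω).v| ≤ q2 b := fl1_close hC.v
  have hw : |(C.l ω').w - (C.l ω).w| ≤ 2 ^ C.μ * q2 b := by
    have := fl1_close hC.w
    rw [add_sub_add_right_eq_sub, qmu (by omega)] at this
    exact this
  have hw0 : |(C.l ω).w - C.ro 1 (b - C.μ) (C.l ω).w| ≤ 2 ^ C.μ * q2 b := by
    have := C.ro_err 1 (b - C.μ) (C.l ω).w
    rwa [qmu (by omega)] at this
  have hv0 : |(C.l ω).v - rd b (C.l ω).v| ≤ q2 b := by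
    rw [abs_sub_comm]; exact rd_err _ _
  have hz : |(C.l ω).dz (C.l ω') (C.s i' ω) +
      ((C.l ω).v - rd b (C.l ω).v) * ((C.l ω').X (C.s i' ω) - (C.l ω).X (C.s i' ω)) +
      ((C.l ω).w - C.ro 1 (b - C.μ) (C.l ω).w) *
        ((C.l ω').N (C.s i' ω) - (C.l ω).N (C.s i' ω))| ≤ t * q2 b * q2 b := by
    rw [← Pth.Zs_sub hC.v.symm hC.w.symm]
    exact hC.Z
  have hrm : r * q2 b ≤ q2 (2 * C.μ) := by
    rw [← hr0]; exact q2_le hR2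
  have hK0 : 0 < K := by linarith
  rw [hr0] at hE hH ⊢
  unfold Ed at hE
  have hdk' := hdk.trans (mul_le_mul_of_nonneg_left hrr hK0.le)
  have hda' := hda.trans (mul_le_mul_of_nonneg_left hrr hK0.le)
  have hres := H_tr (c2 := F2.cN (C.l ω) (C.s i' ω)) (k2 := F2.ka) (a2 := F2.al) (H1 :=
    Hd F1 (C.l ω) (C.l ω') p (C.s i' ω)) hK hb0 ht hM m21 hMm hMb hh hr hrm hC.X hC.N hv0 hw0 hz
    hc1 hcK hc2 hk hal hp hdk' hda' rfl hH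
  refine ⟨?_, hres.1, hres.2⟩
  exact E_tr hK hb0 hM hMm hr hC.X hC.N hv hw hc1 hc2 hp' hdk' hda' (cN_sub F1 _ _ _)
    (cN_sub F2 _ _ _) hE

/-! ### the slab functionals -/

lemma Fs_ga {i' k : ℕ} {ω ω' : Ω} (h : C.T i' ω' = C.T i' ω) (hk : k ≤ i') :
    (Fs C i' k ω').ga = (Fs C i' k ω).ga := by
  show (C.F k ω').ga = (C.F k ω).ga
  unfold Pth.F Pth.Fv
  rw [T_eq C h hk]

lemma Fs_al {i' k : ℕ} {ω ω' : Ω} (h : C.T i' ω' = C.T i' ω) (hk : k ≤ i') :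
    (Fs C i' k ω').al = (Fs C i' k ω).al := by
  show (C.F k ω').al = (C.F k ω).al
  unfold Pth.F Pth.Fv
  rw [T_eq C h hk]

lemma Fs_ka {i' k : ℕ} {ω ω' : Ω} (h : C.T i' ω' = C.T i' ω) (hk : k ≤ i') :
    (Fs C i' k ω').ka = (Fs C i' k ω).ka := by
  show (C.F k ω').ka - (C.s i' ω' - C.s k ω') * (C.F k ω').al =
    (C.F k ω).ka - (C.s i' ω - C.s k ω) * (C.F k ω).al
  rw [s_eq C (T_eq C h hk), s_eq C h]
  unfold Pth.F Pth.Fv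
  rw [T_eq C h hk]

lemma Fs_cN {i' k : ℕ} {ω ω' : Ω} (h : C.T i' ω' = C.T i' ω) (hk : k ≤ i') (l : Ray) (s : ℝ) :
    (Fs C i' k ω').cN l s = (Fs C i' k ω).cN l s := by
  unfold Fu.cN
  rw [Fs_ga h hk, Fs_ka h hk, Fs_al h hk]

/-- slopes of the slab functional and own slopes -/
lemma sl_Ed {b i' k : ℕ} {ω ω' : Ω} (hT : C.T i' ω' = C.T i' ω) (hk : k ≤ i')
    (hv : fl1 b (C.l ω').v = fl1 b (C.l ω).v) :
    C.sl k b ω' - C.sl k b ω =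
      Ed (Fs C i' k ω) (C.l ω) (C.l ω') (C.p ω) (C.p ω') (C.s i' ω) +
        (rd (C.rf k) (C.p ω') - C.p ω') * (Fs C i' k ω).cN (C.l ω') (C.s i' ω) -
        (rd (C.rf k) (C.p ω) - C.p ω) * (Fs C i' k ω).cN (C.l ω) (C.s i' ω) := by
  have e : C.sl k b ω' - C.sl k b ω = (Fs C i' k ω').ph - (Fs C i' k ω).ph := by
    rw [Pth.sl_sub (T_eq C hT hk).symm hv.symm]
    unfold Fs Fu.sh
    rfl
  rw [e, Fs_ph, Fs_ph, s_eq C hT, Fs_cN hT hk, Fs_ka hT hk, Fs_al hT hk]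
  unfold Ed
  ring

/-- values of the slab functional -/
lemma g_Hd {b i' k : ℕ} {ω : Ω} (l' : Ray) :
    (Gs C i' k b ω).g l' (C.s i' ω) - (Gs C i' k b ω).g (C.l ω) (C.s i' ω) =
      Hd (Fs C i' k ω) (C.l ω) l' (C.p ω) (C.s i' ω) -
        ((rd (C.rf k) (C.p ω) - C.p ω) * (Fs C i' k ω).cN (C.l ω) (C.s i' ω) + er C k b ω) *
          (l'.X (C.s i' ω) - (C.l ω).X (C.s i' ω)) := by
  rw [Gs_sub]
  unfold Hd
  ring

lemma Gs_eq' {b i' k : ℕ} {ω ω' : Ω} (hT : C.T i' ω' = C.T i' ω) (hk : k ≤ i')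
    (hv : fl1 b (C.l ω').v = fl1 b (C.l ω).v)
    (hr : fl1 (C.R k b) (C.sl k b ω' + C.o 4) = fl1 (C.R k b) (C.sl k b ω + C.o 4)) :
    Gs C i' k b ω' = Gs C i' k b ω := by
  unfold Gs
  rw [Pth.Fr_eq (T_eq C hT hk).symm hv.symm hr.symm, s_eq C hT, s_eq C (T_eq C hT hk)]

/-- `Ed` is small if the digits of the slope are the same -/
lemma dig_E {K : ℝ} {b i' k : ℕ} {ω ω' : Ω} (hK : 1 ≤ K) (ho : C.Ok K ω) (ho' : C.Ok K ω')
    (hT : C.T i' ω' = C.T i' ω) (hk : k ≤ i') (hv : fl1 b (C.l ω').v = fl1 b (C.l ω).v)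
    (hs : fl1 (C.R k b) (C.sl k b ω' + C.o 4) = fl1 (C.R k b) (C.sl k b ω + C.o 4)) :
    |Ed (Fs C i' k ω) (C.l ω) (C.l ω') (C.p ω) (C.p ω') (C.s i' ω)| ≤ 3 * K * q2 (C.R k b) := by
  have h1 := fl1_close hs
  rw [add_sub_add_right_eq_sub, sl_Ed hT hk hv] at h1
  have h2 : |(Fs C i' k ω).cN (C.l ω) (C.s i' ω)| ≤ K := co_cK (by linarith) ho k
  have h3 : |(Fs C i' k ω).cN (C.l ω') (C.s i' ω)| ≤ K := by
    rw [← Fs_cN hT hk, ← s_eq C hT]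
    exact co_cK (by linarith) ho' k
  have h4 : q2 (C.rf k) ≤ q2 (C.R k b) := q2_le (C.R_le_rf k b)
  have s1 := mulb ((rd_err (C.rf k) (C.p ω')).trans h4) h3
  have s2 := mulb ((rd_err (C.rf k) (C.p ω)).trans h4) h2
  have hq := q2_pos (C.R k b)
  have hq1 : q2 (C.R k b) ≤ K * q2 (C.R k b) := by nlinarith
  rw [abs_le] at *
  constructor <;> linarith [h1.1, h1.2, s1.1, s1.2, s2.1, s2.2]

/-- converse -/
lemma E_dig {K e : ℝ} {b i' k : ℕ} {ω ω' : Ω} (hK : 1 ≤ K) (ho : C.Ok K ω) (ho' : C.Ok K ω')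
    (hT : C.T i' ω' = C.T i' ω) (hk : k ≤ i') (hv : fl1 b (C.l ω').v = fl1 b (C.l ω).v)
    (hE : |Ed (Fs C i' k ω) (C.l ω) (C.l ω') (C.p ω) (C.p ω') (C.s i' ω)| ≤ e * q2 (C.R k b)) :
    |(C.sl k b ω' + C.o 4) - (C.sl k b ω + C.o 4)| ≤ (e + 2 * K) * q2 (C.R k b) := by
  rw [add_sub_add_right_eq_sub, sl_Ed hT hk hv]
  have h2 : |(Fs C i' k ω).cN (C.l ω) (C.s i' ω)| ≤ K := co_cK (by linarith) ho k
  have h3 : |(Fs C i' k ω).cN (C.l ω') (C.s i' ω)| ≤ K := by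
    rw [← Fs_cN hT hk, ← s_eq C hT]
    exact co_cK (by linarith) ho' k
  have h4 : q2 (C.rf k) ≤ q2 (C.R k b) := q2_le (C.R_le_rf k b)
  have s1 := mulb ((rd_err (C.rf k) (C.p ω')).trans h4) h3
  have s2 := mulb ((rd_err (C.rf k) (C.p ω)).trans h4) h2
  rw [abs_le] at *
  constructor <;> linarith [hE.1, hE.2, s1.1, s1.2, s2.1, s2.2]

/-- `Hd` is small if the digits of the value are the same -/
lemma dig_H {K t : ℝ} {b i' k : ℕ} {ω ω' : Ω} (hK : 1 ≤ K) (ho : C.Ok K ω) (ht : 0 < t)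
    (hT : C.T i' ω' = C.T i' ω) (hk : k ≤ i') (hv : fl1 b (C.l ω').v = fl1 b (C.l ω).v)
    (hs : fl1 (C.R k b) (C.sl k b ω' + C.o 4) = fl1 (C.R k b) (C.sl k b ω + C.o 4))
    (hX : |(C.l ω').X (C.s i' ω) - (C.l ω).X (C.s i' ω)| ≤ t * q2 b)
    (hg : |(Gs C i' k b ω').g (C.l ω') (C.s i' ω') - (Gs C i' k b ω).g (C.l ω) (C.s i' ω)| ≤
      t * q2 b * q2 (C.R k b)) :
    |Hd (Fs C i' k ω) (C.l ω) (C.l ω') (C.p ω) (C.s i' ω)| ≤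
      3 * K * (t * q2 b * q2 (C.R k b)) := by
  rw [s_eq C hT, Gs_eq' hT hk hv hs, g_Hd] at hg
  have h2 : |(Fs C i' k ω).cN (C.l ω) (C.s i' ω)| ≤ K := co_cK (by linarith) ho k
  have h4 : q2 (C.rf k) ≤ q2 (C.R k b) := q2_le (C.R_le_rf k b)
  have s2 := mulb (addb (mulb ((rd_err (C.rf k) (C.p ω)).trans h4) h2)
    (er_le (C := C) (b := b) (ω := ω) k)) hX
  have hq := q2_pos (C.R k b)
  have hb := q2_pos b
  have hV : t * q2 b * q2 (C.R k b) ≤ K * (t * q2 b * q2 (C.R k b)) := by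
    have : 0 ≤ t * q2 b * q2 (C.R k b) := by positivity
    nlinarith
  have e1 : (q2 (C.R k b) * K + q2 (C.R k b)) * (t * q2 b) =
      K * (t * q2 b * q2 (C.R k b)) + t * q2 b * q2 (C.R k b) := by ring
  rw [e1] at s2
  rw [abs_le] at *
  constructor <;> linarith [hg.1, hg.2, s2.1, s2.2]

/-- converse -/
lemma H_dig {K t h : ℝ} {b i' k : ℕ} {ω ω' : Ω} (hK : 1 ≤ K) (ho : C.Ok K ω) (ht : 0 < t)
    (hT : C.T i' ω' = C.T i' ω) (hk : k ≤ i') (hv : fl1 b (C.l ω').v = fl1 b (C.l ω).v)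
    (hs : fl1 (C.R k b) (C.sl k b ω' + C.o 4) = fl1 (C.R k b) (C.sl k b ω + C.o 4))
    (hX : |(C.l ω').X (C.s i' ω) - (C.l ω).X (C.s i' ω)| ≤ t * q2 b)
    (hH : |Hd (Fs C i' k ω) (C.l ω) (C.l ω') (C.p ω) (C.s i' ω)| ≤ h * (t * q2 b * q2 (C.R k b))) :
    |(Gs C i' k b ω').g (C.l ω') (C.s i' ω') - (Gs C i' k b ω).g (C.l ω) (C.s i' ω)| ≤
      (h + 2 * K) * (t * q2 b * q2 (C.R k b)) := by
  rw [s_eq C hT, Gs_eq' hT hk hv hs, g_Hd]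
  have h2 : |(Fs C i' k ω).cN (C.l ω) (C.s i' ω)| ≤ K := co_cK (by linarith) ho k
  have h4 : q2 (C.rf k) ≤ q2 (C.R k b) := q2_le (C.R_le_rf k b)
  have s2 := mulb (addb (mulb ((rd_err (C.rf k) (C.p ω)).trans h4) h2)
    (er_le (C := C) (b := b) (ω := ω) k)) hX
  have hq := q2_pos (C.R k b)
  have hb := q2_pos b
  have hV : t * q2 b * q2 (C.R k b) ≤ K * (t * q2 b * q2 (C.R k b)) := by
    have : 0 ≤ t * q2 b * q2 (C.R k b) := by positivity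
    nlinarith
  have e1 : (q2 (C.R k b) * K + q2 (C.R k b)) * (t * q2 b) =
      K * (t * q2 b * q2 (C.R k b)) + t * q2 b * q2 (C.R k b) := by ring
  rw [e1] at s2
  have e2 : (h + 2 * K) * (t * q2 b * q2 (C.R k b)) = h * (t * q2 b * q2 (C.R k b)) +
    2 * (K * (t * q2 b * q2 (C.R k b))) := by ring
  rw [e2]
  rw [abs_le] at *
  constructor <;> linarith [hH.1, hH.2, s2.1, s2.2]

end Vale.Agent.P106.H25
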