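import Vale.Agent.P106.H25.LabS

/-!
# P106 / H25 : labels of the state and nominal positions, entropies

`L1_hc`, `L2_hc` : `H(lbk 1 1 | A k, cell k, T i') ≤ c`, `H(A j | lbk 2^p₁ 2^p₂, cell k, T i') ≤ c`; `lab` : the two together.
-/

set_option autoImplicit false

namespace Vale.Agent.P106.H25

open Finset Vale.Agent.P127 Vale.Agent.P127.Stk
open Vale.Agent.P127.U.CellD (q2 rd q2_pos q2_add q2_le rd_le lt_rd rd_err rd_mono rd_sub fl1_fl1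
  q2_mul_pow div_pow_eq)
open Vale.Agent.P106.U.Cell Vale.Agent.P106.U.H84

variable {Ω τ : Type} [Fintype Ω] {C : Pth Ω τ}

/-- hypotheses of the label comparison: state step `k`, coarse step `j`, time of the step `i'`, functional `Φ` -/
structure LabD (P : Law Ω) (C : Pth Ω τ) (K : ℝ) (c j k b i' p₁ p₂ : ℕ) (Φ : Ω → Fu) : Prop where
  K1 : 1 ≤ K
  ok : ∀ ω, 0 < P.w ω → C.Ok K ω
  c : (2 : ℝ) ^ c ≤ 16 * K ^ 3
  jk : j ≤ k
  ki : k ≤ i'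
  b4 : 4 * C.μ ≤ b
  Rk : C.R k b = C.rk k + b
  a : C.a k = C.a j + p₁
  R : C.R k b = C.R j b + p₂
  R2 : 2 * C.μ ≤ C.R j b
  Fk : ∀ ω, 0 < P.w ω → Fok C K k i' ω (Φ ω)
  Fj : ∀ ω, 0 < P.w ω → Fok C K j i' ω (Φ ω)
  eq : ∀ ω ω', 0 < P.w ω → 0 < P.w ω' → C.cell k b ω' = C.cell k b ω → C.T i' ω' = C.T i' ω →
    Φ ω' = Φ ω

/-- the constant -/
noncomputable def nK (K : ℝ) : ℕ := ⌈7000 * K ^ 30⌉₊

lemma nK_ge1 {K : ℝ} : 6 * kE K ≤ nK K := by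
  have h : 7000 * K ^ 30 ≤ (nK K : ℝ) := Nat.le_ceil _
  have h2 : 0 ≤ K ^ 30 := by positivity
  unfold kE
  linarith

lemma nK_ge2 {K : ℝ} : kC K ≤ nK K := Nat.le_ceil _

lemma nK_ge3 {K : ℝ} : kE K ≤ nK K := by
  have h : 7000 * K ^ 30 ≤ (nK K : ℝ) := Nat.le_ceil _
  have h2 : 0 ≤ K ^ 30 := by positivity
  unfold kE
  linarith

lemma card_Icc3 (z : ℤ) (M : ℕ) : (Finset.Icc (z - (M + 1)) (z + (M + 1))).card = 2 * M + 3 := by
  rw [Int.card_Icc]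
  omega

lemma mem_Icc3 {x z : ℤ} {M : ℕ} (h : |x - z| ≤ (M : ℤ) + 1) :
    x ∈ Finset.Icc (z - (M + 1)) (z + (M + 1)) := by
  rw [abs_le] at h
  rw [Finset.mem_Icc]
  constructor <;> linarith [h.1, h.2]

theorem L1_hc {P : Law Ω} {K : ℝ} {c j k b i' p₁ p₂ : ℕ} {Φ : Ω → Fu}
    (H : LabD P C K c j k b i' p₁ p₂ Φ) :
    hc P (fun ω => lbk 1 1 (stX C Φ c k b i' ω) (stM C Φ c k b i' ω))
      (fun ω => (C.A k b i' ω, (C.cell k b ω, C.T i' ω))) ≤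
      2 * Real.log ((2 * nK K + 3 : ℕ) : ℝ) := by
  classical
  have hb := H.b4
  set f1 : Ω → ℤ := fun ω => ⌊stX C Φ c k b i' ω 2 / 1⌋ with hf1
  set f2 : Ω → ℤ := fun ω => ⌊(stM C Φ c k b i' ω - 1 * ⌊stX C Φ c k b i' ω 2 / 1⌋ *
    stX C Φ c k b i' ω 0) / (1 * 1)⌋ with hf2
  have key : ∀ ω ω', 0 < P.w ω → 0 < P.w ω' →
      (C.A k b i' ω', (C.cell k b ω', C.T i' ω')) = (C.A k b i' ω, (C.cell k b ω, C.T i' ω)) →
      |stX C Φ c k b i' ω' 2 - stX C Φ c k b i' ω 2| ≤ kE K ∧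
      (∀ e0 : ℝ, |stX C Φ c k b i' ω 2 - e0| ≤ 1 →
        |(stM C Φ c k b i' ω' - e0 * stX C Φ c k b i' ω' 0) -
          (stM C Φ c k b i' ω - e0 * stX C Φ c k b i' ω 0)| ≤ 6 * kE K) := by
    intro ω ω' hω hω' e
    simp only [Prod.mk.injEq] at e
    obtain ⟨e1, e2, e3⟩ := e
    exact L1_E H.K1 (H.ok ω hω) (H.ok ω' hω') H.ki hb H.Rk (H.Fk ω hω)
      (H.eq ω ω' hω hω' e2 e3) e3 (H.ok ω hω).p1 (H.ok ω' hω').p1 e1
  have h1 : hc P f1 (fun ω => (C.A k b i' ω, (C.cell k b ω, C.T i' ω))) ≤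
      Real.log ((2 * nK K + 3 : ℕ) : ℝ) := by
    refine hc_le_log P _ _ _ fun ω hω => ⟨Finset.Icc (f1 ω - (nK K + 1)) (f1 ω + (nK K + 1)),
      (card_Icc3 _ _).le, fun ω' hω' e => ?_⟩
    have hk := (key ω ω' hω hω' e).1
    refine mem_Icc3 (floor_range ?_)
    rw [div_one, div_one]
    exact hk.trans nK_ge3
  have h2 : hc P (fun ω => lbk 1 1 (stX C Φ c k b i' ω) (stM C Φ c k b i' ω))
      (fun ω => (f1 ω, (C.A k b i' ω, (C.cell k b ω, C.T i' ω)))) ≤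
      Real.log ((2 * nK K + 3 : ℕ) : ℝ) := by
    refine hc_le_log P _ _ _ fun ω hω => ⟨(Finset.Icc (f2 ω - (nK K + 1))
      (f2 ω + (nK K + 1))).image (fun z => (⌊stX C Φ c k b i' ω 0 / 1⌋,
        ⌊stX C Φ c k b i' ω 1 / 1⌋, f1 ω, z)), (Finset.card_image_le).trans (card_Icc3 _ _).le,
      fun ω' hω' e => ?_⟩
    simp only [Prod.mk.injEq] at e
    obtain ⟨e0, e1, e2, e3⟩ := e
    have hk := (key ω ω' hω hω' (by rw [e1, e2, e3])).2 (f1 ω) (by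
      have a1 := Int.floor_le (stX C Φ c k b i' ω 2 / 1)
      have a2 := Int.lt_floor_add_one (stX C Φ c k b i' ω 2 / 1)
      simp only [hf1]
      rw [div_one] at *
      rw [abs_le]
      constructor <;> linarith)
    rw [Finset.mem_image]
    refine ⟨f2 ω', mem_Icc3 (floor_range ?_), ?_⟩
    · have e4 : (⌊stX C Φ c k b i' ω' 2 / 1⌋ : ℤ) = f1 ω := e0
      rw [e4]
      have e5 : (⌊stX C Φ c k b i' ω 2 / 1⌋ : ℤ) = f1 ω := rfl
      rw [e5]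
      simp only [one_mul, mul_one, div_one]
      exact hk.trans nK_ge1
    · simp only [lbk, Prod.mk.injEq]
      simp only [Pth.A, Prod.mk.injEq] at e1
      obtain ⟨-, -, k3, -, k5, -, -⟩ := e1
      refine ⟨?_, ?_, e0.symm, rfl⟩
      · simp only [stX, Matrix.cons_val_zero, div_one]
        exact k3.symm
      · simp only [stX, Matrix.cons_val_one, div_one]
        exact k5.symm
  have h3 := hc_le_add P (fun ω => lbk 1 1 (stX C Φ c k b i' ω) (stM C Φ c k b i' ω)) f1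
    (fun ω => (C.A k b i' ω, (C.cell k b ω, C.T i' ω)))
  linarith

theorem L2_hc {P : Law Ω} {K : ℝ} {c j k b i' p₁ p₂ : ℕ} {Φ : Ω → Fu}
    (H : LabD P C K c j k b i' p₁ p₂ Φ) :
    hc P (C.A j b i') (fun ω => (lbk (2 ^ p₁) (2 ^ p₂) (stX C Φ c k b i' ω)
      (stM C Φ c k b i' ω), (C.cell k b ω, C.T i' ω))) ≤
      3 * Real.log ((2 * nK K + 3 : ℕ) : ℝ) := by
  classical
  have hb := H.b4
  set Y : Ω → (ℤ × ℤ × ℤ × ℤ) × ((τ × Pth.Dg) × τ) := fun ω => (lbk (2 ^ p₁) (2 ^ p₂)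
    (stX C Φ c k b i' ω) (stM C Φ c k b i' ω), (C.cell k b ω, C.T i' ω)) with hY
  set c6 : Ω → ℤ := fun ω => fl1 (C.R j b) (C.sl j b ω + C.o 4) with hc6
  set c4 : Ω → ℤ := fun ω => fl1 (C.a j + b) ((C.l ω).N (C.s i' ω)) with hc4
  set c7 : Ω → ℤ := fun ω => fl1 (C.a j + b + C.R j b)
    ((Gs C i' j b ω).g (C.l ω) (C.s i' ω)) with hc7
  have key : ∀ ω ω', 0 < P.w ω → 0 < P.w ω' → Y ω' = Y ω →
      (|(C.l ω').N (C.s i' ω) - (C.l ω).N (C.s i' ω)| ≤ kC K * q2 (C.a j + b) ∧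
      |(C.sl j b ω' + C.o 4) - (C.sl j b ω + C.o 4)| ≤ kC K * q2 (C.R j b) ∧
      (fl1 (C.R j b) (C.sl j b ω' + C.o 4) = fl1 (C.R j b) (C.sl j b ω + C.o 4) →
      |(Gs C i' j b ω').g (C.l ω') (C.s i' ω') - (Gs C i' j b ω).g (C.l ω) (C.s i' ω)| ≤
        kC K * q2 (C.a j + b + C.R j b))) ∧ C.s i' ω' = C.s i' ω ∧
      (Cls C (q2 (C.a j)) b i' ω ω' ∧
      fl1 (C.a j + b) ((C.l ω').X (C.s i' ω')) = fl1 (C.a j + b) ((C.l ω).X (C.s i' ω)) ∧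
      fl1 (C.a j + 2 * b) (C.Zs b (C.s i' ω') ω') =
        fl1 (C.a j + 2 * b) (C.Zs b (C.s i' ω) ω)) := by
    intro ω ω' hω hω' e
    simp only [hY, Prod.mk.injEq] at e
    obtain ⟨e1, e2, e3⟩ := e
    exact ⟨L2_E H.K1 H.c (H.ok ω hω) (H.ok ω' hω') H.jk H.ki hb H.Rk H.a H.R H.R2 (H.Fj ω hω)
      (H.eq ω ω' hω hω' e2 e3) e3 (H.ok ω hω).p1 (H.ok ω' hω').p1 e2 e1, s_eq C e3,
      Cls_lab H.ki (by omega) H.a e3 e2 e1⟩
  have h1 : hc P c6 Y ≤ Real.log ((2 * nK K + 3 : ℕ) : ℝ) := by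
    refine hc_le_log P _ _ _ fun ω hω => ⟨Finset.Icc (c6 ω - (nK K + 1)) (c6 ω + (nK K + 1)),
      (card_Icc3 _ _).le, fun ω' hω' e => ?_⟩
    have hk := (key ω ω' hω hω' e).1.2.1
    refine mem_Icc3 (fl1_range (hk.trans ?_))
    exact mul_le_mul_of_nonneg_right nK_ge2 (q2_pos _).le
  have h2 : hc P c4 (fun ω => (c6 ω, Y ω)) ≤ Real.log ((2 * nK K + 3 : ℕ) : ℝ) := by
    refine hc_le_log P _ _ _ fun ω hω => ⟨Finset.Icc (c4 ω - (nK K + 1)) (c4 ω + (nK K + 1)),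
      (card_Icc3 _ _).le, fun ω' hω' e => ?_⟩
    have hk := key ω ω' hω hω' (Prod.mk.inj e).2
    refine mem_Icc3 (fl1_range ?_)
    rw [hk.2.1]
    exact hk.1.1.trans (mul_le_mul_of_nonneg_right nK_ge2 (q2_pos _).le)
  have h3 : hc P (C.A j b i') (fun ω => (c4 ω, (c6 ω, Y ω))) ≤
      Real.log ((2 * nK K + 3 : ℕ) : ℝ) := by
    refine hc_le_log P _ _ _ fun ω hω => ⟨(Finset.Icc (c7 ω - (nK K + 1))
      (c7 ω + (nK K + 1))).image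
      (fun z => (fl1 b (C.l ω).v, fl1 (b - C.μ) ((C.l ω).w + C.o 1),
        fl1 (C.a j + b) ((C.l ω).X (C.s i' ω)), fl1 (C.a j + b) ((C.l ω).N (C.s i' ω)),
        fl1 (C.a j + 2 * b) (C.Zs b (C.s i' ω) ω), c6 ω, z)),
      (Finset.card_image_le).trans (card_Icc3 _ _).le, fun ω' hω' e => ?_⟩
    simp only [Prod.mk.injEq] at e
    obtain ⟨e4, e6, eY⟩ := e
    have hk := key ω ω' hω hω' eY
    have hg := hk.1.2.2 e6
    rw [Finset.mem_image]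
    refine ⟨c7 ω', mem_Icc3 (fl1_range (hg.trans ?_)), ?_⟩
    · exact mul_le_mul_of_nonneg_right nK_ge2 (q2_pos _).le
    · have g1 := hk.2.2.1.v
      have g2 := hk.2.2.1.w
      have g3 := hk.2.2.2.1
      have g5 := hk.2.2.2.2
      have g4 : fl1 (C.a j + b) ((C.l ω').N (C.s i' ω')) =
        fl1 (C.a j + b) ((C.l ω).N (C.s i' ω)) := e4
      unfold Pth.A
      rw [g1, g2, g3, g4, g5]
      simp only [Prod.mk.injEq, true_and]
      exact ⟨e6.symm, rfl⟩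
  have h4 := hc_le_add P (C.A j b i') c6 Y
  have h5 := hc_le_add P (C.A j b i') c4 (fun ω => (c6 ω, Y ω))
  linarith

/-- **from the label of the state to the nominal positions** -/
theorem lab {P : Law Ω} {K : ℝ} {c j k b i' p₁ p₂ : ℕ} {Φ : Ω → Fu}
    (H : LabD P C K c j k b i' p₁ p₂ Φ) :
    hc P (fun ω => lbk 1 1 (stX C Φ c k b i' ω) (stM C Φ c k b i' ω))
      (fun ω => (lbk (2 ^ p₁) (2 ^ p₂) (stX C Φ c k b i' ω) (stM C Φ c k b i' ω),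
        (C.cell k b ω, C.T i' ω))) ≤
    hc P (C.A k b i') (fun ω => (C.A j b i' ω, (C.cell k b ω, C.T i' ω))) +
      5 * Real.log ((2 * nK K + 3 : ℕ) : ℝ) := by
  have h1 := L1_hc H
  have h2 := L2_hc H
  set L : Ω → ℤ × ℤ × ℤ × ℤ := fun ω => lbk 1 1 (stX C Φ c k b i' ω) (stM C Φ c k b i' ω)
  set Y : Ω → (ℤ × ℤ × ℤ × ℤ) × ((τ × Pth.Dg) × τ) := fun ω => (lbk (2 ^ p₁) (2 ^ p₂)
    (stX C Φ c k b i' ω) (stM C Φ c k b i' ω), (C.cell k b ω, C.T i' ω)) with hY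
  have g1 := hc_le_add P L (C.A j b i') Y
  have g2 := hc_le_add P L (C.A k b i') (fun ω => (C.A j b i' ω, Y ω))
  have g3 : hc P (C.A k b i') (fun ω => (C.A j b i' ω, Y ω)) ≤
      hc P (C.A k b i') (fun ω => (C.A j b i' ω, (C.cell k b ω, C.T i' ω))) := by
    refine hc_mono_right P _ fun ω ω' _ _ e => ?_
    simp only [hY, Prod.mk.injEq] at e ⊢
    exact ⟨e.1, e.2.2.1, e.2.2.2⟩
  have g4 : hc P L (fun ω => (C.A k b i' ω, (C.A j b i' ω, Y ω))) ≤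
      hc P L (fun ω => (C.A k b i' ω, (C.cell k b ω, C.T i' ω))) := by
    refine hc_mono_right P _ fun ω ω' _ _ e => ?_
    simp only [hY, Prod.mk.injEq] at e ⊢
    exact ⟨e.1, e.2.2.2.1, e.2.2.2.2⟩
  linarith

end Vale.Agent.P106.H25
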