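import Vale.Agent.P106.H25.LabH
import Vale.Agent.P106.U.H466.Defs

/-!
# P106 / H25 : helper466's functional `Phi` is comparable with the slab functionals (`Fok`)
-/

set_option autoImplicit false

namespace Vale.Agent.P106.H25

open Finset Vale.Agent.P127 Vale.Agent.P127.Stk
open Vale.Agent.P127.U.CellD (q2 rd q2_pos q2_add q2_le rd_le lt_rd rd_err rd_mono rd_sub fl1_fl1
  q2_mul_pow div_pow_eq)
open Vale.Agent.P106.U.Cell Vale.Agent.P106.U.H84 Vale.Agent.P106.U.H466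

variable {Ω τ : Type} {C : Pth Ω τ}

lemma Ok_mono {K K' : ℝ} {ω : Ω} (hK : 0 ≤ K) (h : K ≤ K') (ho : C.Ok K ω) : C.Ok K' ω := by
  have hcN : ∀ i, 0 ≤ (C.F i ω).cN (C.l ω) (C.s i ω) := by
    intro i
    by_contra hcon
    push Not at hcon
    have := mul_nonpos_of_nonneg_of_nonpos hK hcon.le
    linarith [ho.n1 i]
  refine ⟨ho.v1, ho.w1, ho.p1, fun i => (ho.n1 i).trans (mul_le_mul_of_nonneg_right h (hcN i)),
    fun i => (ho.n2 i).trans h, fun i => (ho.k1 i).trans h, fun i => (ho.a1 i).trans h,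
    fun i j hij => ?_⟩
  have a := ho.ag i j hij
  have hq := q2_pos (C.rk i)
  exact ⟨a.cN.trans (mul_le_mul_of_nonneg_right h hq.le),
    a.ka.trans (mul_le_mul_of_nonneg_right h hq.le),
    a.al.trans (mul_le_mul_of_nonneg_right h hq.le)⟩

/-- kappa of the late slab relative to the early slab -/
lemma TT_le {K : ℝ} {f i : ℕ} {ω : Ω} (hK : 1 ≤ K) (ho : C.Ok K ω) (hfi : f ≤ i) :
    |TT C f i ω| ≤ 2 * K ^ 3 * q2 (C.rk f) := by
  obtain ⟨-, r2, -⟩ := Pth.ratios hK (ho.ag f i hfi) (ho.n1 i) (Pth.F_cN_abs_sh ho hK f i)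
    (ho.k1 i) (ho.a1 i)
  have e : ((C.F f ω).sh (C.s i ω - C.s f ω)).cN (C.l ω) (C.s i ω) =
      (C.F f ω).cN (C.l ω) (C.s f ω) := cN_F C f ω (C.s i ω)
  rw [e] at r2
  exact r2

lemma rho_le {K : ℝ} {f i : ℕ} {ω : Ω} (hK : 1 ≤ K) (ho : C.Ok K ω) :
    |rho C f i ω| ≤ K ^ 2 := by
  unfold rho
  refine rat_le (by linarith) ?_ (Pth.cN_abs ho hK f)
  exact (ho.n1 i).trans (mul_le_mul_of_nonneg_left (le_abs_self _) (by linarith))

/-- real part of `fok_gen` -/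
lemma fok_real {K A B I c1 cΦ δ ka kan al aln ki t r : ℝ} (hK : 1 ≤ K) (hr : 0 ≤ r)
    (hB : |B| ≤ K) (hI : |I| ≤ K) (hI1 : 1 ≤ K * |I|) (hc1 : |c1| ≤ K)
    (hc11 : 1 ≤ K * |c1|) (hΦ : cΦ = c1 + δ) (hδ : |δ| ≤ 2 * K ^ 3 * r) (hδ2 : 2 * K * |δ| ≤ 1)
    (hAc : |A - c1| ≤ K * r) (hBI : |I - B| ≤ K * r) (hka : ka = B / I * ki) (hki : |ki| ≤ K)
    (hkan : |ki - kan| ≤ K * r) (hal : |al| * t ≤ K) (ht : 0 < t) (haln : |aln - al| * t ≤ K * r) :
    1 ≤ 9 * K ^ 7 * |cΦ| ∧ |cΦ| ≤ 9 * K ^ 7 ∧ |ka| ≤ 2 * (9 * K ^ 7) ∧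
      |A / cΦ * ka - kan| ≤ 9 * K ^ 7 * r ∧ |A / cΦ * al - aln| * t ≤ 9 * K ^ 7 * r := by
  have hK0 : 0 < K := by linarith
  have k1 : (1 : ℝ) ≤ K ^ 2 := one_le_pow₀ hK
  have k7 : K ≤ K ^ 7 := le_self_pow₀ hK (by norm_num)
  have k37 : K ^ 3 ≤ K ^ 7 := pow_le_pow_right₀ hK (by norm_num)
  have k57 : K ^ 5 ≤ K ^ 7 := pow_le_pow_right₀ hK (by norm_num)
  have k17 : (1 : ℝ) ≤ K ^ 7 := one_le_pow₀ hK
  -- lower bound of `cΦ`
  have hlow : 1 ≤ 2 * K * |cΦ| := by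
    have h1 : |c1| ≤ |cΦ| + |δ| := by
      have : c1 = cΦ - δ := by rw [hΦ]; ring
      rw [this]
      exact abs_sub _ _
    have h2 : K * |c1| ≤ K * |cΦ| + K * |δ| := by
      have := mul_le_mul_of_nonneg_left h1 hK0.le
      linarith
    linarith
  have hup : |cΦ| ≤ 2 * K := by
    rw [hΦ]
    have h2 : |δ| ≤ K := by
      have h3 : 0 ≤ |δ| := abs_nonneg _
      nlinarith
    exact (addb hc1 h2).trans (by linarith)
  have hΦ0 : cΦ ≠ 0 := by rintro h0; rw [h0, abs_zero, mul_zero] at hlow; linarith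
  have hI0 : I ≠ 0 := by rintro h0; rw [h0, abs_zero, mul_zero] at hI1; linarith
  have hinvΦ : |1 / cΦ| ≤ 2 * K := by
    rw [abs_div, abs_one, div_le_iff₀ (abs_pos.2 hΦ0)]
    linarith
  have hinvI : |1 / I| ≤ K := by
    rw [abs_div, abs_one, div_le_iff₀ (abs_pos.2 hI0)]
    linarith
  have hrat : |B / I| ≤ K ^ 2 := by
    rw [div_eq_mul_one_div]
    exact (mulb hB hinvI).trans (le_of_eq (by ring))
  refine ⟨?_, ?_, ?_, ?_, ?_⟩
  · refine hlow.trans (mul_le_mul_of_nonneg_right ?_ (abs_nonneg _))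
    linarith
  · linarith
  · rw [hka]
    refine (mulb hrat hki).trans ?_
    have : K ^ 2 * K = K ^ 3 := by ring
    rw [this]; linarith
  · -- `A / cΦ * (B / I) - 1`
    have hone : |A / cΦ * (B / I) - 1| ≤ 8 * K ^ 6 * r := by
      have e : A / cΦ * (B / I) - 1 = ((A - c1) * B - c1 * (I - B) - δ * I) *
          ((1 / cΦ) * (1 / I)) := by
        rw [hΦ] at hΦ0 ⊢
        field_simp
        ring
      rw [e]
      have s1 := subb (subb (mulb hAc hB) (mulb hc1 hBI)) (mulb hδ hI)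
      have s2 := mulb s1 (mulb hinvΦ hinvI)
      refine s2.trans ?_
      have e2 : (K * r * K + K * (K * r) + 2 * K ^ 3 * r * K) * (2 * K * K) =
          (4 * K ^ 4 + 4 * K ^ 6) * r := by ring
      rw [e2]
      have k46 : K ^ 4 ≤ K ^ 6 := pow_le_pow_right₀ hK (by norm_num)
      apply mul_le_mul_of_nonneg_right _ hr
      linarith
    have e : A / cΦ * ka - kan = (A / cΦ * (B / I) - 1) * ki + (ki - kan) := by rw [hka]; ring
    rw [e]
    refine (addb (mulb hone hki) hkan).trans ?_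
    have e2 : 8 * K ^ 6 * r * K + K * r = (8 * K ^ 7 + K) * r := by ring
    rw [e2]
    apply mul_le_mul_of_nonneg_right _ hr
    linarith
  · have hone : |A / cΦ - 1| ≤ 6 * K ^ 4 * r := by
      have e : A / cΦ - 1 = ((A - c1) - δ) * (1 / cΦ) := by
        rw [hΦ] at hΦ0 ⊢
        field_simp
        ring
      rw [e]
      refine (mulb (subb hAc hδ) hinvΦ).trans ?_
      have e2 : (K * r + 2 * K ^ 3 * r) * (2 * K) = (2 * K ^ 2 + 4 * K ^ 4) * r := by ring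
      rw [e2]
      have k24 : K ^ 2 ≤ K ^ 4 := pow_le_pow_right₀ hK (by norm_num)
      apply mul_le_mul_of_nonneg_right _ hr
      linarith
    have e : A / cΦ * al - aln = (A / cΦ - 1) * al - (aln - al) := by ring
    rw [e]
    calc _ ≤ (|(A / cΦ - 1) * al| + |aln - al|) * t := by
          apply mul_le_mul_of_nonneg_right (abs_sub _ _) ht.le
      _ = |A / cΦ - 1| * (|al| * t) + |aln - al| * t := by rw [abs_mul]; ring
      _ ≤ 6 * K ^ 4 * r * K + K * r := by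
          refine add_le_add (mul_le_mul hone hal ?_ ?_) haln
          · have := abs_nonneg al; positivity
          · positivity
      _ = (6 * K ^ 5 + K) * r := by ring
      _ ≤ _ := by
          apply mul_le_mul_of_nonneg_right _ hr
          linarith

/-- `Phi` at a point: frame `f`, state step `k`, late step `i`, comparison with the step `n` -/
theorem fok_gen {K : ℝ} {f k n i b : ℕ} {dr tr : Ω → Ω} {ω : Ω} (hK : 1 ≤ K)
    (hμ : 4 * K ^ 4 * q2 C.μ ≤ 1) (hb : 2 * C.μ ≤ b) (ho : C.Ok K ω) (ho2 : C.Ok K (tr ω))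
    (hfk : f ≤ k) (hki : k ≤ i) (hni : n ≤ i)
    (hdr : C.cell k b (dr ω) = C.cell k b ω) (htr : C.T i (tr ω) = C.T i ω)
    (hcn : |(C.F n ω).cN (C.l ω) (C.s n ω) - (C.F f ω).cN (C.l ω) (C.s f ω)| ≤ K * q2 (C.rk n))
    (haln : |(C.F n ω).al - (C.F f ω).al| * q2 (C.a n) ≤ K * q2 (C.rk n))
    (hrk : C.rk n ≤ C.rk f) (han : C.a f ≤ C.a n) :
    Fok C (9 * K ^ 7) n i ω (Phi C f i b dr tr ω) := by
  have hK0 : 0 < K := by linarith
  have hfi : f ≤ i := hfk.trans hki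
  have hTf : C.T f (dr ω) = C.T f ω := T_eq C (Pth.cell_iff.1 hdr).1 hfk
  have hTi : ∀ m, m ≤ i → C.T m (tr ω) = C.T m ω := fun m hm => T_eq C htr hm
  -- the numbers of `Phi`
  have eal : (Phi C f i b dr tr ω).al = (C.F f ω).al := by
    show (C.F f (dr ω)).al = _
    exact Pth.F_al hTf.symm
  have eG : (G0 C f dr (C.s i ω) ω).ka = (C.F f ω).ka - (C.s i ω - C.s f ω) * (C.F f ω).al := by
    show (C.F f (dr ω)).ka - (C.s i ω - C.s f ω) * (C.F f (dr ω)).al = _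
    rw [Pth.F_al hTf.symm, Pth.F_ka hTf.symm]
  have eGga : (G0 C f dr (C.s i ω) ω).ga = (C.F f ω).ga := by
    show (C.F f (dr ω)).ga = _
    exact Pth.F_ga hTf.symm
  have eka : (Phi C f i b dr tr ω).ka = rho C f i (tr ω) * (C.F i ω).ka := by
    show (G0 C f dr (C.s i ω) ω).ka + TT C f i (tr ω) = _
    rw [eG]
    unfold TT
    rw [Pth.F_ka (hTi i le_rfl).symm, Pth.F_ka (hTi f hfi).symm, Pth.F_al (hTi f hfi).symm,
      s_eq C (hTi i le_rfl), s_eq C (hTi f hfi)]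
    ring
  have ecN : (Phi C f i b dr tr ω).cN (C.l ω) (C.s i ω) =
      (C.F f ω).cN (C.l ω) (C.s f ω) + TT C f i (tr ω) * (wb C b ω - (C.l ω).w) := by
    have h1 : ((C.F f ω).sh (C.s i ω - C.s f ω)).cN (C.l ω) (C.s i ω) =
      (C.F f ω).cN (C.l ω) (C.s f ω) := cN_F C f ω (C.s i ω)
    rw [← h1]
    unfold Fu.cN
    rw [eal]
    show (G0 C f dr (C.s i ω) ω).ga + TT C f i (tr ω) * wb C b ω -
      ((G0 C f dr (C.s i ω) ω).ka + TT C f i (tr ω)) * (C.l ω).w -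
        (C.F f ω).al * (C.l ω).N (C.s i ω) = _
    rw [eG, eGga]
    show _ = (C.F f ω).ga - ((C.F f ω).ka - (C.s i ω - C.s f ω) * (C.F f ω).al) * (C.l ω).w -
      (C.F f ω).al * (C.l ω).N (C.s i ω) + _
    ring
  have hTT := TT_le (f := f) (i := i) hK ho2 hfi
  have hwb : |wb C b ω - (C.l ω).w| ≤ q2 (b - C.μ) := by
    rw [abs_sub_comm]
    exact C.ro_err 1 (b - C.μ) (C.l ω).w
  have hδ0 := mulb hTT hwb
  have hqf := q2_pos (C.rk f)
  have hqf1 := Pth.q2_le_one (C.rk f)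
  have hqn : q2 (C.rk f) ≤ q2 (C.rk n) := q2_le hrk
  have hqb : q2 (b - C.μ) ≤ q2 C.μ := q2_le (by omega)
  have hqμ := q2_pos C.μ
  have hqb0 := q2_pos (b - C.μ)
  have hqμ1 := Pth.q2_le_one C.μ
  have hδ : |TT C f i (tr ω) * (wb C b ω - (C.l ω).w)| ≤ 2 * K ^ 3 * q2 (C.rk n) := by
    refine hδ0.trans ?_
    calc _ ≤ 2 * K ^ 3 * q2 (C.rk n) * 1 :=
          mul_le_mul (mul_le_mul_of_nonneg_left hqn (by positivity)) (hqb.trans hqμ1) hqb0.le
            (by have := q2_pos (C.rk n); positivity)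
      _ = _ := by ring
  have hδ2 : 2 * K * |TT C f i (tr ω) * (wb C b ω - (C.l ω).w)| ≤ 1 := by
    calc _ ≤ 2 * K * (2 * K ^ 3 * q2 (C.rk f) * q2 (b - C.μ)) := by gcongr
      _ ≤ 2 * K * (2 * K ^ 3 * 1 * q2 C.μ) := by gcongr
      _ = 4 * K ^ 4 * q2 C.μ := by ring
      _ ≤ 1 := hμ
  have hBI : |(C.F i (tr ω)).cN (C.l (tr ω)) (C.s i (tr ω)) -
      (C.F f (tr ω)).cN (C.l (tr ω)) (C.s f (tr ω))| ≤ K * q2 (C.rk n) := by
    have h := (ho2.ag f i hfi).cN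
    rw [cN_F] at h
    exact h.trans (mul_le_mul_of_nonneg_left hqn hK0.le)
  have hkan : |(C.F i ω).ka - (Fs C i n ω).ka| ≤ K * q2 (C.rk n) := (ho.ag n i hni).ka
  have eFn : (Fs C i n ω).cN (C.l ω) (C.s i ω) = (C.F n ω).cN (C.l ω) (C.s n ω) :=
    cN_F C n ω (C.s i ω)
  have hlow : ∀ (m : ℕ) (w : Ω), C.Ok K w → 1 ≤ K * |(C.F m w).cN (C.l w) (C.s m w)| :=
    fun m w hw => (hw.n1 m).trans (mul_le_mul_of_nonneg_left (le_abs_self _) hK0.le)
  have hfal : |(C.F f ω).al| * q2 (C.a n) ≤ K :=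
    (mul_le_mul_of_nonneg_left (q2_le han) (abs_nonneg _)).trans (ho.a1 f)
  obtain ⟨h1, h2, h3, h4, h5⟩ := fok_real (ka := rho C f i (tr ω) * (C.F i ω).ka)
    (ki := (C.F i ω).ka) (cΦ := (Phi C f i b dr tr ω).cN (C.l ω) (C.s i ω))
    (kan := (Fs C i n ω).ka) (aln := (C.F n ω).al) (al := (C.F f ω).al)
    (B := (C.F f (tr ω)).cN (C.l (tr ω)) (C.s f (tr ω)))
    (I := (C.F i (tr ω)).cN (C.l (tr ω)) (C.s i (tr ω)))
    hK (q2_pos (C.rk n)).le (Pth.cN_abs ho2 hK f) (Pth.cN_abs ho2 hK i)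
    (hlow i _ ho2) (Pth.cN_abs ho hK f) (hlow f _ ho) ecN hδ hδ2 hcn hBI rfl (ho.k1 i) hkan hfal
    (q2_pos (C.a n)) haln
  have k7 : K ≤ 9 * K ^ 7 := by
    have : K ≤ K ^ 7 := le_self_pow₀ hK (by norm_num)
    have : 0 ≤ K ^ 7 := by positivity
    linarith
  refine ⟨h1, h2, ?_, ?_, ?_, ?_⟩
  · rw [eka]; exact h3
  · rw [eal]; exact hfal.trans k7
  · rw [eka, eFn]; exact h4
  · rw [eal, eFn]; exact h5

end Vale.Agent.P106.H25
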