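import Vale.Agent.P106.U.H84.Cha

/-!
# P106 / H25 : comparison of two functionals at a point, for two close rays : the real lemmas
-/

set_option autoImplicit false

namespace Vale.Agent.P106.H25

open Finset Vale.Agent.P127 Vale.Agent.P127.Stk
open Vale.Agent.P127.U.CellD (q2 rd q2_pos q2_add q2_le rd_le lt_rd rd_err rd_mono rd_sub fl1_fl1
  q2_mul_pow div_pow_eq)
open Vale.Agent.P106.U.Cell Vale.Agent.P106.U.H84

/-! ### real lemmas -/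

lemma Qb {dX dN t b0 B : ℝ} (hB : 1 ≤ B)
    (hX : |dX| ≤ t * b0) (hN : |dN| ≤ B * (t * b0)) :
    |(dX ^ 2 + dN ^ 2) / 2| ≤ t * (B ^ 2 * (t * b0 * b0)) := by
  have h1 : dX ^ 2 ≤ (t * b0) ^ 2 := by rw [← sq_abs]; gcongr
  have h2 : dN ^ 2 ≤ (B * (t * b0)) ^ 2 := by rw [← sq_abs dN]; gcongr
  rw [abs_of_nonneg (by positivity)]
  have h5 : (1 : ℝ) ≤ B ^ 2 := one_le_pow₀ hB
  have h3 : 1 * (t * b0) ^ 2 ≤ B ^ 2 * (t * b0) ^ 2 :=
    mul_le_mul_of_nonneg_right h5 (sq_nonneg _)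
  have h6 : (B * (t * b0)) ^ 2 = B ^ 2 * (t * b0) ^ 2 := by ring
  have h7 : t * (B ^ 2 * (t * b0 * b0)) = B ^ 2 * (t * b0) ^ 2 := by ring
  rw [h7]
  rw [h6] at h2
  linarith

/-- refined bound of the normal coordinate -/
lemma dN_ref {K c k al p dX dN dz H t b0 M m2 h : ℝ} (hK : 1 ≤ K) (hb0 : 0 < b0) (ht : 0 < t)
    (hM : 1 ≤ M) (hMb : M ^ 2 * b0 ≤ m2)
    (hX : |dX| ≤ t * b0) (hN : |dN| ≤ 3 * M * (t * b0)) (hz : |dz| ≤ 5 * M ^ 2 * (t * b0 * b0))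
    (hc1 : 1 ≤ K * |c|) (hcK : |c| ≤ K) (hk : |k| ≤ 2 * K) (hal : |al| * t ≤ K) (hp : |p| ≤ m2)
    (hH : H = c * (dN - p * dX) - k * dz - al * ((dX ^ 2 + dN ^ 2) / 2))
    (hHb : |H| ≤ h * (t * b0 * m2)) :
    |dN| ≤ K * (h + 16 * K) * (t * b0 * m2) := by
  have hK0 : 0 < K := by linarith
  have hQ : |(dX ^ 2 + dN ^ 2) / 2| ≤ t * (5 * M ^ 2 * (t * b0 * b0)) := by
    have h1 : dX ^ 2 ≤ (t * b0) ^ 2 := by rw [← sq_abs]; gcongr
    have h2 : dN ^ 2 ≤ (3 * M * (t * b0)) ^ 2 := by rw [← sq_abs dN]; gcongr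
    rw [abs_of_nonneg (by positivity)]
    have h3 : 1 * (t * b0) ^ 2 ≤ M ^ 2 * (t * b0) ^ 2 :=
      mul_le_mul_of_nonneg_right (one_le_pow₀ hM) (sq_nonneg _)
    have h6 : (3 * M * (t * b0)) ^ 2 = 9 * (M ^ 2 * (t * b0) ^ 2) := by ring
    have h7 : t * (5 * M ^ 2 * (t * b0 * b0)) = 5 * (M ^ 2 * (t * b0) ^ 2) := by ring
    rw [h7]
    rw [h6] at h2
    linarith
  have ha : |al * ((dX ^ 2 + dN ^ 2) / 2)| ≤ K * (5 * M ^ 2 * (t * b0 * b0)) :=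
    divb hal (by positivity) hQ
  have e1 : dN * c = H + p * (c * dX) + k * dz + al * ((dX ^ 2 + dN ^ 2) / 2) := by rw [hH]; ring
  have h2 : |p * (c * dX)| ≤ m2 * (K * (t * b0)) := mulb hp (mulb hcK hX)
  have h3 : |k * dz| ≤ 2 * K * (5 * M ^ 2 * (t * b0 * b0)) := mulb hk hz
  have h4 : K * (5 * M ^ 2 * (t * b0 * b0)) ≤ 5 * K * (t * b0 * m2) := by
    calc _ = 5 * K * (t * b0 * (M ^ 2 * b0)) := by ring
      _ ≤ _ := by gcongr
  have h10 : |dN * c| ≤ (h + 16 * K) * (t * b0 * m2) := by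
    rw [e1]
    refine (addb (addb (addb hHb h2) h3) ha).trans ?_
    linarith
  rw [abs_mul] at h10
  calc |dN| = |dN| * 1 := by ring
    _ ≤ |dN| * (K * |c|) := by gcongr
    _ = K * (|dN| * |c|) := by ring
    _ ≤ K * ((h + 16 * K) * (t * b0 * m2)) := by gcongr
    _ = _ := by ring

lemma dz_ref {dX dN dz dv dw t b0 M : ℝ} (hb0 : 0 < b0) (ht : 0 < t) (hM : 1 ≤ M)
    (hX : |dX| ≤ t * b0) (hN : |dN| ≤ 3 * M * (t * b0)) (hv : |dv| ≤ b0) (hw : |dw| ≤ M * b0)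
    (hz : |dz + dv * dX + dw * dN| ≤ t * b0 * b0) :
    |dz| ≤ 5 * M ^ 2 * (t * b0 * b0) := by
  have e : dz = (dz + dv * dX + dw * dN) - dv * dX - dw * dN := by ring
  rw [e]
  refine (subb (subb hz (mulb hv hX)) (mulb hw hN)).trans ?_
  have h3 : 1 * (t * b0 * b0) ≤ M ^ 2 * (t * b0 * b0) :=
    mul_le_mul_of_nonneg_right (one_le_pow₀ hM) (by positivity)
  have e2 : M * b0 * (3 * M * (t * b0)) = 3 * M ^ 2 * (t * b0 * b0) := by ring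
  have e3 : b0 * (t * b0) = t * b0 * b0 := by ring
  rw [e2, e3]
  linarith

lemma rat_le {K c1 c2 : ℝ} (hK0 : 0 < K) (hc1 : 1 ≤ K * |c1|) (hc2 : |c2| ≤ K) :
    |c2 / c1| ≤ K ^ 2 := by
  have hc10 : c1 ≠ 0 := by
    intro h0
    rw [h0, abs_zero, mul_zero] at hc1
    linarith
  rw [abs_div, div_le_iff₀ (abs_pos.2 hc10)]
  calc |c2| ≤ K := hc2
    _ = K * 1 := by ring
    _ ≤ K * (K * |c1|) := by gcongr
    _ = _ := by ring

lemma const_le {K h B : ℝ} (hK : 1 ≤ K) (hB : B = K * (h + 16 * K)) (hB16 : 16 ≤ B) :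
    K ^ 2 * h + K * (2 + B) + K * B ^ 2 ≤ 3 * K ^ 3 * (h + 16 * K) ^ 2 := by
  have hK0 : 0 < K := by linarith
  have g0 : K * B ^ 2 = K ^ 3 * (h + 16 * K) ^ 2 := by rw [hB]; ring
  have g1 : K ^ 2 * h ≤ K * B ^ 2 := by
    have a1 : K ^ 2 * h ≤ K * B := by
      rw [hB]
      have : K * (K * (h + 16 * K)) = K ^ 2 * h + 16 * K ^ 3 := by ring
      rw [this]
      have : 0 ≤ K ^ 3 := by positivity
      linarith
    have a2 : B ≤ B ^ 2 := by nlinarith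
    exact a1.trans (mul_le_mul_of_nonneg_left a2 hK0.le)
  have g2 : K * (2 + B) ≤ K * B ^ 2 := by
    apply mul_le_mul_of_nonneg_left _ hK0.le
    nlinarith
  have g4 : 3 * K ^ 3 * (h + 16 * K) ^ 2 = 3 * (K ^ 3 * (h + 16 * K) ^ 2) := by ring
  rw [g4]
  linarith

/-- the normal coordinate of a second functional -/
lemma H_tr {K c1 c2 k1 k2 a1 a2 p dX dN dz dv dw H1 t b0 M m2 h r : ℝ} (hK : 1 ≤ K) (hb0 : 0 < b0)
    (ht : 0 < t) (hM : 1 ≤ M) (hm1 : m2 ≤ 1) (hMm : M * m2 ≤ 1)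
    (hMb : M ^ 2 * b0 ≤ m2) (hh : 0 ≤ h) (hr : 0 < r) (hrm : r * b0 ≤ m2)
    (hX : |dX| ≤ t * b0) (hN : |dN| ≤ 3 * M * (t * b0)) (hv : |dv| ≤ b0) (hw : |dw| ≤ M * b0)
    (hz : |dz + dv * dX + dw * dN| ≤ t * b0 * b0)
    (hc1 : 1 ≤ K * |c1|) (hcK : |c1| ≤ K) (hc2 : |c2| ≤ K)
    (hk : |k1| ≤ 2 * K) (hal : |a1| * t ≤ K) (hp : |p| ≤ m2)
    (hdk : |c2 / c1 * k1 - k2| ≤ K * r) (hda : |c2 / c1 * a1 - a2| * t ≤ K * r)
    (hH : H1 = c1 * (dN - p * dX) - k1 * dz - a1 * ((dX ^ 2 + dN ^ 2) / 2))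
    (hHb : |H1| ≤ h * (t * b0 * (r * b0))) :
    |dN| ≤ K * (h + 16 * K) * (t * b0) ∧
    |c2 * (dN - p * dX) - k2 * dz - a2 * ((dX ^ 2 + dN ^ 2) / 2)| ≤
      3 * K ^ 3 * (h + 16 * K) ^ 2 * (t * b0 * (r * b0)) := by
  have hK0 : 0 < K := by linarith
  have hc10 : c1 ≠ 0 := by
    intro h0
    rw [h0, abs_zero, mul_zero] at hc1
    linarith
  have hz0 := dz_ref hb0 ht hM hX hN hv hw hz
  have hHb2 : |H1| ≤ h * (t * b0 * m2) := by
    refine hHb.trans ?_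
    gcongr
  have hdN := dN_ref hK hb0 ht hM hMb hX hN hz0 hc1 hcK hk hal hp hH hHb2
  obtain ⟨B, hB⟩ : ∃ B, B = K * (h + 16 * K) := ⟨_, rfl⟩
  rw [← hB] at hdN ⊢
  have hB16 : 16 ≤ B := by
    have : 1 * 1 ≤ K * K := mul_le_mul hK hK zero_le_one hK0.le
    rw [hB]
    have h2 : 0 ≤ K * h := by positivity
    nlinarith
  have hdN1 : |dN| ≤ B * (t * b0) := by
    refine hdN.trans ?_
    have h4 : 0 ≤ t * b0 := by positivity
    have : t * b0 * m2 ≤ t * b0 := by nlinarith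
    exact mul_le_mul_of_nonneg_left this (by linarith)
  have hz1 : |dz| ≤ (2 + B) * (t * b0 * b0) := by
    have e : dz = (dz + dv * dX + dw * dN) - dv * dX - dw * dN := by ring
    rw [e]
    refine (subb (subb hz (mulb hv hX)) (mulb hw hdN)).trans ?_
    have h3 : M * b0 * (B * (t * b0 * m2)) ≤ B * (t * b0 * b0) := by
      calc _ = B * (t * b0 * b0) * (M * m2) := by ring
        _ ≤ B * (t * b0 * b0) * 1 := by gcongr
        _ = _ := by ring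
    linarith
  have hQ := Qb (by linarith : (1 : ℝ) ≤ B) hX hdN1
  refine ⟨hdN1, ?_⟩
  have hrat := rat_le hK0 hc1 hc2
  have e1 : c2 * (dN - p * dX) - k2 * dz - a2 * ((dX ^ 2 + dN ^ 2) / 2) =
      c2 / c1 * H1 + (c2 / c1 * k1 - k2) * dz +
        (c2 / c1 * a1 - a2) * ((dX ^ 2 + dN ^ 2) / 2) := by
    rw [hH]
    field_simp
    ring
  rw [e1]
  have s1 : |c2 / c1 * H1| ≤ K ^ 2 * (h * (t * b0 * (r * b0))) := mulb hrat hHb
  have s2 : |(c2 / c1 * k1 - k2) * dz| ≤ K * r * ((2 + B) * (t * b0 * b0)) := mulb hdk hz1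
  have s3 : |(c2 / c1 * a1 - a2) * ((dX ^ 2 + dN ^ 2) / 2)| ≤ K * r * (B ^ 2 * (t * b0 * b0)) :=
    divb hda (by positivity) hQ
  refine (addb (addb s1 s2) s3).trans ?_
  have hV : 0 ≤ t * b0 * (r * b0) := by positivity
  have h5 := const_le hK hB hB16
  calc _ = (K ^ 2 * h + K * (2 + B) + K * B ^ 2) * (t * b0 * (r * b0)) := by ring
    _ ≤ _ := mul_le_mul_of_nonneg_right h5 hV

/-- the slope of a second functional -/
lemma E_tr {K c1 c2 c1' c2' k1 k2 a1 a2 p p' dX dN dv dw t b0 M m2 e r : ℝ} (hK : 1 ≤ K)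
    (hb0 : 0 < b0) (hM : 1 ≤ M) (hMm : M * m2 ≤ 1) (hr : 0 < r)
    (hX : |dX| ≤ t * b0) (hN : |dN| ≤ 3 * M * (t * b0)) (hv : |dv| ≤ b0) (hw : |dw| ≤ M * b0)
    (hc1 : 1 ≤ K * |c1|) (hc2 : |c2| ≤ K) (hp : |p'| ≤ m2)
    (hdk : |c2 / c1 * k1 - k2| ≤ K * r) (hda : |c2 / c1 * a1 - a2| * t ≤ K * r)
    (e1 : c1' = c1 - k1 * dw - a1 * dN) (e2 : c2' = c2 - k2 * dw - a2 * dN)
    (hE : |p' * c1' - p * c1 - k1 * dv - a1 * dX| ≤ e * (r * b0)) :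
    |p' * c2' - p * c2 - k2 * dv - a2 * dX| ≤ (K ^ 2 * e + 6 * K) * (r * b0) := by
  have hK0 : 0 < K := by linarith
  have hc10 : c1 ≠ 0 := by
    intro h0
    rw [h0, abs_zero, mul_zero] at hc1
    linarith
  have hrat := rat_le hK0 hc1 hc2
  have e3 : p' * c2' - p * c2 - k2 * dv - a2 * dX =
      c2 / c1 * (p' * c1' - p * c1 - k1 * dv - a1 * dX) +
        p' * ((c2 / c1 * k1 - k2) * dw + (c2 / c1 * a1 - a2) * dN) +
        (c2 / c1 * k1 - k2) * dv + (c2 / c1 * a1 - a2) * dX := by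
    rw [e1, e2]
    field_simp
    ring
  rw [e3]
  have s1 := mulb hrat hE
  have t1 : |(c2 / c1 * k1 - k2) * dw| ≤ K * r * (M * b0) := mulb hdk hw
  have t2 : |(c2 / c1 * a1 - a2) * dN| ≤ K * r * (3 * M * b0) :=
    divb hda (by positivity) (hN.trans (le_of_eq (by ring)))
  have s2 := mulb hp (addb t1 t2)
  have s3 : |(c2 / c1 * k1 - k2) * dv| ≤ K * r * b0 := mulb hdk hv
  have s4 : |(c2 / c1 * a1 - a2) * dX| ≤ K * r * b0 := divb hda hb0.le hX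
  refine (addb (addb (addb s1 s2) s3) s4).trans ?_
  have s5 : m2 * (K * r * (M * b0) + K * r * (3 * M * b0)) ≤ 4 * (K * r * b0) := by
    calc _ = 4 * (K * r * b0) * (M * m2) := by ring
      _ ≤ 4 * (K * r * b0) * 1 := by gcongr
      _ = _ := by ring
  calc _ ≤ K ^ 2 * (e * (r * b0)) + 4 * (K * r * b0) + K * r * b0 + K * r * b0 := by linarith
    _ = _ := by ring

end Vale.Agent.P106.H25
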