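import Vale.Agent.P106.H25.Grp

/-!
# P106 / H25 : saturation of the four coordinates of the kappa regime from near invariances

`lbk Lv Le X M` : natural label of the state `X = (V, Z, ε)`, `M`: cells of side `Lv, Lv, Le` and the sheared digit
`⌊(M - Le ⌊ε / Le⌋ V) / (Lv Le)⌋`.  `satL` : `3 log Lv + 2 log Le - 18 - err ≤ H(lbk 1 1 | lbk Lv Le)`.
-/

set_option autoImplicit false

namespace Vale.Agent.P106.H25

open Finset Vale.Agent.P127 Vale.Agent.P127.Stk Vale.Agent.P127.TV Vale.Agent.P127.TV.Lat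
open Vale.Agent.P106.TV

variable {Ω : Type} [Fintype Ω]

/-- the natural label -/
noncomputable def lbk (Lv Le : ℝ) (X : Fin 3 → ℝ) (M : ℝ) : ℤ × ℤ × ℤ × ℤ :=
  (⌊X 0 / Lv⌋, ⌊X 1 / Lv⌋, ⌊X 2 / Le⌋, ⌊(M - Le * ⌊X 2 / Le⌋ * X 0) / (Lv * Le)⌋)

theorem card_sub {T : Finset ℤ} {l L : ℝ} {q : ℤ} (hl : 0 < l) (hlL : l ≤ L)
    (h : ∀ i ∈ T, ∃ x : ℝ, ⌊x / L⌋ = q ∧ ⌊x / l⌋ = i) : (T.card : ℝ) ≤ 4 * L / l := by
  have hL : 0 < L := by linarith
  have h1 := card_int_le T l (((q : ℝ) + 1 / 2) * L) (L / 2 + l) hl.ne' (by linarith) ?_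
  · refine h1.trans ?_
    rw [abs_of_pos hl, div_add_one hl.ne']
    exact div_le_div_of_nonneg_right (by linarith) hl.le
  · intro i hi
    obtain ⟨x, h2, h3⟩ := h i hi
    have h4 := abs_fl hL h2
    have h5 := abs_fl hl h3
    rw [abs_le] at h4 h5 ⊢
    constructor <;> linarith [h4.1, h4.2, h5.1, h5.2]

/-- the fine label determines `k c` up to `5 / 2` -/
theorem fibK {X : Ω → Fin 3 → ℝ} {M : Ω → ℝ} {u : Fin 3 → ℝ} {c d R ρX σM : ℝ} {a : Ω}
    {f : ℤ × ℤ × ℤ × ℤ} (hc0 : 0 < |c|) (hc2 : |c| ≤ 2) (hR : 0 ≤ R) (hu : |u 2| ≤ 3 * R)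
    (hσM1 : σM ≤ 1) (hρX1 : ρX * (3 * R + 3) ≤ 1) (hρX2 : ρX ≤ 1) (S : Finset ℕ)
    (hS : ∀ k ∈ S, ∃ b, St X M u (d + (k : ℝ) * c) ρX σM a b ∧ lbk 1 1 (X b) (M b) = f) :
    (S.card : ℝ) ≤ 7 / |c| := by
  have h5 := card_nat_le S c ((f.2.2.2 : ℝ) + 1 / 2 + (f.2.2.1 : ℝ) *
    (X a 0 + u 0) - M a - X a 2 * u 0 - d) (5 / 2) (abs_pos.1 hc0) (by norm_num) ?_
  · refine h5.trans ?_
    rw [div_add_one hc0.ne']
    exact div_le_div_of_nonneg_right (by linarith) hc0.le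
  · intro k hk
    obtain ⟨b, hW, hF⟩ := hS k hk
    have g1 := hW.1 0
    have g2 := hW.1 2
    have g3 := hW.2
    rw [Prod.ext_iff, Prod.ext_iff, Prod.ext_iff] at hF
    obtain ⟨_, _, k1, k2⟩ := hF
    simp only [lbk] at k1 k2
    rw [k1] at k2
    have m1 := abs_fl one_pos k1
    have m2 := abs_fl (by norm_num : (0 : ℝ) < 1 * 1) k2
    set δ := X b 0 - X a 0 - u 0 with hδ
    have m4 : |(f.2.2.1 : ℝ) - X a 2| ≤ 3 * R + 3 := by
      have : (f.2.2.1 : ℝ) - X a 2 = -(X b 2 - ((f.2.2.1 : ℝ) + 1 / 2) * 1) - 1 / 2 +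
          (X b 2 - X a 2 - u 2) + u 2 := by ring
      rw [this]
      rw [abs_le] at g2 m1 hu ⊢
      constructor <;> linarith [g2.1, g2.2, m1.1, m1.2, hu.1, hu.2]
    have m5 : |((f.2.2.1 : ℝ) - X a 2) * δ| ≤ 1 := by
      rw [abs_mul]
      refine le_trans (mul_le_mul m4 g1 (abs_nonneg _) (by positivity)) ?_
      linarith
    have e0 : (k : ℝ) * c - ((f.2.2.2 : ℝ) + 1 / 2 + (f.2.2.1 : ℝ) * (X a 0 + u 0) - M a -
        X a 2 * u 0 - d) =
        -(M b - M a - X a 2 * (X b 0 - X a 0) - (d + k * c)) +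
          ((M b - 1 * (f.2.2.1 : ℝ) * X b 0) - ((f.2.2.2 : ℝ) + 1 / 2) * (1 * 1)) +
          ((f.2.2.1 : ℝ) - X a 2) * δ := by
      rw [hδ]; ring
    rw [e0]
    have g3' : |M b - M a - X a 2 * (X b 0 - X a 0) - (d + k * c)| ≤ 1 := g3.trans hσM1
    rw [abs_le] at g3' m2 m5 ⊢
    constructor <;> linarith [g3'.1, g3'.2, m2.1, m2.2, m5.1, m5.2]

/-- number of coarse labels over a point and a coarse cube -/
theorem crsK {X : Ω → Fin 3 → ℝ} {M : Ω → ℝ} {c L Lv Le R B ρX σM : ℝ} {a : Ω} {q : Fin 3 → ℤ}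
    (hLv : 1 ≤ Lv) (hLe : 1 ≤ Le) (hLvL : Lv ≤ L) (hLeL : Le ≤ L) (hLR : 36 * L ≤ R)
    (hB : 10 * R ^ 2 ≤ B) (hσM1 : σM ≤ 1) (hρX2 : ρX ≤ 1) (S : Finset (ℤ × ℤ × ℤ × ℤ))
    (hS : ∀ g ∈ S, ∃ (u : Fin 3 → ℝ) (d kc : ℝ) (b : Ω), |u 2| ≤ 3 * R ∧ |d| ≤ 5 * R ^ 2 ∧
      |kc| ≤ B ∧ St X M u (d + kc) ρX σM a b ∧ celd L (X b) = q ∧ lbk Lv Le (X b) (M b) = g) :
    (S.card : ℝ) ≤ 7 * B / (Lv * Le) * (4 * L / Le * (4 * L / Lv * (4 * L / Lv))) := by
  classical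
  have hLv0 : 0 < Lv := by linarith
  have hLe0 : 0 < Le := by linarith
  have hL0 : 0 < L := by linarith
  have hLL : Lv * Le ≤ R * R := mul_le_mul (by linarith) (by linarith) (by linarith) (by linarith)
  have hR36 : 36 ≤ R := by linarith
  have hB0 : 0 ≤ B := by nlinarith
  set fl' : ℤ × ℤ × ℤ × ℤ → ℤ × ℤ × ℤ × ℤ := fun g => (g.2.2.2, g.2.2.1, g.2.1, g.1) with hfl
  have hflinj : Function.Injective fl' := by
    intro g g' hg
    simp only [hfl, Prod.mk.injEq] at hg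
    obtain ⟨a1, a2, a3, a4⟩ := hg
    exact Prod.ext a4 (Prod.ext a3 (Prod.ext a2 a1))
  rw [← Finset.card_image_of_injective S hflinj]
  have hmem : ∀ x ∈ S.image fl', ∃ (u : Fin 3 → ℝ) (d kc : ℝ) (b : Ω), |u 2| ≤ 3 * R ∧
      |d| ≤ 5 * R ^ 2 ∧ |kc| ≤ B ∧ St X M u (d + kc) ρX σM a b ∧ celd L (X b) = q ∧
        ⌊X b 0 / Lv⌋ = x.2.2.2 ∧ ⌊X b 1 / Lv⌋ = x.2.2.1 ∧ ⌊X b 2 / Le⌋ = x.2.1 ∧
          ⌊(M b - Le * x.2.1 * X b 0) / (Lv * Le)⌋ = x.1 := by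
    intro x hx
    rw [Finset.mem_image] at hx
    obtain ⟨g, hg, rfl⟩ := hx
    obtain ⟨u, d, kc, b, h1, h2, h3, h4, h5, h6⟩ := hS g hg
    rw [Prod.ext_iff, Prod.ext_iff, Prod.ext_iff] at h6
    obtain ⟨k0, k1, k2, k3⟩ := h6
    simp only [lbk] at k0 k1 k2 k3
    rw [k2] at k3
    exact ⟨u, d, kc, b, h1, h2, h3, h4, h5, k0, k1, k2, k3⟩
  refine card_pair_le _ _ _ (by positivity) ?_ ?_
  · intro T hT
    refine card_pair_le _ _ _ (by positivity) ?_ ?_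
    · intro T' hT'
      refine card_pair_le _ _ _ (by positivity) ?_ ?_
      · intro T₀ hT₀
        refine card_sub hLv0 hLvL (q := q 0) fun i hi => ?_
        obtain ⟨z, hz⟩ := hT₀ i hi
        obtain ⟨j, hj⟩ := hT' _ hz
        obtain ⟨w, hw⟩ := hT _ hj
        obtain ⟨u, d, kc, b, _, _, _, _, h5, h6, _⟩ := hmem _ hw
        exact ⟨X b 0, congrFun h5 0, h6⟩
      · intro i T₀ hT₀
        refine card_sub hLv0 hLvL (q := q 1) fun z hz => ?_
        obtain ⟨j, hj⟩ := hT' _ (hT₀ z hz)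
        obtain ⟨w, hw⟩ := hT _ hj
        obtain ⟨u, d, kc, b, _, _, _, _, h5, _, h6, _⟩ := hmem _ hw
        exact ⟨X b 1, congrFun h5 1, h6⟩
    · intro zi T₀ hT₀
      refine card_sub hLe0 hLeL (q := q 2) fun j hj => ?_
      obtain ⟨w, hw⟩ := hT _ (hT₀ j hj)
      obtain ⟨u, d, kc, b, _, _, _, _, h5, _, _, h6, _⟩ := hmem _ hw
      exact ⟨X b 2, congrFun h5 2, h6⟩
  · rintro ⟨j, z, i⟩ T hT
    have h5 := card_int_le T (Lv * Le) (M a - X a 2 * X a 0 + (X a 2 - Le * j) *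
      (((i : ℝ) + 1 / 2) * Lv)) (2 * B + Lv * Le) (by positivity) (by positivity) ?_
    · refine h5.trans ?_
      rw [abs_of_pos (by positivity), div_add_one (by positivity)]
      refine div_le_div_of_nonneg_right ?_ (by positivity)
      nlinarith
    · intro w hw
      obtain ⟨u, d, kc, b, m4, m5, m8, hW, _, k0, _, k2, k3⟩ := hmem _ (hT w hw)
      dsimp only at k0 k2 k3
      have m0 := abs_fl hLv0 k0
      have m2 := abs_fl hLe0 k2
      have m3 := abs_fl (by positivity : 0 < Lv * Le) k3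
      have g2 := hW.1 2
      have g3 : |M b - M a - X a 2 * (X b 0 - X a 0) - (d + kc)| ≤ 1 := hW.2.trans hσM1
      have m6 : |X a 2 - Le * j| ≤ 3 * R + 1 + Le := by
        have : X a 2 - Le * j = (X b 2 - ((j : ℝ) + 1 / 2) * Le) + Le / 2 -
          (X b 2 - X a 2 - u 2) - u 2 := by ring
        rw [this]
        rw [abs_le] at g2 m2 m4 ⊢
        constructor <;> linarith [g2.1, g2.2, m2.1, m2.2, m4.1, m4.2]
      have m7 : |(X a 2 - Le * j) * (X b 0 - ((i : ℝ) + 1 / 2) * Lv)| ≤ 3 * R ^ 2 := by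
        rw [abs_mul]
        refine (mul_le_mul m6 m0 (abs_nonneg _) (by positivity)).trans ?_
        have h1 : 3 * R + 1 + Le ≤ 5 * R := by linarith
        have h2 : Lv / 2 ≤ R / 2 := by linarith
        have := mul_le_mul h1 h2 (by linarith) (by linarith)
        nlinarith
      have e0 : (w : ℝ) * (Lv * Le) - (M a - X a 2 * X a 0 + (X a 2 - Le * j) *
          (((i : ℝ) + 1 / 2) * Lv)) =
          -((M b - Le * (j : ℝ) * X b 0) - ((w : ℝ) + 1 / 2) * (Lv * Le)) - 1 / 2 * (Lv * Le) +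
          (M b - M a - X a 2 * (X b 0 - X a 0) - (d + kc)) + d + kc +
          (X a 2 - Le * j) * (X b 0 - ((i : ℝ) + 1 / 2) * Lv) := by ring
      rw [e0]
      rw [abs_le] at g3 m3 m5 m7 m8 ⊢
      have hR1 : 1 ≤ R ^ 2 := by nlinarith
      constructor <;> linarith [g3.1, g3.2, m3.1, m3.2, m5.1, m5.2, m7.1, m7.2, m8.1, m8.2]

/-- numerical end -/
theorem numK {L Lv Le R₃ c E H : ℝ} (hL : 1 ≤ L) (hLv : 1 ≤ Lv) (hLe : 1 ≤ Le) (hR3 : 0 < R₃)
    (hc : 0 < c)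
    (key : (3 : ℝ) * Real.log (L / 1) - 3 * Real.log (3 * (2 * 3 + 3)) +
      (Real.log R₃ - Real.log (7 / c) -
        Real.log (7 * (R₃ * c) / (Lv * Le) * (4 * L / Le * (4 * L / Lv * (4 * L / Lv))))) - E ≤ H) :
    3 * Real.log Lv + 2 * Real.log Le - 18 - E ≤ H := by
  have hLv0 : 0 < Lv := by linarith
  have hLe0 : 0 < Le := by linarith
  have hL0 : 0 < L := by linarith
  have e1 : Real.log (7 / c) = Real.log 7 - Real.log c := Real.log_div (by norm_num) hc.ne'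
  have e2 : Real.log (7 * (R₃ * c) / (Lv * Le) * (4 * L / Le * (4 * L / Lv * (4 * L / Lv)))) =
      Real.log 448 + Real.log R₃ + Real.log c + 3 * Real.log L - 3 * Real.log Lv -
        2 * Real.log Le := by
    have e3 : 7 * (R₃ * c) / (Lv * Le) * (4 * L / Le * (4 * L / Lv * (4 * L / Lv))) =
        448 * R₃ * c * L ^ 3 / (Lv ^ 3 * Le ^ 2) := by
      field_simp
      ring
    rw [e3, Real.log_div (by positivity) (by positivity), Real.log_mul (by positivity)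
      (by positivity), Real.log_mul (by positivity) (by positivity), Real.log_mul (by norm_num)
      (by positivity), Real.log_mul (by positivity) (by positivity), Real.log_pow, Real.log_pow,
      Real.log_pow]
    push_cast
    ring
  rw [e1, e2, div_one] at key
  have e4 : 3 * Real.log (3 * (2 * 3 + 3)) + (Real.log 7 + Real.log 448) ≤ 18 := by
    have h1 : 3 * Real.log (3 * (2 * 3 + 3)) + (Real.log 7 + Real.log 448) =
        Real.log (27 ^ 3 * (7 * 448)) := by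
      have q1 : Real.log ((27 : ℝ) ^ 3 * (7 * 448)) = Real.log ((27 : ℝ) ^ 3) + Real.log (7 * 448) :=
        Real.log_mul (by norm_num) (by norm_num)
      have q2 : Real.log ((7 : ℝ) * 448) = Real.log 7 + Real.log 448 :=
        Real.log_mul (by norm_num) (by norm_num)
      have q3 : (3 : ℝ) * (2 * 3 + 3) = 27 := by norm_num
      rw [q1, q2, q3, Real.log_pow]
      push_cast
      ring
    rw [h1]
    have h2 : Real.log (27 ^ 3 * (7 * 448)) ≤ Real.log (Real.exp 18) := by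
      refine Real.log_le_log (by norm_num) ?_
      have h3 : (2.7182818283 : ℝ) ^ 18 ≤ Real.exp 18 := by
        have h4 : Real.exp 18 = Real.exp 1 ^ 18 := by
          rw [← Real.exp_nat_mul]; norm_num
        rw [h4]
        exact pow_le_pow_left₀ (by norm_num) Real.exp_one_gt_d9.le 18
      refine le_trans ?_ h3
      norm_num
    rwa [Real.log_exp] at h2
  linarith

/-- **SATURATION** from the near invariances under three generators and their inverses -/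
theorem satL (Q : Law Ω) (X : Ω → Fin 3 → ℝ) (M : Ω → ℝ) (v : Fin 3 → Fin 3 → ℝ)
    (τ τ' L Lv Le ρ e : ℝ) (R R₃ : ℕ)
    (hv : ∀ k i, |v k i| ≤ 1) (hτ : 0 < τ) (hτ1 : τ ≤ 1) (hdet : τ ≤ |Matrix.det (Matrix.of v)|)
    (hτ' : 0 < τ') (hcc : τ' ≤ |v 2 0 * v 0 2 - v 0 0 * v 2 2|)
    (hLv : 1 ≤ Lv) (hLe : 1 ≤ Le) (hLvL : Lv ≤ L) (hLeL : Le ≤ L)
    (hR : 36 * L ≤ R * τ) (hR3 : 10 * (R : ℝ) ^ 2 ≤ R₃ * τ') (hρ : 0 ≤ ρ)
    (hRρ : 100 * R * R₃ * ρ ≤ 1) (he : 0 ≤ e)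
    (h : ∀ k, SubC Q Q (St X M (v k) (v k 0 * v k 2 / 2) ρ ρ) e)
    (hi : ∀ k, SubC Q Q (St X M (fun i => - v k i) (v k 0 * v k 2 / 2) ρ ρ) e) :
    3 * Real.log Lv + 2 * Real.log Le - 18 -
        (3 * R + 4 * R₃) * e * (1 + 3 * Real.log R + Real.log R₃) ≤
      hc Q (fun ω => lbk 1 1 (X ω) (M ω)) (fun ω => lbk Lv Le (X ω) (M ω)) := by
  classical
  have hL1 : 1 ≤ L := hLv.trans hLvL
  have hRτ : (R : ℝ) * τ ≤ R * 1 := mul_le_mul_of_nonneg_left hτ1 (Nat.cast_nonneg _)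
  have hLR : 36 * L ≤ R := by linarith
  have hRr : (36 : ℝ) ≤ R := by linarith
  set c : ℝ := v 2 0 * v 0 2 - v 0 0 * v 2 2 with hcdef
  have hc0 : 0 < |c| := hτ'.trans_le hcc
  have hc2 : |c| ≤ 2 := by
    refine (abs_sub _ _).trans ?_
    rw [abs_mul, abs_mul]
    have h1 : |v 2 0| * |v 0 2| ≤ 1 := mul_le_one₀ (hv _ _) (abs_nonneg _) (hv _ _)
    have h2 : |v 0 0| * |v 2 2| ≤ 1 := mul_le_one₀ (hv _ _) (abs_nonneg _) (hv _ _)
    linarith
  have hR3c : 10 * (R : ℝ) ^ 2 ≤ R₃ * |c| :=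
    hR3.trans (mul_le_mul_of_nonneg_left hcc (Nat.cast_nonneg _))
  have hR3R : (R : ℝ) ≤ R₃ := by
    have h1 : (R₃ : ℝ) * |c| ≤ R₃ * 2 := mul_le_mul_of_nonneg_left hc2 (Nat.cast_nonneg _)
    nlinarith
  have hR3r : (0 : ℝ) < R₃ := by linarith
  have hRr0 : (0 : ℝ) < R := by linarith
  have hR0 : 0 < R := by exact_mod_cast hRr0
  have hR30 : 0 < R₃ := by exact_mod_cast hR3r
  set ρX : ℝ := (3 * R + 4 * R₃) * ρ with hρX
  set σM : ℝ := (17 * (R : ℝ) ^ 2 + 36 * R₃ + 24 * R * R₃) * ρ with hσM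
  have hsmall : ∀ {x y : ℝ}, x ≤ y → x * ρ ≤ y * ρ := fun hxy => mul_le_mul_of_nonneg_right hxy hρ
  have hρX0 : 0 ≤ ρX := by positivity
  have hσM1 : σM ≤ 1 := by
    have h1 : 17 * (R : ℝ) ^ 2 + 36 * R₃ + 24 * R * R₃ ≤ 100 * R * R₃ := by nlinarith
    exact (hsmall h1).trans hRρ
  have hρX1 : ρX * (3 * R + 3) ≤ 1 := by
    have h1 : (3 * (R : ℝ) + 4 * R₃) * (3 * R + 3) ≤ 100 * R * R₃ := by nlinarith
    have h2 := (hsmall h1).trans hRρ
    calc ρX * (3 * R + 3) = (3 * (R : ℝ) + 4 * R₃) * (3 * R + 3) * ρ := by rw [hρX]; ring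
      _ ≤ 1 := h2
  have hρX2 : ρX ≤ 1 := by nlinarith
  have hρ1 : (R₃ : ℝ) * ρ ≤ 1 := by
    have h1 : (R₃ : ℝ) ≤ 100 * R * R₃ := by nlinarith
    exact (hsmall h1).trans hRρ
  have hu : ∀ (n : Fin 3 → ℕ), (∀ i, n i < R) → |cmb v (fun j => (n j : ℝ)) 2| ≤ 3 * R := by
    intro n hn
    rw [show cmb v (fun j => (n j : ℝ)) 2 = ∑ k, (n k : ℝ) * v k 2 from rfl, Fin.sum_univ_three]
    have hp : ∀ j, |(n j : ℝ) * v j 2| ≤ R := fun j => by
      rw [abs_mul, abs_of_nonneg (Nat.cast_nonneg _)]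
      have h1 : ((n j : ℕ) : ℝ) ≤ R := by exact_mod_cast (hn j).le
      have h2 : (0 : ℝ) ≤ ((n j : ℕ) : ℝ) := Nat.cast_nonneg _
      nlinarith [hv j 2, abs_nonneg (v j 2)]
    refine (abs_add_le _ _).trans ?_
    refine (add_le_add (abs_add_le _ _) le_rfl).trans ?_
    linarith [hp 0, hp 1, hp 2]
  have hLv0 : 0 < Lv := by linarith
  have hLe0 : 0 < Le := by linarith
  have hLL : Lv * Le ≤ R * R := mul_le_mul (by linarith) (by linarith) (by linarith) (by linarith)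
  have key := lat_n (d := 3) Q X v τ 1 L ((3 * R + 4 * R₃) * e) R R₃
    (fun k n a b => St X M (cmb v fun i => n i) (dr v n + k * c) ρX σM a b)
    (fun ω => lbk 1 1 (X ω) (M ω)) (fun ω => lbk Lv Le (X ω) (M ω)) (7 / |c|)
    (7 * (R₃ * |c|) / (Lv * Le) * (4 * L / Le * (4 * L / Lv * (4 * L / Lv))))
    hv hτ hdet le_rfl hL1 (by
      push_cast
      have : ((Nat.factorial 3 : ℕ) : ℝ) = 6 := by norm_num [Nat.factorial]
      rw [this]
      linarith) hR0 hR30 (by rw [le_div_iff₀ hc0]; linarith) (by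
      have h1 : 1 ≤ 4 * L / Lv := by rw [le_div_iff₀ hLv0]; linarith
      have h2 : 1 ≤ 4 * L / Le := by rw [le_div_iff₀ hLe0]; linarith
      have h3 : 1 ≤ 7 * (R₃ * |c|) / (Lv * Le) := by
        rw [le_div_iff₀ (by positivity)]
        nlinarith
      have h4 : 1 ≤ 4 * L / Lv * (4 * L / Lv) := one_le_mul_of_one_le_of_one_le h1 h1
      exact one_le_mul_of_one_le_of_one_le h3 (one_le_mul_of_one_le_of_one_le h2 h4))
    (fun k n hk hn => sub_word v hv hρ he hR0 hR30 hρ1 h hi (fun i => (hn i).le) hk.le)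
    (fun k n a b _ _ hW i => (hW.1 i).trans hρX2)
    (fun a n f S _ hn hS => fibK (d := dr v n) hc0 hc2 hRr0.le (hu n hn) hσM1 hρX1 hρX2 S
      fun k hk => (hS k hk).2)
    (fun a b hab => by
      rw [Prod.ext_iff, Prod.ext_iff, Prod.ext_iff] at hab
      obtain ⟨k0, k1, k2, _⟩ := hab
      simp only [lbk] at k0 k1 k2
      funext i
      fin_cases i
      · exact k0
      · exact k1
      · exact k2)
    (fun a q S _ hS => crsK (B := R₃ * |c|) (q := q) (c := c) hLv hLe hLvL hLeL hLR hR3c hσM1 hρX2 S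
      fun g hg => by
        obtain ⟨k, n, b, hk, hn, hW, h5, h6⟩ := hS g hg
        refine ⟨_, dr v n, k * c, b, hu n hn, dr_le hv fun i => (hn i).le, ?_, hW, h5, h6⟩
        rw [abs_mul, abs_of_nonneg (Nat.cast_nonneg _)]
        refine mul_le_mul_of_nonneg_right ?_ hc0.le
        exact_mod_cast hk.le)
  exact numK hL1 hLv hLe hR3r hc0 (by exact_mod_cast key)

end Vale.Agent.P106.H25
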