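import Vale.Agent.P106.H25.Lab
import Vale.Agent.P106.H25.SatL

/-!
# P106 / H25 : labels of the state and nominal positions

State at the scales of the step `k`, functional `Φ` written at the time `s i'`:
`X = (2^(a k + b) X, 2^(a k + 2b) Zs, 2^(rk k + b - c) (p cN - cV))`, `M = 2^(a k + rk k + 2b - c) Φ.g`.
* `L1` : the label `lbk 1 1` is determined by `A k b i'`, `cell k b`, `T i'` up to finitely many values.
* `L2` : `A j b i'` is determined by the label `lbk 2^p₁ 2^p₂`, `cell k b`, `T i'` up to finitely many values.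
-/

set_option autoImplicit false

namespace Vale.Agent.P106.H25

open Finset Vale.Agent.P127 Vale.Agent.P127.Stk
open Vale.Agent.P127.U.CellD (q2 rd q2_pos q2_add q2_le rd_le lt_rd rd_err rd_mono rd_sub fl1_fl1
  q2_mul_pow div_pow_eq)
open Vale.Agent.P106.U.Cell Vale.Agent.P106.U.H84

variable {Ω τ : Type} {C : Pth Ω τ}

/-- `Φ` is comparable with the slab functional of the step `n`, at the time `s i'` -/
structure Fok (C : Pth Ω τ) (K : ℝ) (n i' : ℕ) (ω : Ω) (Φ : Fu) : Prop where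
  c1 : 1 ≤ K * |Φ.cN (C.l ω) (C.s i' ω)|
  c2 : |Φ.cN (C.l ω) (C.s i' ω)| ≤ K
  k1 : |Φ.ka| ≤ 2 * K
  a1 : |Φ.al| * q2 (C.a n) ≤ K
  ka : |(Fs C i' n ω).cN (C.l ω) (C.s i' ω) / Φ.cN (C.l ω) (C.s i' ω) * Φ.ka - (Fs C i' n ω).ka| ≤
    K * q2 (C.rk n)
  al : |(Fs C i' n ω).cN (C.l ω) (C.s i' ω) / Φ.cN (C.l ω) (C.s i' ω) * Φ.al - (Fs C i' n ω).al| *
    q2 (C.a n) ≤ K * q2 (C.rk n)

/-- the state -/
noncomputable def stX (C : Pth Ω τ) (Φ : Ω → Fu) (c k b i' : ℕ) (ω : Ω) : Fin 3 → ℝ :=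
  ![2 ^ (C.a k + b) * (C.l ω).X (C.s i' ω), 2 ^ (C.a k + 2 * b) * C.Zs b (C.s i' ω) ω,
    2 ^ (C.rk k + b) * (C.p ω * (Φ ω).cN (C.l ω) (C.s i' ω) - (Φ ω).cV (C.l ω) (C.s i' ω)) / 2 ^ c]

/-- the central coordinate -/
noncomputable def stM (C : Pth Ω τ) (Φ : Ω → Fu) (c k b i' : ℕ) (ω : Ω) : ℝ :=
  2 ^ (C.a k + C.rk k + 2 * b) * (Φ ω).g (C.l ω) (C.s i' ω) / 2 ^ c

lemma q2p (n : ℕ) : (2 : ℝ) ^ n * q2 n = 1 := q2_mul_pow n

/-- inverse of a ratio comparison -/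
lemma inv_cmp {K x y u v r : ℝ} (hK : 1 ≤ K) (hx : 1 ≤ K * |x|) (hy : 1 ≤ K * |y|)
    (hyK : |y| ≤ K) (h : |x / y * u - v| ≤ K * r) :
    |y / x * v - u| ≤ K ^ 3 * r := by
  have hK0 : 0 < K := by linarith
  have hx0 : x ≠ 0 := by rintro rfl; simp at hx; linarith
  have hy0 : y ≠ 0 := by rintro rfl; simp at hy; linarith
  have e : y / x * v - u = -(y / x * (x / y * u - v)) := by field_simp; ring
  rw [e, abs_neg]
  calc _ ≤ K ^ 2 * (K * r) := mulb (rat_le hK0 hx hyK) h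
    _ = _ := by ring

/-- difference of the central coordinates -/
lemma stM_sub {Φ : Ω → Fu} {c k b i' : ℕ} {ω ω' : Ω} (hT : C.T i' ω' = C.T i' ω)
    (hΦ : Φ ω' = Φ ω) (e0 : ℝ) :
    (stM C Φ c k b i' ω' - e0 * stX C Φ c k b i' ω' 0) -
      (stM C Φ c k b i' ω - e0 * stX C Φ c k b i' ω 0) =
      2 ^ (C.a k + C.rk k + 2 * b) * Hd (Φ ω) (C.l ω) (C.l ω') (C.p ω) (C.s i' ω) / 2 ^ c +
        (stX C Φ c k b i' ω 2 - e0) * (stX C Φ c k b i' ω' 0 - stX C Φ c k b i' ω 0) := by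
  have h := Hd_eq (Φ ω) (C.l ω) (C.l ω') (C.p ω) (C.s i' ω)
  simp only [stM, stX, Matrix.cons_val_zero, Matrix.cons_val]
  rw [hΦ, s_eq C hT]
  have e : (Φ ω).g (C.l ω') (C.s i' ω) = (Φ ω).g (C.l ω) (C.s i' ω) +
    (Hd (Φ ω) (C.l ω) (C.l ω') (C.p ω) (C.s i' ω) +
      (C.p ω * (Φ ω).cN (C.l ω) (C.s i' ω) - (Φ ω).cV (C.l ω) (C.s i' ω)) *
        ((C.l ω').X (C.s i' ω) - (C.l ω).X (C.s i' ω))) := by linarith
  rw [e, show C.a k + C.rk k + 2 * b = (C.a k + b) + (C.rk k + b) by ring, pow_add]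
  ring

/-- difference of the third coordinates -/
lemma stE_sub {Φ : Ω → Fu} {c k b i' : ℕ} {ω ω' : Ω} (hT : C.T i' ω' = C.T i' ω)
    (hΦ : Φ ω' = Φ ω) :
    stX C Φ c k b i' ω' 2 - stX C Φ c k b i' ω 2 =
      2 ^ (C.rk k + b) * Ed (Φ ω) (C.l ω) (C.l ω') (C.p ω) (C.p ω') (C.s i' ω) / 2 ^ c := by
  simp only [stX, Matrix.cons_val]
  rw [hΦ, s_eq C hT, ← Ed_eq]
  ring

lemma floor_near {x y : ℝ} (h : ⌊x⌋ = ⌊y⌋) : |x - y| ≤ 1 := (Int.abs_sub_lt_one_of_floor_eq_floor h).le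

lemma floor_range {x y : ℝ} {N : ℕ} (h : |x - y| ≤ N) : |⌊x⌋ - ⌊y⌋| ≤ (N : ℤ) + 1 := by
  have h1 := Int.floor_le x
  have h2 := Int.lt_floor_add_one x
  have h3 := Int.floor_le y
  have h4 := Int.lt_floor_add_one y
  rw [abs_le] at h ⊢
  constructor
  · have : ((-((N : ℤ) + 1) : ℤ) : ℝ) < ((⌊x⌋ - ⌊y⌋ : ℤ) : ℝ) := by push_cast; linarith [h.1]
    exact (Int.cast_lt.1 this).le
  · have : ((⌊x⌋ - ⌊y⌋ : ℤ) : ℝ) < (((N : ℤ) + 1 : ℤ) : ℝ) := by push_cast; linarith [h.2]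
    exact (Int.cast_lt.1 this).le

/-- two points with the same `A k b i'`, same letter : closeness -/
lemma Cls_A {k b i' : ℕ} {ω ω' : Ω} (hT : C.T i' ω' = C.T i' ω)
    (hA : C.A k b i' ω' = C.A k b i' ω) : Cls C (q2 (C.a k)) b i' ω ω' := by
  simp only [Pth.A, Prod.mk.injEq] at hA
  obtain ⟨h1, h2, h3, h4, h5, -, -⟩ := hA
  have hs := s_eq C hT
  have hM : (1 : ℝ) ≤ 2 ^ C.μ := one_le_pow₀ (by norm_num)
  have hq : 0 ≤ q2 (C.a k) * q2 b := mul_nonneg (q2_pos _).le (q2_pos _).le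
  refine ⟨hT, h1, h2, ?_, ?_, ?_⟩
  · have := fl1_close h3
    rwa [hs, q2_add] at this
  · have := fl1_close h4
    rw [hs, q2_add] at this
    refine this.trans ?_
    nlinarith
  · have := fl1_close h5
    rw [hs, q2_add, two_mul, q2_add, ← mul_assoc] at this
    exact this

/-- two points with the same cell and the same letter : crude normal coordinate -/
lemma N_cell {k b i' : ℕ} {ω ω' : Ω} (hk : k ≤ i') (hb : C.μ ≤ b) (hT : C.T i' ω' = C.T i' ω)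
    (hD : C.cell k b ω' = C.cell k b ω) :
    |(C.l ω').N (C.s i' ω) - (C.l ω).N (C.s i' ω)| ≤ 3 * 2 ^ C.μ * (q2 (C.a k) * q2 b) := by
  obtain ⟨-, -, h3⟩ := Pth.cell_iff.1 hD
  have hs : C.s k ω' = C.s k ω := s_eq C (T_eq C hT hk)
  have n1 := fl1_close (h3 1)
  have n2 := fl1_close (h3 2)
  rw [add_sub_add_right_eq_sub, Pth.va1, Pth.va1, Pth.lv1] at n1
  rw [add_sub_add_right_eq_sub, Pth.va2, Pth.va2, Pth.lv2, hs] at n2
  have e : C.s i' ω = C.s k ω + (C.s i' ω - C.s k ω) := by ring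
  have e2 : (C.l ω').N (C.s i' ω) - (C.l ω).N (C.s i' ω) =
      ((C.l ω').N (C.s k ω) - (C.l ω).N (C.s k ω)) +
        (C.s i' ω - C.s k ω) * ((C.l ω').w - (C.l ω).w) := by
    unfold Ray.N; ring
  rw [e2]
  have h4 := addb n2 (mulb (ds_le C hk ω) n1)
  refine h4.trans ?_
  rw [show C.a k + b - C.μ = C.a k + (b - C.μ) by omega, q2_add, qmu hb]
  have : 0 ≤ q2 (C.a k) * (2 ^ C.μ * q2 b) := by
    have := q2_pos (C.a k); have := q2_pos b; positivity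
  nlinarith

/-- constants -/
noncomputable def kE (K : ℝ) : ℝ := 200 * K ^ 30

lemma L1_aux {K : ℝ} (hK : 1 ≤ K) :
    (K ^ 3) ^ 2 * (3 * K ^ 3) + 6 * K ^ 3 ≤ kE K ∧
    3 * (K ^ 3) ^ 3 * (3 * K ^ 3 + 16 * K ^ 3) ^ 2 + 1 ≤ 6 * kE K := by
  have h9 : (1 : ℝ) ≤ K ^ 9 := one_le_pow₀ hK
  have h1 : K ^ 9 ≤ K ^ 30 := pow_le_pow_right₀ hK (by norm_num)
  have h2 : K ^ 3 ≤ K ^ 30 := pow_le_pow_right₀ hK (by norm_num)
  have h3 : K ^ 15 ≤ K ^ 30 := pow_le_pow_right₀ hK (by norm_num)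
  have h4 : (1 : ℝ) ≤ K ^ 30 := one_le_pow₀ hK
  unfold kE
  constructor
  · have e : (K ^ 3) ^ 2 * (3 * K ^ 3) + 6 * K ^ 3 = 3 * K ^ 9 + 6 * K ^ 3 := by ring
    rw [e]; linarith
  · have e : 3 * (K ^ 3) ^ 3 * (3 * K ^ 3 + 16 * K ^ 3) ^ 2 + 1 = 1083 * K ^ 15 + 1 := by ring
    rw [e]; linarith

/-- **L1**, pointwise: the third coordinate -/
theorem L1_E {K : ℝ} {c k b i' : ℕ} {ω ω' : Ω} {Φ : Ω → Fu} (hK : 1 ≤ K) (ho : C.Ok K ω)
    (ho' : C.Ok K ω') (hk : k ≤ i') (hb : 4 * C.μ ≤ b) (hR : C.R k b = C.rk k + b)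
    (hF : Fok C K k i' ω (Φ ω)) (hΦ : Φ ω' = Φ ω) (hT : C.T i' ω' = C.T i' ω)
    (hp : |C.p ω| ≤ q2 (2 * C.μ)) (hp' : |C.p ω'| ≤ q2 (2 * C.μ))
    (hA : C.A k b i' ω' = C.A k b i' ω) :
    |stX C Φ c k b i' ω' 2 - stX C Φ c k b i' ω 2| ≤ kE K ∧
    (∀ e0 : ℝ, |stX C Φ c k b i' ω 2 - e0| ≤ 1 →
      |(stM C Φ c k b i' ω' - e0 * stX C Φ c k b i' ω' 0) -
        (stM C Φ c k b i' ω - e0 * stX C Φ c k b i' ω 0)| ≤ 6 * kE K) := by
  have hK0 : 0 < K := by linarith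
  have hC := Cls_A hT hA
  have hA0 := hA
  simp only [Pth.A, Prod.mk.injEq] at hA
  obtain ⟨h1, h2, h3, h4, h5, h6, h7⟩ := hA
  have hs := s_eq C hT
  have hE := dig_E (i' := i') hK ho ho' hT hk h1 h6
  have hg : |(Gs C i' k b ω').g (C.l ω') (C.s i' ω') - (Gs C i' k b ω).g (C.l ω) (C.s i' ω)| ≤
      q2 (C.a k) * q2 b * q2 (C.R k b) := by
    have := fl1_close h7
    rwa [q2_add, q2_add] at this
  have hH := dig_H hK ho (q2_pos (C.a k)) hT hk h1 h6 hC.X hg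
  rw [hR] at hE hH
  have K3 : 1 ≤ K ^ 3 := one_le_pow₀ hK
  have K13 : K ≤ K ^ 3 := le_self_pow₀ hK (by norm_num)
  have hqr := q2_pos (C.rk k)
  have hqR := q2_pos (C.rk k + b)
  have hqa := q2_pos (C.a k)
  have hqb := q2_pos b
  have c1 := co_c1 (i' := i') ho k
  have cK := co_cK (i' := i') hK0.le ho k
  have c1' : 1 ≤ K * |(Fs C i' k ω).cN (C.l ω) (C.s i' ω)| :=
    c1.trans (mul_le_mul_of_nonneg_left (le_abs_self _) hK0.le)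
  have hdk := inv_cmp hK c1' hF.c1 hF.c2 hF.ka
  have hda : |(Φ ω).cN (C.l ω) (C.s i' ω) / (Fs C i' k ω).cN (C.l ω) (C.s i' ω) *
      (Fs C i' k ω).al - (Φ ω).al| * q2 (C.a k) ≤ K ^ 3 * q2 (C.rk k) := by
    have h := hF.al
    rw [← le_div_iff₀ hqa, mul_div_assoc] at h ⊢
    exact inv_cmp hK c1' hF.c1 hF.c2 h
  have hres := tr (K := K ^ 3) (e := 3 * K ^ 3) (h := 3 * K ^ 3) (F1 := Fs C i' k ω) (F2 := Φ ω)
    (rk := C.rk k) (R := C.rk k + b) K3 hqa (by positivity) hC hb le_rfl (by omega) hp hp'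
    (c1'.trans (mul_le_mul_of_nonneg_right K13 (abs_nonneg _)))
    (cK.trans K13) (hF.c2.trans K13) ((co_k ho hk).trans (by linarith))
    ((co_a ho k).trans K13) hdk hda (hE.trans (by gcongr)) (hH.trans (by gcongr))
  obtain ⟨r1, -, r3⟩ := hres
  obtain ⟨a1, a2⟩ := L1_aux hK
  have hc1 : (1 : ℝ) ≤ 2 ^ c := one_le_pow₀ (by norm_num)
  have hdiv : ∀ x B : ℝ, |x| ≤ B → |x / 2 ^ c| ≤ B := by
    intro x B h
    rw [abs_div, abs_of_pos (by positivity : (0 : ℝ) < 2 ^ c)]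
    exact (div_le_self (abs_nonneg _) hc1).trans h
  constructor
  · rw [stE_sub hT hΦ]
    apply hdiv
    rw [abs_mul, abs_of_pos (by positivity : (0 : ℝ) < 2 ^ (C.rk k + b))]
    calc _ ≤ 2 ^ (C.rk k + b) * (((K ^ 3) ^ 2 * (3 * K ^ 3) + 6 * K ^ 3) * q2 (C.rk k + b)) := by
          gcongr
      _ = ((K ^ 3) ^ 2 * (3 * K ^ 3) + 6 * K ^ 3) * (2 ^ (C.rk k + b) * q2 (C.rk k + b)) := by ring
      _ = (K ^ 3) ^ 2 * (3 * K ^ 3) + 6 * K ^ 3 := by rw [q2p, mul_one]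
      _ ≤ _ := a1
  · intro e0 he0
    rw [stM_sub hT hΦ]
    have hV : |stX C Φ c k b i' ω' 0 - stX C Φ c k b i' ω 0| ≤ 1 := by
      simp only [stX, Matrix.cons_val_zero]
      rw [hs, ← mul_sub, abs_mul, abs_of_pos (by positivity : (0 : ℝ) < 2 ^ (C.a k + b))]
      calc _ ≤ 2 ^ (C.a k + b) * (q2 (C.a k) * q2 b) := by gcongr; exact hC.X
        _ = 1 := by rw [← q2_add, q2p]
    have s1 : |2 ^ (C.a k + C.rk k + 2 * b) *
        Hd (Φ ω) (C.l ω) (C.l ω') (C.p ω) (C.s i' ω) / 2 ^ c| ≤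
        3 * (K ^ 3) ^ 3 * (3 * K ^ 3 + 16 * K ^ 3) ^ 2 := by
      apply hdiv
      rw [abs_mul, abs_of_pos (by positivity : (0 : ℝ) < 2 ^ (C.a k + C.rk k + 2 * b))]
      calc _ ≤ 2 ^ (C.a k + C.rk k + 2 * b) * (3 * (K ^ 3) ^ 3 * (3 * K ^ 3 + 16 * K ^ 3) ^ 2 *
            (q2 (C.a k) * q2 b * q2 (C.rk k + b))) := by gcongr
        _ = 3 * (K ^ 3) ^ 3 * (3 * K ^ 3 + 16 * K ^ 3) ^ 2 *
            (2 ^ (C.a k + C.rk k + 2 * b) * (q2 (C.a k) * q2 b * q2 (C.rk k + b))) := by ring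
        _ = 3 * (K ^ 3) ^ 3 * (3 * K ^ 3 + 16 * K ^ 3) ^ 2 := by
          rw [← q2_add, ← q2_add, show C.a k + b + (C.rk k + b) = C.a k + C.rk k + 2 * b by ring,
            q2p, mul_one]
    refine (addb s1 (mulb he0 hV)).trans ?_
    linarith

/-- two points with the same coarse label, cell, letter : closeness at the scale of the step `j` -/
lemma Cls_lab {Φ : Ω → Fu} {c j k b i' p₁ p₂ : ℕ} {ω ω' : Ω} (hk : k ≤ i') (hb : C.μ ≤ b)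
    (ha : C.a k = C.a j + p₁) (hT : C.T i' ω' = C.T i' ω) (hD : C.cell k b ω' = C.cell k b ω)
    (hL : lbk (2 ^ p₁) (2 ^ p₂) (stX C Φ c k b i' ω') (stM C Φ c k b i' ω') =
      lbk (2 ^ p₁) (2 ^ p₂) (stX C Φ c k b i' ω) (stM C Φ c k b i' ω)) :
    Cls C (q2 (C.a j)) b i' ω ω' ∧
      fl1 (C.a j + b) ((C.l ω').X (C.s i' ω')) = fl1 (C.a j + b) ((C.l ω).X (C.s i' ω)) ∧
      fl1 (C.a j + 2 * b) (C.Zs b (C.s i' ω') ω') = fl1 (C.a j + 2 * b) (C.Zs b (C.s i' ω) ω) := by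
  obtain ⟨h1, h2, h3⟩ := Pth.cell_iff.1 hD
  have hs := s_eq C hT
  have hw := h3 1
  rw [Pth.va1, Pth.va1, Pth.lv1] at hw
  simp only [lbk, stX, Prod.mk.injEq, Matrix.cons_val_zero, Matrix.cons_val_one] at hL
  obtain ⟨l1, l2, -, -⟩ := hL
  have hX : fl1 (C.a j + b) ((C.l ω').X (C.s i' ω')) = fl1 (C.a j + b) ((C.l ω).X (C.s i' ω)) := by
    unfold fl1
    have e : ∀ x : ℝ, (2 : ℝ) ^ (C.a k + b) * x / 2 ^ p₁ = 2 ^ (C.a j + b) * x := by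
      intro x
      rw [ha, show C.a j + p₁ + b = C.a j + b + p₁ by ring, pow_add]
      field_simp
    rw [e, e] at l1
    exact l1
  have hZ : fl1 (C.a j + 2 * b) (C.Zs b (C.s i' ω') ω') =
      fl1 (C.a j + 2 * b) (C.Zs b (C.s i' ω) ω) := by
    unfold fl1
    have e : ∀ x : ℝ, (2 : ℝ) ^ (C.a k + 2 * b) * x / 2 ^ p₁ = 2 ^ (C.a j + 2 * b) * x := by
      intro x
      rw [ha, show C.a j + p₁ + 2 * b = C.a j + 2 * b + p₁ by ring, pow_add]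
      field_simp
    rw [e, e] at l2
    exact l2
  refine ⟨⟨hT, h2, hw, ?_, ?_, ?_⟩, hX, hZ⟩
  · have := fl1_close hX
    rwa [hs, q2_add] at this
  · refine (N_cell hk hb hT hD).trans ?_
    have : q2 (C.a k) ≤ q2 (C.a j) := q2_le (by omega)
    have h0 := q2_pos b
    gcongr
  · have := fl1_close hZ
    rw [hs, q2_add, two_mul, q2_add, ← mul_assoc] at this
    exact this

/-- constants -/
noncomputable def kC (K : ℝ) : ℝ := 7000 * K ^ 30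

/-- **L2**, pointwise: bounds of the slope and of the value of the slab functional of the step `j` -/
theorem L2_E {K : ℝ} {c j k b i' p₁ p₂ : ℕ} {ω ω' : Ω} {Φ : Ω → Fu} (hK : 1 ≤ K)
    (hc : (2 : ℝ) ^ c ≤ 16 * K ^ 3) (ho : C.Ok K ω) (ho' : C.Ok K ω') (hjk : j ≤ k) (hk : k ≤ i')
    (hb : 4 * C.μ ≤ b) (hR : C.R k b = C.rk k + b)
    (ha : C.a k = C.a j + p₁) (hRj : C.R k b = C.R j b + p₂) (hRm : 2 * C.μ ≤ C.R j b)
    (hF : Fok C K j i' ω (Φ ω)) (hΦ : Φ ω' = Φ ω) (hT : C.T i' ω' = C.T i' ω)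
    (hp : |C.p ω| ≤ q2 (2 * C.μ)) (hp' : |C.p ω'| ≤ q2 (2 * C.μ))
    (hD : C.cell k b ω' = C.cell k b ω)
    (hL : lbk (2 ^ p₁) (2 ^ p₂) (stX C Φ c k b i' ω') (stM C Φ c k b i' ω') =
      lbk (2 ^ p₁) (2 ^ p₂) (stX C Φ c k b i' ω) (stM C Φ c k b i' ω)) :
    |(C.l ω').N (C.s i' ω) - (C.l ω).N (C.s i' ω)| ≤ kC K * q2 (C.a j + b) ∧
    |(C.sl j b ω' + C.o 4) - (C.sl j b ω + C.o 4)| ≤ kC K * q2 (C.R j b) ∧
    (fl1 (C.R j b) (C.sl j b ω' + C.o 4) = fl1 (C.R j b) (C.sl j b ω + C.o 4) →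
    |(Gs C i' j b ω').g (C.l ω') (C.s i' ω') - (Gs C i' j b ω).g (C.l ω) (C.s i' ω)| ≤
      kC K * q2 (C.a j + b + C.R j b)) := by
  have hK0 : 0 < K := by linarith
  obtain ⟨hC, -, -⟩ := Cls_lab hk (by omega) ha hT hD hL
  have h1 := hC.v
  have hs := s_eq C hT
  have hj : j ≤ i' := hjk.trans hk
  have hqR := q2_pos (C.R j b)
  have hqa := q2_pos (C.a j)
  have hqb := q2_pos b
  have hc0 : (0 : ℝ) < 2 ^ c := by positivity
  -- the third coordinate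
  have hL' := hL
  simp only [lbk, Prod.mk.injEq] at hL'
  obtain ⟨l1, -, l3, l4⟩ := hL'
  set e0 : ℝ := 2 ^ p₂ * ⌊stX C Φ c k b i' ω 2 / 2 ^ p₂⌋ with he0
  have hp2 : (0 : ℝ) < 2 ^ p₂ := by positivity
  have hp1 : (0 : ℝ) < 2 ^ p₁ := by positivity
  have dE : |stX C Φ c k b i' ω' 2 - stX C Φ c k b i' ω 2| ≤ 2 ^ p₂ := by
    have := floor_near l3
    rw [← sub_div, abs_div, abs_of_pos hp2, div_le_one hp2] at this
    exact this
  have dE0 : |stX C Φ c k b i' ω 2 - e0| ≤ 2 ^ p₂ := by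
    have a1 := Int.floor_le (stX C Φ c k b i' ω 2 / 2 ^ p₂)
    have a2 := Int.lt_floor_add_one (stX C Φ c k b i' ω 2 / 2 ^ p₂)
    rw [le_div_iff₀ hp2] at a1
    rw [div_lt_iff₀ hp2] at a2
    rw [abs_le]
    constructor <;> nlinarith
  have dV : |stX C Φ c k b i' ω' 0 - stX C Φ c k b i' ω 0| ≤ 2 ^ p₁ := by
    have := floor_near l1
    rw [← sub_div, abs_div, abs_of_pos hp1, div_le_one hp1] at this
    exact this
  have dM : |(stM C Φ c k b i' ω' - e0 * stX C Φ c k b i' ω' 0) -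
      (stM C Φ c k b i' ω - e0 * stX C Φ c k b i' ω 0)| ≤ 2 ^ p₁ * 2 ^ p₂ := by
    rw [l3] at l4
    have := floor_near l4
    rw [← sub_div, abs_div, abs_of_pos (mul_pos hp1 hp2), div_le_one (mul_pos hp1 hp2)] at this
    exact this
  -- `Ed`
  have hE : |Ed (Φ ω) (C.l ω) (C.l ω') (C.p ω) (C.p ω') (C.s i' ω)| ≤
      16 * K ^ 3 * q2 (C.R j b) := by
    rw [stE_sub hT hΦ, abs_div, abs_of_pos hc0, div_le_iff₀ hc0, abs_mul,
      abs_of_pos (by positivity : (0 : ℝ) < 2 ^ (C.rk k + b)), ← hR, hRj, pow_add] at dE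
    have e1 : (2 : ℝ) ^ C.R j b * |Ed (Φ ω) (C.l ω) (C.l ω') (C.p ω) (C.p ω') (C.s i' ω)| ≤
        16 * K ^ 3 := by
      have : 2 ^ p₂ * ((2 : ℝ) ^ C.R j b *
          |Ed (Φ ω) (C.l ω) (C.l ω') (C.p ω) (C.p ω') (C.s i' ω)|) ≤ 2 ^ p₂ * (16 * K ^ 3) := by
        calc _ = 2 ^ C.R j b * 2 ^ p₂ *
            |Ed (Φ ω) (C.l ω) (C.l ω') (C.p ω) (C.p ω') (C.s i' ω)| := by ring
          _ ≤ 2 ^ p₂ * 2 ^ c := dE
          _ ≤ _ := by gcongr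
      exact le_of_mul_le_mul_left this hp2
    calc _ = q2 (C.R j b) * (2 ^ C.R j b *
          |Ed (Φ ω) (C.l ω) (C.l ω') (C.p ω) (C.p ω') (C.s i' ω)|) := by
            rw [← mul_assoc, mul_comm (q2 _), q2p, one_mul]
      _ ≤ q2 (C.R j b) * (16 * K ^ 3) := by gcongr
      _ = _ := by ring
  -- `Hd`
  have hH : |Hd (Φ ω) (C.l ω) (C.l ω') (C.p ω) (C.s i' ω)| ≤
      32 * K ^ 3 * (q2 (C.a j) * q2 b * q2 (C.R j b)) := by
    rw [stM_sub hT hΦ] at dM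
    have e1 : |2 ^ (C.a k + C.rk k + 2 * b) *
        Hd (Φ ω) (C.l ω) (C.l ω') (C.p ω) (C.s i' ω) / 2 ^ c| ≤ 2 * (2 ^ p₁ * 2 ^ p₂) := by
      have t1 := mulb dE0 dV
      have t2 : 2 ^ (C.a k + C.rk k + 2 * b) *
          Hd (Φ ω) (C.l ω) (C.l ω') (C.p ω) (C.s i' ω) / 2 ^ c =
          (2 ^ (C.a k + C.rk k + 2 * b) *
          Hd (Φ ω) (C.l ω) (C.l ω') (C.p ω) (C.s i' ω) / 2 ^ c +
          (stX C Φ c k b i' ω 2 - e0) * (stX C Φ c k b i' ω' 0 - stX C Φ c k b i' ω 0)) -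
          (stX C Φ c k b i' ω 2 - e0) * (stX C Φ c k b i' ω' 0 - stX C Φ c k b i' ω 0) := by ring
      rw [t2]
      refine (subb dM t1).trans (le_of_eq ?_)
      ring
    rw [abs_div, abs_of_pos hc0, div_le_iff₀ hc0, abs_mul,
      abs_of_pos (by positivity : (0 : ℝ) < 2 ^ (C.a k + C.rk k + 2 * b)),
      show C.a k + C.rk k + 2 * b = (C.a j + b + C.R j b) + (p₁ + p₂) by omega, pow_add,
      pow_add 2 p₁ p₂] at e1
    have e2 : (2 : ℝ) ^ (C.a j + b + C.R j b) *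
        |Hd (Φ ω) (C.l ω) (C.l ω') (C.p ω) (C.s i' ω)| ≤ 32 * K ^ 3 := by
      have : (2 ^ p₁ * 2 ^ p₂) * ((2 : ℝ) ^ (C.a j + b + C.R j b) *
          |Hd (Φ ω) (C.l ω) (C.l ω') (C.p ω) (C.s i' ω)|) ≤ (2 ^ p₁ * 2 ^ p₂) * (32 * K ^ 3) := by
        calc _ = 2 ^ (C.a j + b + C.R j b) * (2 ^ p₁ * 2 ^ p₂) *
            |Hd (Φ ω) (C.l ω) (C.l ω') (C.p ω) (C.s i' ω)| := by ring
          _ ≤ 2 * (2 ^ p₁ * 2 ^ p₂) * 2 ^ c := e1
          _ ≤ 2 * (2 ^ p₁ * 2 ^ p₂) * (16 * K ^ 3) := by gcongr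
          _ = _ := by ring
      exact le_of_mul_le_mul_left this (mul_pos hp1 hp2)
    rw [← q2_add, ← q2_add]
    calc _ = q2 (C.a j + b + C.R j b) * (2 ^ (C.a j + b + C.R j b) *
          |Hd (Φ ω) (C.l ω) (C.l ω') (C.p ω) (C.s i' ω)|) := by
            rw [← mul_assoc, mul_comm (q2 _), q2p, one_mul]
      _ ≤ q2 (C.a j + b + C.R j b) * (32 * K ^ 3) :=
        mul_le_mul_of_nonneg_left e2 (q2_pos _).le
      _ = _ := by ring
  have K3 : 1 ≤ K ^ 3 := one_le_pow₀ hK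
  have K13 : K ≤ K ^ 3 := le_self_pow₀ hK (by norm_num)
  have hres := tr (e := 16 * K ^ 3) (h := 32 * K ^ 3) (F1 := Φ ω) (F2 := Fs C i' j ω)
    (rk := C.rk j) (R := C.R j b) hK hqa (by positivity) hC hb (C.R_le_rk j b) hRm hp hp'
    hF.c1 hF.c2 (co_cK hK0.le ho j) hF.k1 hF.a1 hF.ka hF.al hE hH
  obtain ⟨r1, r2, r3⟩ := hres
  have hk5 : K ^ 5 ≤ K ^ 30 := pow_le_pow_right₀ hK (by norm_num)
  have hk1 : K ≤ K ^ 30 := le_self_pow₀ hK (by norm_num)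
  have hk4 : K ^ 4 ≤ K ^ 30 := pow_le_pow_right₀ hK (by norm_num)
  have hk2 : K ^ 2 ≤ K ^ 30 := pow_le_pow_right₀ hK (by norm_num)
  have hk7 : K ^ 7 ≤ K ^ 30 := pow_le_pow_right₀ hK (by norm_num)
  have hk9 : K ^ 9 ≤ K ^ 30 := pow_le_pow_right₀ hK (by norm_num)
  have hk30 : (0 : ℝ) ≤ K ^ 30 := by positivity
  refine ⟨?_, ?_, ?_⟩
  · rw [q2_add]
    refine r2.trans (mul_le_mul_of_nonneg_right ?_ (by positivity))
    unfold kC
    have e : K * (32 * K ^ 3 + 16 * K) = 32 * K ^ 4 + 16 * K ^ 2 := by ring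
    rw [e]
    linarith
  · refine (E_dig hK ho ho' hT hj h1 r1).trans (mul_le_mul_of_nonneg_right ?_ hqR.le)
    unfold kC
    have e : K ^ 2 * (16 * K ^ 3) + 6 * K + 2 * K = 16 * K ^ 5 + 8 * K := by ring
    rw [e]
    linarith
  · intro hsd
    rw [q2_add, q2_add]
    refine (H_dig hK ho hqa hT hj h1 hsd hC.X r3).trans
      (mul_le_mul_of_nonneg_right ?_ (by positivity))
    unfold kC
    have e : 3 * K ^ 3 * (32 * K ^ 3 + 16 * K) ^ 2 + 2 * K =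
      3072 * K ^ 9 + 3072 * K ^ 7 + 768 * K ^ 5 + 2 * K := by ring
    rw [e]
    linarith

end Vale.Agent.P106.H25
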