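import Vale.Agent.P106.U.Cell

/-!
# P106 / H25 : change of the frame in a V window (real part)

One ray `l`, slope `p`, time `s`; two functionals `G` (early cell), `G'` (later cell) written at `s`, relative kappas
`T, T'` of the late cell.  `PhG` : the functional of 466's `PhiH`.  `HsG` : slope of the ray, `EsG` : sheared difference of the
values.  `TRd` : two points with the same `G, G'` and the same coarse label over `G'`; `TRd.dT`, `TRd.dH`, `TRd.dE` : the label over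
`G` is the same up to `C K ^ 9` units.
-/

set_option autoImplicit false

namespace Vale.Agent.P106.H25

open Vale.Agent.P127 Vale.Agent.P127.Stk Vale.Agent.P106.U.Cell

/-- functional with the kappa of the late cell -/
def PhG (G : Fu) (T vb wb : ℝ) : Fu := ⟨G.ga + T * wb, G.ph - T * vb, G.ka + T, G.al⟩

/-- slope of the ray relative to `PhG` -/
def HsG (G : Fu) (T vb wb p : ℝ) (l : Ray) (s : ℝ) : ℝ :=
  p * (PhG G T vb wb).cN l s - (PhG G T vb wb).cV l s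

/-- sheared difference of the values -/
noncomputable def EsG (G : Fu) (T vb wb p : ℝ) (l l' : Ray) (s : ℝ) : ℝ :=
  (PhG G T vb wb).g l' s - (PhG G T vb wb).g l s - HsG G T vb wb p l s * (l'.X s - l.X s)

theorem PhG_cN (G : Fu) (T vb wb : ℝ) (l : Ray) (s : ℝ) :
    (PhG G T vb wb).cN l s = G.cN l s - T * (l.w - wb) := by
  unfold PhG Fu.cN; ring

theorem PhG_cV (G : Fu) (T vb wb : ℝ) (l : Ray) (s : ℝ) :
    (PhG G T vb wb).cV l s = G.cV l s + T * (l.v - vb) := by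
  unfold PhG Fu.cV; ring

theorem EsG_eq (G : Fu) (T vb wb p : ℝ) (l l' : Ray) (s : ℝ) :
    EsG G T vb wb p l l' s = (G.cN l s - T * (l.w - wb)) * ((l'.N s - l.N s) - p * (l'.X s - l.X s)) -
      (G.ka + T) * l.dz l' s - G.al * (((l'.X s - l.X s) ^ 2 + (l'.N s - l.N s) ^ 2) / 2) := by
  unfold EsG HsG
  rw [Fu.g_sub, ← PhG_cN]
  show _ = (PhG G T vb wb).cN l s * _ - (PhG G T vb wb).ka * _ - (PhG G T vb wb).al * _
  ring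

/-- two points with the same functionals and the same coarse label -/
structure TRd (K A B κ M N η : ℝ) (G G' : Fu) (vb wb s : ℝ) (l₁ l₂ : Ray)
    (p₁ p₂ T₁ T₂ T₁' T₂' ρ₁ ρ₂ : ℝ) : Prop where
  K1 : 1 ≤ K
  A0 : 0 < A
  B0 : 0 < B
  κ0 : 0 < κ
  κ1 : κ ≤ 1
  η0 : 0 < η
  η1 : η ≤ 1
  Mη : M * η = 1
  N1 : 1 ≤ N
  NM : N ≤ M
  Bη : B ≤ η ^ 8
  Kη : 4 * K ^ 4 * η ≤ 1
  cr1 : G.cN l₁ s = ρ₁ * G'.cN l₁ s
  cr2 : G.cN l₂ s = ρ₂ * G'.cN l₂ s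
  kr1 : G.ka + T₁ = ρ₁ * (G'.ka + T₁')
  kr2 : G.ka + T₂ = ρ₂ * (G'.ka + T₂')
  c1 : 1 ≤ K * G'.cN l₁ s
  c1' : G'.cN l₁ s ≤ K
  c2 : 1 ≤ K * G'.cN l₂ s
  r1 : |ρ₁| ≤ K ^ 2
  r2 : |ρ₂| ≤ K ^ 2
  t1 : |T₁| ≤ 2 * K ^ 3 * (κ * N ^ 2)
  t2 : |T₂| ≤ 2 * K ^ 3 * (κ * N ^ 2)
  t1' : |T₁'| ≤ 2 * K ^ 3 * (κ * N ^ 2)
  t2' : |T₂'| ≤ 2 * K ^ 3 * (κ * N ^ 2)
  kk : |G'.ka + T₁'| ≤ K ^ 3
  aa1 : |G.al - ρ₁ * G'.al| * A ≤ 4 * K ^ 3 * κ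
  aa2 : |G.al - ρ₂ * G'.al| * A ≤ 4 * K ^ 3 * κ
  a0 : |G'.al| * A ≤ K
  p1 : |p₁| ≤ η ^ 4
  p2 : |p₂| ≤ η ^ 4
  w1 : |l₁.w - wb| ≤ B * M
  w2 : |l₂.w - wb| ≤ B * M
  v1 : |l₁.v - vb| ≤ B
  dN : |l₂.N s - l₁.N s| ≤ 2 * (A * B * M)
  dX : |l₂.X s - l₁.X s| ≤ A * B
  dZ : |(l₂.Z s - vb * l₂.X s - wb * l₂.N s) - (l₁.Z s - vb * l₁.X s - wb * l₁.N s)| ≤ A * B ^ 2
  dT' : |T₂' - T₁'| ≤ κ
  dH' : |HsG G' T₂' vb wb p₂ l₂ s - HsG G' T₁' vb wb p₁ l₁ s| ≤ κ * B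
  dE' : |EsG G' T₁' vb wb p₁ l₁ l₂ s| ≤ 3 * (A * κ * B ^ 2)

theorem am {a b A B : ℝ} (ha : |a| ≤ A) (hb : |b| ≤ B) : |a * b| ≤ A * B := by
  rw [abs_mul]
  exact mul_le_mul ha hb (abs_nonneg _) ((abs_nonneg _).trans ha)

namespace TRd

variable {K A B κ M N η : ℝ} {G G' : Fu} {vb wb s : ℝ} {l₁ l₂ : Ray}
  {p₁ p₂ T₁ T₂ T₁' T₂' ρ₁ ρ₂ : ℝ}
  (X : TRd K A B κ M N η G G' vb wb s l₁ l₂ p₁ p₂ T₁ T₂ T₁' T₂' ρ₁ ρ₂)
include X

theorem M1 : 1 ≤ M := X.N1.trans X.NM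

theorem M0 : 0 < M := by have := X.M1; linarith

theorem N0 : 0 < N := by have := X.N1; linarith

/-- `N² B M³ ≤ 1` -/
theorem sm : N ^ 2 * B * M ^ 3 ≤ 1 := by
  have hM := X.M0
  have hN := X.N0
  have hB := X.B0
  have hη := X.η0
  have e : (M * η) ^ 5 = 1 := by rw [X.Mη]; ring
  calc N ^ 2 * B * M ^ 3 ≤ M ^ 2 * η ^ 8 * M ^ 3 := by
        have h1 := X.NM
        have h2 := X.Bη
        gcongr
    _ = (M * η) ^ 5 * η ^ 3 := by ring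
    _ = η ^ 3 := by rw [e, one_mul]
    _ ≤ 1 := pow_le_one₀ hη.le X.η1

/-- `N² B M ≤ 1` -/
theorem sm1 : N ^ 2 * B * M ≤ 1 := by
  refine le_trans ?_ X.sm
  have hM := X.M1
  have hN := X.N0
  have hB := X.B0
  have : M ≤ M ^ 3 := by
    calc M = M ^ 1 := (pow_one M).symm
      _ ≤ M ^ 3 := pow_le_pow_right₀ hM (by norm_num)
  gcongr

/-- `N² M η⁴ ≤ 1` -/
theorem sm2 : N ^ 2 * M * η ^ 4 ≤ 1 := by
  have hM := X.M0
  have hN := X.N0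
  have hη := X.η0
  have e : (M * η) ^ 3 = 1 := by rw [X.Mη]; ring
  calc N ^ 2 * M * η ^ 4 ≤ M ^ 2 * M * η ^ 4 := by
        have h1 := X.NM
        gcongr
    _ = (M * η) ^ 3 * η := by ring
    _ = η := by rw [e, one_mul]
    _ ≤ 1 := X.η1

theorem Kp {m n : ℕ} (h : m ≤ n) : K ^ m ≤ K ^ n := pow_le_pow_right₀ X.K1 h

theorem tt1 : |T₁ - ρ₁ * T₁'| ≤ 4 * K ^ 5 * (κ * N ^ 2) ∧ |T₂ - ρ₂ * T₂'| ≤ 4 * K ^ 5 * (κ * N ^ 2) := by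
  have hK := X.K1
  have hκ := X.κ0
  have hN := X.N0
  have e1 : K ^ 3 * (κ * N ^ 2) ≤ K ^ 5 * (κ * N ^ 2) := by
    have := X.Kp (show 3 ≤ 5 by norm_num)
    gcongr
  constructor
  · have h1 := abs_sub T₁ (ρ₁ * T₁')
    have h2 := am X.r1 X.t1'
    have h3 := X.t1
    have e : K ^ 2 * (2 * K ^ 3 * (κ * N ^ 2)) = 2 * (K ^ 5 * (κ * N ^ 2)) := by ring
    linarith
  · have h1 := abs_sub T₂ (ρ₂ * T₂')
    have h2 := am X.r2 X.t2'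
    have h3 := X.t2
    have e : K ^ 2 * (2 * K ^ 3 * (κ * N ^ 2)) = 2 * (K ^ 5 * (κ * N ^ 2)) := by ring
    linarith

theorem kd1 : G.ka - ρ₁ * G'.ka = -(T₁ - ρ₁ * T₁') := by
  have := X.kr1
  linear_combination this

theorem kd2 : G.ka - ρ₂ * G'.ka = -(T₂ - ρ₂ * T₂') := by
  have := X.kr2
  linear_combination this

theorem dw : |l₂.w - l₁.w| ≤ 2 * (B * M) := by
  have h1 := X.w1
  have h2 := X.w2
  rw [abs_le] at h1 h2 ⊢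
  constructor <;> linarith [h1.1, h1.2, h2.1, h2.2]

/-- change of the ratio -/
theorem dρ : |ρ₂ - ρ₁| ≤ 16 * K ^ 6 * (κ * (N ^ 2 * B * M)) := by
  have hK := X.K1
  have hκ := X.κ0
  have hN := X.N0
  have hN1 := X.N1
  have hB := X.B0
  have hM := X.M0
  have hA := X.A0
  have c0 : 0 < G'.cN l₂ s := by
    by_contra hn
    push Not at hn
    have := X.c2
    nlinarith
  have e0 : (ρ₂ - ρ₁) * G'.cN l₂ s =
      (T₁ - ρ₁ * T₁') * (l₂.w - l₁.w) - (G.al - ρ₁ * G'.al) * (l₂.N s - l₁.N s) := by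
    have h1 := X.cr1
    have h2 := X.cr2
    have h3 := X.kd1
    have e1 : G.cN l₂ s - G.cN l₁ s = - G.ka * (l₂.w - l₁.w) - G.al * (l₂.N s - l₁.N s) := by
      unfold Fu.cN; ring
    have e2 : G'.cN l₂ s - G'.cN l₁ s = - G'.ka * (l₂.w - l₁.w) - G'.al * (l₂.N s - l₁.N s) := by
      unfold Fu.cN; ring
    linear_combination (-1 : ℝ) * h2 + h1 + e1 - ρ₁ * e2 - (l₂.w - l₁.w) * h3
  have b1 := am X.tt1.1 X.dw
  have b2 : |(G.al - ρ₁ * G'.al) * (l₂.N s - l₁.N s)| ≤ 8 * K ^ 3 * (κ * (B * M)) := by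
    rw [abs_mul]
    calc _ ≤ |G.al - ρ₁ * G'.al| * (2 * (A * B * M)) := mul_le_mul_of_nonneg_left X.dN (abs_nonneg _)
      _ = (|G.al - ρ₁ * G'.al| * A) * (2 * (B * M)) := by ring
      _ ≤ (4 * K ^ 3 * κ) * (2 * (B * M)) := mul_le_mul_of_nonneg_right X.aa1 (by positivity)
      _ = _ := by ring
  have b3 : |(ρ₂ - ρ₁) * G'.cN l₂ s| ≤ 16 * K ^ 5 * (κ * (N ^ 2 * B * M)) := by
    rw [e0]
    have h1 := abs_sub ((T₁ - ρ₁ * T₁') * (l₂.w - l₁.w)) ((G.al - ρ₁ * G'.al) * (l₂.N s - l₁.N s))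
    have h2 : K ^ 3 * (κ * (B * M)) ≤ K ^ 5 * (κ * (N ^ 2 * B * M)) := by
      have h3 := X.Kp (show 3 ≤ 5 by norm_num)
      have h4 : B * M ≤ N ^ 2 * B * M := by
        have h5 : 1 ≤ N ^ 2 := one_le_pow₀ hN1
        calc B * M = 1 * (B * M) := (one_mul _).symm
          _ ≤ N ^ 2 * (B * M) := by gcongr
          _ = _ := by ring
      gcongr
    have e : 4 * K ^ 5 * (κ * N ^ 2) * (2 * (B * M)) = 8 * (K ^ 5 * (κ * (N ^ 2 * B * M))) := by ring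
    linarith
  rw [abs_mul, abs_of_pos c0] at b3
  calc |ρ₂ - ρ₁| = |ρ₂ - ρ₁| * 1 := (mul_one _).symm
    _ ≤ |ρ₂ - ρ₁| * (K * G'.cN l₂ s) := mul_le_mul_of_nonneg_left X.c2 (abs_nonneg _)
    _ = K * (|ρ₂ - ρ₁| * G'.cN l₂ s) := by ring
    _ ≤ K * (16 * K ^ 5 * (κ * (N ^ 2 * B * M))) := mul_le_mul_of_nonneg_left b3 (by linarith)
    _ = _ := by ring

/-- **kappa** -/
theorem dT : |T₂ - T₁| ≤ 17 * K ^ 9 * κ := by
  have hK := X.K1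
  have hκ := X.κ0
  have e : T₂ - T₁ = ρ₂ * (T₂' - T₁') + (ρ₂ - ρ₁) * (G'.ka + T₁') := by
    have h1 := X.kr1
    have h2 := X.kr2
    linear_combination h2 - h1
  have b1 := am X.r2 X.dT'
  have b2 := am X.dρ X.kk
  have h1 := abs_add_le (ρ₂ * (T₂' - T₁')) ((ρ₂ - ρ₁) * (G'.ka + T₁'))
  have h2 : 16 * K ^ 6 * (κ * (N ^ 2 * B * M)) * K ^ 3 ≤ 16 * (K ^ 9 * κ) := by
    calc _ = 16 * (K ^ 9 * κ) * (N ^ 2 * B * M) := by ring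
      _ ≤ 16 * (K ^ 9 * κ) * 1 := mul_le_mul_of_nonneg_left X.sm1 (by positivity)
      _ = _ := by ring
  have h3 : K ^ 2 * κ ≤ K ^ 9 * κ := by
    have := X.Kp (show 2 ≤ 9 by norm_num)
    gcongr
  rw [e]
  linarith

/-- the identity of the slopes -/
theorem HsG_sub : HsG G T₂ vb wb p₂ l₂ s - HsG G T₁ vb wb p₁ l₁ s =
    ρ₂ * (HsG G' T₂' vb wb p₂ l₂ s - HsG G' T₁' vb wb p₁ l₁ s) +
    (ρ₂ - ρ₁) * (p₁ * G'.cN l₁ s - (G'.ka + T₁') * (l₁.v - vb) - p₁ * (T₁' * (l₁.w - wb))) -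
    (G.al - ρ₂ * G'.al) * (l₂.X s - l₁.X s) - p₂ * ((T₂ - ρ₂ * T₂') * (l₂.w - wb)) +
    p₁ * ((T₁ - ρ₁ * T₁') * (l₁.w - wb)) := by
  unfold HsG
  simp only [PhG_cN, PhG_cV]
  have h1 := X.cr1
  have h2 := X.cr2
  have h3 := X.kr1
  have h4 := X.kr2
  have e1 : G.cV l₁ s = G.ph + G.ka * l₁.v + G.al * l₁.X s := rfl
  have e2 : G.cV l₂ s = G.ph + G.ka * l₂.v + G.al * l₂.X s := rfl
  have e3 : G'.cV l₁ s = G'.ph + G'.ka * l₁.v + G'.al * l₁.X s := rfl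
  have e4 : G'.cV l₂ s = G'.ph + G'.ka * l₂.v + G'.al * l₂.X s := rfl
  rw [e1, e2, e3, e4]
  linear_combination p₂ * h2 - p₁ * h1 - (l₂.v - vb) * h4 + (l₁.v - vb) * h3

/-- **slope** -/
theorem dH : |HsG G T₂ vb wb p₂ l₂ s - HsG G T₁ vb wb p₁ l₁ s| ≤ 80 * K ^ 9 * (κ * B) := by
  have hK := X.K1
  have hκ := X.κ0
  have hκ1 := X.κ1
  have hN := X.N0
  have hB := X.B0
  have hM := X.M0
  have hA := X.A0
  have hη := X.η0
  rw [X.HsG_sub]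
  set U := ρ₂ * (HsG G' T₂' vb wb p₂ l₂ s - HsG G' T₁' vb wb p₁ l₁ s) with hU
  set V := (ρ₂ - ρ₁) * (p₁ * G'.cN l₁ s - (G'.ka + T₁') * (l₁.v - vb) - p₁ * (T₁' * (l₁.w - wb))) with hV
  set W := (G.al - ρ₂ * G'.al) * (l₂.X s - l₁.X s) with hW
  set Y := p₂ * ((T₂ - ρ₂ * T₂') * (l₂.w - wb)) with hY
  set Z := p₁ * ((T₁ - ρ₁ * T₁') * (l₁.w - wb)) with hZ
  have bU : |U| ≤ K ^ 9 * (κ * B) := by
    refine (am X.r2 X.dH').trans ?_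
    have := X.Kp (show 2 ≤ 9 by norm_num)
    gcongr
  have bW : |W| ≤ 4 * (K ^ 9 * (κ * B)) := by
    rw [hW, abs_mul]
    calc _ ≤ |G.al - ρ₂ * G'.al| * (A * B) := mul_le_mul_of_nonneg_left X.dX (abs_nonneg _)
      _ = (|G.al - ρ₂ * G'.al| * A) * B := by ring
      _ ≤ (4 * K ^ 3 * κ) * B := mul_le_mul_of_nonneg_right X.aa2 hB.le
      _ = 4 * (K ^ 3 * (κ * B)) := by ring
      _ ≤ _ := by
        have := X.Kp (show 3 ≤ 9 by norm_num)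
        gcongr
  have hz : η ^ 4 * (4 * K ^ 5 * (κ * N ^ 2) * (B * M)) ≤ 4 * (K ^ 9 * (κ * B)) := by
    calc _ = 4 * (K ^ 5 * (κ * B)) * (N ^ 2 * M * η ^ 4) := by ring
      _ ≤ 4 * (K ^ 5 * (κ * B)) * 1 := mul_le_mul_of_nonneg_left X.sm2 (by positivity)
      _ = 4 * (K ^ 5 * (κ * B)) := mul_one _
      _ ≤ _ := by
        have := X.Kp (show 5 ≤ 9 by norm_num)
        gcongr
  have bY : |Y| ≤ 4 * (K ^ 9 * (κ * B)) := (am X.p2 (am X.tt1.2 X.w2)).trans hz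
  have bZ : |Z| ≤ 4 * (K ^ 9 * (κ * B)) := (am X.p1 (am X.tt1.1 X.w1)).trans hz
  have bV : |V| ≤ 64 * (K ^ 9 * (κ * B)) := by
    have c0 : 0 < G'.cN l₁ s := by
      by_contra hn
      push Not at hn
      have := X.c1
      nlinarith
    have d1 : |p₁ * G'.cN l₁ s| ≤ η ^ 4 * K := am X.p1 (by rw [abs_of_pos c0]; exact X.c1')
    have d2 := am X.kk X.v1
    have d3 := am X.p1 (am X.t1' X.w1)
    have d4 := abs_sub (p₁ * G'.cN l₁ s - (G'.ka + T₁') * (l₁.v - vb)) (p₁ * (T₁' * (l₁.w - wb)))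
    have d5 := abs_sub (p₁ * G'.cN l₁ s) ((G'.ka + T₁') * (l₁.v - vb))
    have d6 : |p₁ * G'.cN l₁ s - (G'.ka + T₁') * (l₁.v - vb) - p₁ * (T₁' * (l₁.w - wb))| ≤
        K ^ 3 * (3 * η ^ 4 + B) := by
      have h1 : η ^ 4 * K ≤ K ^ 3 * η ^ 4 := by
        have := X.Kp (show 1 ≤ 3 by norm_num)
        rw [pow_one] at this
        calc η ^ 4 * K = K * η ^ 4 := mul_comm _ _
          _ ≤ _ := by gcongr
      have h2 : η ^ 4 * (2 * K ^ 3 * (κ * N ^ 2) * (B * M)) ≤ 2 * (K ^ 3 * η ^ 4) := by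
        calc _ = 2 * (K ^ 3 * η ^ 4) * (κ * (N ^ 2 * B * M)) := by ring
          _ ≤ 2 * (K ^ 3 * η ^ 4) * (1 * 1) := by
            have := X.sm1
            gcongr
          _ = _ := by ring
      have h3 : K ^ 3 * (3 * η ^ 4 + B) = 3 * (K ^ 3 * η ^ 4) + K ^ 3 * B := by ring
      rw [h3]
      linarith
    refine (am X.dρ d6).trans ?_
    calc 16 * K ^ 6 * (κ * (N ^ 2 * B * M)) * (K ^ 3 * (3 * η ^ 4 + B)) =
          16 * (K ^ 9 * (κ * B)) * (3 * (N ^ 2 * M * η ^ 4) + N ^ 2 * B * M) := by ring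
      _ ≤ 16 * (K ^ 9 * (κ * B)) * (3 * 1 + 1) := by
        have h1 := X.sm1
        have h2 := X.sm2
        gcongr
      _ = _ := by ring
  have x1 := abs_add_le (U + V - W - Y) Z
  have x2 := abs_sub (U + V - W) Y
  have x3 := abs_sub (U + V) W
  have x4 := abs_add_le U V
  have x5 : 80 * K ^ 9 * (κ * B) = 80 * (K ^ 9 * (κ * B)) := by ring
  have x6 : 0 ≤ K ^ 9 * (κ * B) := by positivity
  rw [x5]
  linarith

/-- the difference of the N-coordinates -/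
theorem dnx : |(l₂.N s - l₁.N s) - p₁ * (l₂.X s - l₁.X s)| ≤ 20 * K ^ 4 * (A * B ^ 2 * M ^ 2) := by
  have hK := X.K1
  have hκ := X.κ0
  have hκ1 := X.κ1
  have hN := X.N0
  have hB := X.B0
  have hM := X.M0
  have hM1 := X.M1
  have hA := X.A0
  have hη := X.η0
  have hη1 := X.η1
  set u := (l₂.N s - l₁.N s) - p₁ * (l₂.X s - l₁.X s) with hu
  have e := EsG_eq G' T₁' vb wb p₁ l₁ l₂ s
  rw [← hu] at e
  have hdz : |l₁.dz l₂ s| ≤ 4 * (A * B ^ 2 * M ^ 2) := by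
    have e1 : l₁.dz l₂ s = ((l₂.Z s - vb * l₂.X s - wb * l₂.N s) - (l₁.Z s - vb * l₁.X s - wb * l₁.N s)) -
        (l₁.v - vb) * (l₂.X s - l₁.X s) - (l₁.w - wb) * (l₂.N s - l₁.N s) := by
      unfold Ray.dz; ring
    have b1 := am X.v1 X.dX
    have b2 := am X.w1 X.dN
    have b3 := X.dZ
    have x1 := abs_sub (((l₂.Z s - vb * l₂.X s - wb * l₂.N s) - (l₁.Z s - vb * l₁.X s - wb * l₁.N s)) -
        (l₁.v - vb) * (l₂.X s - l₁.X s)) ((l₁.w - wb) * (l₂.N s - l₁.N s))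
    have x2 := abs_sub ((l₂.Z s - vb * l₂.X s - wb * l₂.N s) - (l₁.Z s - vb * l₁.X s - wb * l₁.N s))
        ((l₁.v - vb) * (l₂.X s - l₁.X s))
    have x3 : A * B ^ 2 ≤ A * B ^ 2 * M ^ 2 := le_mul_of_one_le_right (by positivity) (one_le_pow₀ hM1)
    rw [e1]
    nlinarith
  have hq : |((l₂.X s - l₁.X s) ^ 2 + (l₂.N s - l₁.N s) ^ 2) / 2| ≤ 3 * (A ^ 2 * B ^ 2 * M ^ 2) := by
    have h1 : (l₂.X s - l₁.X s) ^ 2 ≤ (A * B) ^ 2 := by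
      rw [← sq_abs]; exact pow_le_pow_left₀ (abs_nonneg _) X.dX 2
    have h2 : (l₂.N s - l₁.N s) ^ 2 ≤ (2 * (A * B * M)) ^ 2 := by
      rw [← sq_abs]; exact pow_le_pow_left₀ (abs_nonneg _) X.dN 2
    have h3 : (A * B) ^ 2 ≤ A ^ 2 * B ^ 2 * M ^ 2 := by
      calc (A * B) ^ 2 = A ^ 2 * B ^ 2 := by ring
        _ ≤ _ := le_mul_of_one_le_right (by positivity) (one_le_pow₀ hM1)
    rw [abs_of_nonneg (by positivity)]
    have h4 : (2 * (A * B * M)) ^ 2 = 4 * (A ^ 2 * B ^ 2 * M ^ 2) := by ring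
    rw [h4] at h2
    have h5 : 0 ≤ A ^ 2 * B ^ 2 * M ^ 2 := by positivity
    linarith
  have b1 : |(G'.ka + T₁') * l₁.dz l₂ s| ≤ 4 * (K ^ 3 * (A * B ^ 2 * M ^ 2)) :=
    (am X.kk hdz).trans (le_of_eq (by ring))
  have b2 : |G'.al * (((l₂.X s - l₁.X s) ^ 2 + (l₂.N s - l₁.N s) ^ 2) / 2)| ≤
      3 * (K ^ 3 * (A * B ^ 2 * M ^ 2)) := by
    rw [abs_mul]
    calc _ ≤ |G'.al| * (3 * (A ^ 2 * B ^ 2 * M ^ 2)) := mul_le_mul_of_nonneg_left hq (abs_nonneg _)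
      _ = (|G'.al| * A) * (3 * (A * B ^ 2 * M ^ 2)) := by ring
      _ ≤ K * (3 * (A * B ^ 2 * M ^ 2)) := mul_le_mul_of_nonneg_right X.a0 (by positivity)
      _ = 3 * (K * (A * B ^ 2 * M ^ 2)) := by ring
      _ ≤ _ := by
        have := X.Kp (show 1 ≤ 3 by norm_num)
        rw [pow_one] at this
        gcongr
  have b3 : |EsG G' T₁' vb wb p₁ l₁ l₂ s| ≤ 3 * (K ^ 3 * (A * B ^ 2 * M ^ 2)) := by
    refine X.dE'.trans ?_
    have h1 : 1 ≤ K ^ 3 := one_le_pow₀ hK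
    calc 3 * (A * κ * B ^ 2) ≤ 3 * (A * 1 * B ^ 2) := by gcongr
      _ = 3 * (1 * (A * B ^ 2 * 1)) := by ring
      _ ≤ _ := by
        have := one_le_pow₀ (n := 2) hM1
        gcongr
  have e2 : (G'.cN l₁ s - T₁' * (l₁.w - wb)) * u = EsG G' T₁' vb wb p₁ l₁ l₂ s +
      (G'.ka + T₁') * l₁.dz l₂ s +
        G'.al * (((l₂.X s - l₁.X s) ^ 2 + (l₂.N s - l₁.N s) ^ 2) / 2) := by
    rw [e]; ring
  have b4 : |(G'.cN l₁ s - T₁' * (l₁.w - wb)) * u| ≤ 10 * (K ^ 3 * (A * B ^ 2 * M ^ 2)) := by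
    rw [e2]
    have x1 := abs_add_le (EsG G' T₁' vb wb p₁ l₁ l₂ s + (G'.ka + T₁') * l₁.dz l₂ s)
      (G'.al * (((l₂.X s - l₁.X s) ^ 2 + (l₂.N s - l₁.N s) ^ 2) / 2))
    have x2 := abs_add_le (EsG G' T₁' vb wb p₁ l₁ l₂ s) ((G'.ka + T₁') * l₁.dz l₂ s)
    linarith
  -- the coefficient
  have b5 : |T₁' * (l₁.w - wb)| ≤ 2 * K ^ 3 * η := by
    refine (am X.t1' X.w1).trans ?_
    calc 2 * K ^ 3 * (κ * N ^ 2) * (B * M) = 2 * K ^ 3 * κ * (N ^ 2 * B * M) := by ring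
      _ ≤ 2 * K ^ 3 * 1 * (M ^ 2 * η ^ 8 * M) := by
        have h1 := X.NM
        have h2 := X.Bη
        gcongr
      _ = 2 * K ^ 3 * η ^ 5 * (M * η) ^ 3 := by ring
      _ = 2 * K ^ 3 * η ^ 5 := by rw [X.Mη]; ring
      _ ≤ 2 * K ^ 3 * η := by
        have h1 : η ^ 5 ≤ η ^ 1 := pow_le_pow_of_le_one hη.le hη1 (by norm_num)
        rw [pow_one] at h1
        gcongr
  have hc : 1 ≤ 2 * K * (G'.cN l₁ s - T₁' * (l₁.w - wb)) := by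
    have h1 := X.c1
    have h2 := abs_le.1 b5
    have h3 := X.Kη
    have h4 : K * (T₁' * (l₁.w - wb)) ≤ K * (2 * K ^ 3 * η) := mul_le_mul_of_nonneg_left h2.2 (by linarith)
    have h5 : K * (2 * K ^ 3 * η) = (4 * K ^ 4 * η) / 2 := by ring
    rw [h5] at h4
    linarith
  have c0 : 0 < G'.cN l₁ s - T₁' * (l₁.w - wb) := by
    by_contra hn
    push Not at hn
    nlinarith
  rw [abs_mul, abs_of_pos c0] at b4
  calc |u| = |u| * 1 := (mul_one _).symm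
    _ ≤ |u| * (2 * K * (G'.cN l₁ s - T₁' * (l₁.w - wb))) := mul_le_mul_of_nonneg_left hc (abs_nonneg _)
    _ = 2 * K * ((G'.cN l₁ s - T₁' * (l₁.w - wb)) * |u|) := by ring
    _ ≤ 2 * K * (10 * (K ^ 3 * (A * B ^ 2 * M ^ 2))) := mul_le_mul_of_nonneg_left b4 (by linarith)
    _ = _ := by ring

/-- **value** -/
theorem dE : |EsG G T₁ vb wb p₁ l₁ l₂ s| ≤ 160 * K ^ 9 * (A * κ * B ^ 2) := by
  have hK := X.K1
  have hκ := X.κ0
  have hN := X.N0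
  have hB := X.B0
  have hM := X.M0
  have hM1 := X.M1
  have hA := X.A0
  have hη := X.η0
  have hη1 := X.η1
  have hu := X.dnx
  set u := (l₂.N s - l₁.N s) - p₁ * (l₂.X s - l₁.X s) with hud
  set q := ((l₂.X s - l₁.X s) ^ 2 + (l₂.N s - l₁.N s) ^ 2) / 2 with hq
  have e : EsG G T₁ vb wb p₁ l₁ l₂ s = ρ₁ * EsG G' T₁' vb wb p₁ l₁ l₂ s -
      (T₁ - ρ₁ * T₁') * (l₁.w - wb) * u - (G.al - ρ₁ * G'.al) * q := by
    rw [EsG_eq, EsG_eq, ← hud, ← hq]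
    have h1 := X.cr1
    have h2 := X.kr1
    linear_combination u * h1 - (l₁.dz l₂ s) * h2
  -- the N-difference
  have hBM : 20 * K ^ 4 * (B * M ^ 2) ≤ 5 := by
    calc 20 * K ^ 4 * (B * M ^ 2) ≤ 20 * K ^ 4 * (η ^ 8 * M ^ 2) := by
          have := X.Bη
          gcongr
      _ = 20 * K ^ 4 * (η ^ 6 * (M * η) ^ 2) := by ring
      _ = 20 * K ^ 4 * η ^ 6 := by rw [X.Mη]; ring
      _ ≤ 20 * K ^ 4 * η := by
        have h1 : η ^ 6 ≤ η ^ 1 := pow_le_pow_of_le_one hη.le hη1 (by norm_num)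
        rw [pow_one] at h1
        gcongr
      _ ≤ 5 := by linarith [X.Kη]
  have hN2 : |l₂.N s - l₁.N s| ≤ 6 * (A * B) := by
    have e1 : l₂.N s - l₁.N s = u + p₁ * (l₂.X s - l₁.X s) := by rw [hud]; ring
    have b1 := am X.p1 X.dX
    have b2 : η ^ 4 * (A * B) ≤ A * B := mul_le_of_le_one_left (by positivity) (pow_le_one₀ hη.le hη1)
    have b3 : 20 * K ^ 4 * (A * B ^ 2 * M ^ 2) ≤ 5 * (A * B) := by
      calc _ = (20 * K ^ 4 * (B * M ^ 2)) * (A * B) := by ring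
        _ ≤ 5 * (A * B) := mul_le_mul_of_nonneg_right hBM (by positivity)
    have x1 := abs_add_le u (p₁ * (l₂.X s - l₁.X s))
    rw [e1]
    linarith
  have hq2 : |q| ≤ 19 * (A ^ 2 * B ^ 2) := by
    have h1 : (l₂.X s - l₁.X s) ^ 2 ≤ (A * B) ^ 2 := by
      rw [← sq_abs]; exact pow_le_pow_left₀ (abs_nonneg _) X.dX 2
    have h2 : (l₂.N s - l₁.N s) ^ 2 ≤ (6 * (A * B)) ^ 2 := by
      rw [← sq_abs]; exact pow_le_pow_left₀ (abs_nonneg _) hN2 2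
    have h5 : 0 ≤ A ^ 2 * B ^ 2 := by positivity
    rw [hq, abs_of_nonneg (by positivity)]
    nlinarith
  have b1 : |ρ₁ * EsG G' T₁' vb wb p₁ l₁ l₂ s| ≤ 3 * (K ^ 9 * (A * κ * B ^ 2)) := by
    refine (am X.r1 X.dE').trans ?_
    calc _ = 3 * (K ^ 2 * (A * κ * B ^ 2)) := by ring
      _ ≤ _ := by
        have := X.Kp (show 2 ≤ 9 by norm_num)
        gcongr
  have b2 : |(T₁ - ρ₁ * T₁') * (l₁.w - wb) * u| ≤ 80 * (K ^ 9 * (A * κ * B ^ 2)) := by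
    refine (am (am X.tt1.1 X.w1) hu).trans ?_
    calc 4 * K ^ 5 * (κ * N ^ 2) * (B * M) * (20 * K ^ 4 * (A * B ^ 2 * M ^ 2)) =
          80 * (K ^ 9 * (A * κ * B ^ 2)) * (N ^ 2 * B * M ^ 3) := by ring
      _ ≤ 80 * (K ^ 9 * (A * κ * B ^ 2)) * 1 := mul_le_mul_of_nonneg_left X.sm (by positivity)
      _ = _ := mul_one _
  have b3 : |(G.al - ρ₁ * G'.al) * q| ≤ 76 * (K ^ 9 * (A * κ * B ^ 2)) := by
    rw [abs_mul]
    calc _ ≤ |G.al - ρ₁ * G'.al| * (19 * (A ^ 2 * B ^ 2)) := mul_le_mul_of_nonneg_left hq2 (abs_nonneg _)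
      _ = (|G.al - ρ₁ * G'.al| * A) * (19 * (A * B ^ 2)) := by ring
      _ ≤ (4 * K ^ 3 * κ) * (19 * (A * B ^ 2)) := mul_le_mul_of_nonneg_right X.aa1 (by positivity)
      _ = 76 * (K ^ 3 * (A * κ * B ^ 2)) := by ring
      _ ≤ _ := by
        have := X.Kp (show 3 ≤ 9 by norm_num)
        gcongr
  have x1 := abs_sub (ρ₁ * EsG G' T₁' vb wb p₁ l₁ l₂ s - (T₁ - ρ₁ * T₁') * (l₁.w - wb) * u)
    ((G.al - ρ₁ * G'.al) * q)
  have x2 := abs_sub (ρ₁ * EsG G' T₁' vb wb p₁ l₁ l₂ s) ((T₁ - ρ₁ * T₁') * (l₁.w - wb) * u)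
  rw [e]
  have x3 : 160 * K ^ 9 * (A * κ * B ^ 2) = 160 * (K ^ 9 * (A * κ * B ^ 2)) := by ring
  have x4 : 0 ≤ K ^ 9 * (A * κ * B ^ 2) := by positivity
  rw [x3]
  linarith

end TRd

end Vale.Agent.P106.H25
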