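import Vale.Agent.P106.H25.LabV0
import Vale.Agent.P106.H25.LabT
import Vale.Agent.P106.U.H785.MtrOk
import Vale.Agent.P106.U.H572.LabA

/-!
# P106 / H25 : change of the frame in a V window

Two consecutive steps `j, j'` (`a`, `rk` both `+ m`), late step `i`.  `VCtx.cls` : two points with the same cells `mtr j b`,
`mtr j' b`, the same rounded time `s i` and states over `j'` which are close up to `2 ^ m` (`2 ^ 2 m` in the centre) have states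
over `j` close up to `160 (8 K) ^ 9`.
-/

set_option autoImplicit false

namespace Vale.Agent.P106.H25

open Finset Vale.Agent.P127 Vale.Agent.P127.Stk
open Vale.Agent.P127.U.CellD (q2 rd Nb q2_pos q2_add q2_le rd_err rd_le lt_rd rd_mono q2_mul_pow fl1_fl1)
open Vale.Agent.P106.U.Cell Vale.Agent.P106.U.H466 Vale.Agent.P106.U.H785.Mtr
open Vale.Agent.P106.U.H785.Mtr.Mtd (ka_near cN_near pa_ok rr_le rr_mono)
open Vale.Agent.P106.U.H572 (ClH)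

variable {Ω π : Type}

/-- hypotheses at a point, two consecutive steps -/
structure VOk (D : Mtd Ω π) (K : ℝ) (I : Set ℕ) (j j' : ℕ) (ω : Ω) : Prop where
  hy : D.Hy K I ω
  p4 : |D.p ω| ≤ q2 (4 * D.μ)
  wa : |D.g j' ω - D.g j ω| * q2 (D.a j) ≤ 3 * K * q2 (D.rk j)
  w0 : |D.g j' ω| * q2 (D.a j) ≤ K * q2 (2 * D.μ)

/-- two consecutive steps of a V window -/
structure VCtx (D : Mtd Ω π) (S : Ω → Prop) (K : ℝ) (I : Set ℕ) (j j' i b m : ℕ) : Prop where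
  K1 : 1 ≤ K
  Kη : 4 * (8 * K) ^ 4 * q2 D.μ ≤ 1
  jI : j ∈ I
  jI' : j' ∈ I
  iI : i ∈ I
  jj : j ≤ j'
  ji : j' ≤ i
  aj : D.a j' = D.a j + m
  rj : D.rk j' = D.rk j + m
  b8 : 8 * D.μ ≤ b
  nu : D.ν ≤ D.μ
  ok : ∀ ω, S ω → VOk D K I j j' ω

namespace VCtx

variable {D : Mtd Ω π} {S : Ω → Prop} {K : ℝ} {I : Set ℕ} {j j' i b m : ℕ}

/-- the ratio and the relative kappa of a step -/
theorem TE_bd (hK : 1 ≤ K) {k : ℕ} {ω : Ω} (h : D.Hy K I ω) (hk : k ∈ I) (hi : i ∈ I) (hki : k ≤ i) :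
    |rE (D.p1 k) (D.p1 i) k i ω| ≤ (8 * K) ^ 2 ∧
    |TE (D.p1 k) (D.p1 i) k i ω| ≤ 2 * (8 * K) ^ 3 * q2 (D.rr k) := by
  have ok1 := pa_ok (σ := fun _ => k) (hσ := monotone_const) hK h (fun _ => hk)
  have ok2 := pa_ok (σ := fun _ => i) (hσ := monotone_const) hK h (fun _ => hi)
  have hr := rr_mono D hki
  have hrk := rr_le D k
  have q := q2_pos (D.rr k)
  have e1 := cN_near hK h hi
  have e2 := cN_near hK h hk
  have e3 := ka_near D i ω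
  have e4 := ka_near D k ω
  have e5 := h.ka k hk i hi hki
  have hN : |D.cNL i ω - D.cNL k ω| ≤ 8 * K * q2 (D.rr k) := by
    have x : 4 * K * q2 (D.rr i) ≤ 4 * K * q2 (D.rr k) :=
      mul_le_mul_of_nonneg_left hr (by linarith)
    rw [abs_le] at e1 e2 ⊢
    constructor <;> linarith [e1.1, e1.2, e2.1, e2.2]
  have hk' : |D.kaL i (D.lt i ω) - (D.kaL k (D.lt k ω) - (D.s i ω - D.s k ω) * D.g k ω)| ≤
      8 * K * q2 (D.rr k) := by
    have x1 : K * q2 (D.rk k) ≤ K * q2 (D.rr k) := mul_le_mul_of_nonneg_left hrk (by linarith)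
    have x2 : q2 (D.rr k) ≤ K * q2 (D.rr k) := le_mul_of_one_le_left q.le hK
    rw [abs_le] at e3 e4 e5 ⊢
    constructor <;> linarith [e3.1, e3.2, e4.1, e4.2, e5.1, e5.2]
  obtain ⟨r1, _, r3⟩ := rat (K := 8 * K) (E := q2 (D.rr k)) (by linarith) (ok2.n1 i) (ok1.n1 k)
    (ok1.n2 k) hN (ok2.k1 i) hk'
  exact ⟨r1, r3⟩

/-- the rounded velocity -/
theorem wd (ω : Ω) : |(D.l ω).w - wb (D.p1 j) b ω| ≤ q2 b * 2 ^ D.μ := by
  rw [abs_sub_comm]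
  exact (ro_err (D.p1 j) 1 _ _).trans (q2_sub _ _)

theorem vd (ω : Ω) : |(D.l ω).v - vb (D.p1 j) b ω| ≤ q2 b := by
  rw [abs_sub_comm]
  exact rd_err _ _

/-- the functional of the step `j` at the time of the step `i` -/
theorem G_cN {k : ℕ} {dr : Ω → Ω} (hdr : Rep S ((D.p1 k).cell k b) dr) {ω : Ω} (hω : S ω) (ω' : Ω) :
    (G0 (D.p1 k) k dr (D.s i ω) ω).cN (D.l ω') (D.s i ω) =
      D.gaL k (D.lt k ω) - D.kaL k (D.lt k ω) * (D.l ω').w - D.g k ω * (D.l ω').N (D.s k ω) := by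
  rw [G0_cN, cN_same (D.p1 k) (congrArg Prod.fst (hdr.val ω hω))]
  rfl

theorem G_ka {k : ℕ} {dr : Ω → Ω} (hdr : Rep S ((D.p1 k).cell k b) dr) {ω : Ω} (hω : S ω) :
    (G0 (D.p1 k) k dr (D.s i ω) ω).ka = D.kaL k (D.lt k ω) - (D.s i ω - D.s k ω) * D.g k ω := by
  obtain ⟨-, -, e2, e3⟩ := same_T (D.p1 k) (congrArg Prod.fst (hdr.val ω hω))
  show ((D.p1 k).F k (dr ω)).ka - (D.s i ω - D.s k ω) * ((D.p1 k).F k (dr ω)).al = _
  rw [e2, e3]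
  rfl

theorem G_al {k : ℕ} {dr : Ω → Ω} (hdr : Rep S ((D.p1 k).cell k b) dr) {ω : Ω} (hω : S ω) :
    (G0 (D.p1 k) k dr (D.s i ω) ω).al = D.g k ω := by
  obtain ⟨-, -, -, e3⟩ := same_T (D.p1 k) (congrArg Prod.fst (hdr.val ω hω))
  show ((D.p1 k).F k (dr ω)).al = _
  rw [e3]
  rfl

/-- values over a functional with the kappa of the late cell -/
theorem EsG_val (G : Fu) (T vb wb p : ℝ) (l l' : Ray) (s : ℝ) : EsG G T vb wb p l l' s =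
    (G.g l' s - G.g l s) - T * ((l'.Z s - vb * l'.X s - wb * l'.N s) - (l.Z s - vb * l.X s - wb * l.N s)) -
      HsG G T vb wb p l s * (l'.X s - l.X s) := by
  unfold EsG PhG Fu.g
  ring

/-- the coordinates of the state in terms of the functional -/
theorem XV_eq (D : Mtd Ω π) (b i k : ℕ) (dr : ℕ → Ω → Ω) (ω : Ω) (hr : D.rr k + D.ν = D.rk k) :
    XV D b i dr k ω 0 = 2 ^ (D.a k + b) * (D.l ω).X (D.s i ω) ∧
    XV D b i dr k ω 1 = 2 ^ (D.a k + 2 * b) * ((D.l ω).Z (D.s i ω) -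
      vb (D.p1 k) b ω * (D.l ω).X (D.s i ω) - wb (D.p1 k) b ω * (D.l ω).N (D.s i ω)) ∧
    XV D b i dr k ω 2 = 2 ^ (D.rk k + b) * HsG (G0 (D.p1 k) k (dr k) (D.s i ω) ω)
      (TE (D.p1 k) (D.p1 i) k i ω) (vb (D.p1 k) b ω) (wb (D.p1 k) b ω) (D.p ω) (D.l ω) (D.s i ω) ∧
    XV D b i dr k ω 3 = 2 ^ D.rk k * TE (D.p1 k) (D.p1 i) k i ω ∧
    MV D b i dr k ω = 2 ^ (D.a k + D.rk k + 2 * b) *
      (G0 (D.p1 k) k (dr k) (D.s i ω) ω).g (D.l ω) (D.s i ω) := by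
  have e : (2 : ℝ) ^ D.rk k = 2 ^ D.ν * 2 ^ D.rr k := by rw [← pow_add, ← hr, add_comm]
  have e2 : (2 : ℝ) ^ (D.rk k + b) = 2 ^ D.ν * 2 ^ (D.rr k + b) := by
    rw [← pow_add]; congr 1; omega
  have e3 : (2 : ℝ) ^ (D.a k + D.rk k + 2 * b) = 2 ^ D.ν * 2 ^ (D.a k + D.rr k + 2 * b) := by
    rw [← pow_add]; congr 1; omega
  refine ⟨rfl, rfl, ?_, ?_, ?_⟩
  · rw [e2, mul_assoc]
    rfl
  · show 2 ^ D.ν * (2 ^ D.rr k * _) = _
    rw [e, mul_assoc]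
  · rw [e3, mul_assoc]
    rfl

/-- numbers of the functional of the step `k` at a point of the same cell -/
theorem GP {k : ℕ} {dr : Ω → Ω} (hdr : Rep S ((D.p1 k).cell k b) dr) {ω ω' : Ω} (hω' : S ω')
    (hk : (D.p1 k).cell k b ω' = (D.p1 k).cell k b ω) (hs : D.s i ω' = D.s i ω) :
    (G0 (D.p1 k) k dr (D.s i ω) ω).cN (D.l ω') (D.s i ω) = D.cNL k ω' ∧
    (G0 (D.p1 k) k dr (D.s i ω) ω).ka + TE (D.p1 k) (D.p1 i) k i ω' =
      D.cNL k ω' / D.cNL i ω' * D.kaL i (D.lt i ω') ∧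
    (G0 (D.p1 k) k dr (D.s i ω) ω).al = D.g k ω' := by
  have eG : G0 (D.p1 k) k dr (D.s i ω) ω = G0 (D.p1 k) k dr (D.s i ω') ω' := by
    rw [hs, Gcell (D.p1 k) (le_refl k) hdr hk]
  rw [eG, ← hs]
  refine ⟨G_cN hdr hω' ω', ?_, G_al hdr hω'⟩
  rw [G_ka hdr hω']
  show _ + (D.cNL k ω' / D.cNL i ω' * D.kaL i (D.lt i ω') - (D.kaL k (D.lt k ω') - (D.s i ω' - D.s k ω') * D.g k ω')) = _
  ring

/-- the coordinates of a second point of the cell in the frame of the first one -/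
theorem XV_at (D : Mtd Ω π) {b i k : ℕ} {dr : ℕ → Ω → Ω} (hdr : Rep S ((D.p1 k).cell k b) (dr k)) {ω ω' : Ω}
    (hk : (D.p1 k).cell k b ω' = (D.p1 k).cell k b ω) (hs : D.s i ω' = D.s i ω) (hr : D.rr k + D.ν = D.rk k) :
    XV D b i dr k ω' 0 = 2 ^ (D.a k + b) * (D.l ω').X (D.s i ω) ∧
    XV D b i dr k ω' 1 = 2 ^ (D.a k + 2 * b) * ((D.l ω').Z (D.s i ω) -
      vb (D.p1 k) b ω * (D.l ω').X (D.s i ω) - wb (D.p1 k) b ω * (D.l ω').N (D.s i ω)) ∧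
    XV D b i dr k ω' 2 = 2 ^ (D.rk k + b) * HsG (G0 (D.p1 k) k (dr k) (D.s i ω) ω)
      (TE (D.p1 k) (D.p1 i) k i ω') (vb (D.p1 k) b ω) (wb (D.p1 k) b ω) (D.p ω') (D.l ω') (D.s i ω) ∧
    XV D b i dr k ω' 3 = 2 ^ D.rk k * TE (D.p1 k) (D.p1 i) k i ω' ∧
    MV D b i dr k ω' = 2 ^ (D.a k + D.rk k + 2 * b) *
      (G0 (D.p1 k) k (dr k) (D.s i ω) ω).g (D.l ω') (D.s i ω) := by
  have h := XV_eq D b i k dr ω' hr
  rwa [hs, Gcell (D.p1 k) (le_refl k) hdr hk, vcell (D.p1 k) hk, wcell (D.p1 k) hk] at h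

/-- the sheared difference of the values -/
theorem M_EsG (D : Mtd Ω π) {b i k : ℕ} {dr : ℕ → Ω → Ω} (hdr : Rep S ((D.p1 k).cell k b) (dr k)) {ω ω' : Ω}
    (hk : (D.p1 k).cell k b ω' = (D.p1 k).cell k b ω) (hs : D.s i ω' = D.s i ω) (hr : D.rr k + D.ν = D.rk k) :
    MV D b i dr k ω' - MV D b i dr k ω - XV D b i dr k ω 2 * (XV D b i dr k ω' 0 - XV D b i dr k ω 0) -
      XV D b i dr k ω 3 * (XV D b i dr k ω' 1 - XV D b i dr k ω 1) =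
    2 ^ (D.a k + D.rk k + 2 * b) * EsG (G0 (D.p1 k) k (dr k) (D.s i ω) ω) (TE (D.p1 k) (D.p1 i) k i ω)
      (vb (D.p1 k) b ω) (wb (D.p1 k) b ω) (D.p ω) (D.l ω) (D.l ω') (D.s i ω) := by
  obtain ⟨x0, x1, x2, x3, x4⟩ := XV_at D hdr hk hs hr
  obtain ⟨y0, y1, y2, y3, y4⟩ := XV_eq D b i k dr ω hr
  rw [x0, x1, x4, y0, y1, y2, y3, y4, EsG_val]
  have e1 : (2:ℝ) ^ (D.a k + D.rk k + 2 * b) = 2 ^ (D.rk k + b) * 2 ^ (D.a k + b) := by
    rw [← pow_add]; congr 1; omega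
  have e2 : (2:ℝ) ^ (D.rk k + b) * 2 ^ (D.a k + b) = 2 ^ D.rk k * 2 ^ (D.a k + 2 * b) := by
    rw [← pow_add, ← pow_add]; congr 1; omega
  rw [e1]
  linear_combination (-(TE (D.p1 k) (D.p1 i) k i ω) * ((D.l ω').Z (D.s i ω) -
      vb (D.p1 k) b ω * (D.l ω').X (D.s i ω) - wb (D.p1 k) b ω * (D.l ω').N (D.s i ω) - ((D.l ω).Z (D.s i ω) -
      vb (D.p1 k) b ω * (D.l ω).X (D.s i ω) - wb (D.p1 k) b ω * (D.l ω).N (D.s i ω)))) * (-e2)

/-- scaling -/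
theorem sc_dn {n m n' : ℕ} (hn : n' = n + m) {x y c : ℝ} (h : |2 ^ n' * x - 2 ^ n' * y| ≤ c * 2 ^ m) :
    |x - y| ≤ c * q2 n := by
  have e := q2_mul_pow n
  have h1 : |(2:ℝ) ^ n' * x - 2 ^ n' * y| = 2 ^ n * |x - y| * 2 ^ m := by
    rw [hn, ← mul_sub, abs_mul, abs_of_pos (by positivity), pow_add]; ring
  rw [h1] at h
  have h2 := le_of_mul_le_mul_right h (by positivity)
  calc |x - y| = (2 ^ n * |x - y|) * q2 n := by linear_combination (-|x - y|) * e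
    _ ≤ c * q2 n := mul_le_mul_of_nonneg_right h2 (q2_pos n).le

theorem sc_dn0 {n m n' : ℕ} (hn : n' = n + 2 * m) {x c : ℝ} (h : |2 ^ n' * x| ≤ c * (2 ^ m) ^ 2) :
    |x| ≤ c * q2 n := by
  have h' : |2 ^ n' * x - 2 ^ n' * 0| ≤ c * 2 ^ (2 * m) := by
    rw [mul_zero, sub_zero, mul_comm 2 m, pow_mul]; exact h
  have := sc_dn hn h'
  rwa [sub_zero] at this

theorem sc_up {n : ℕ} {x y c : ℝ} (h : |x - y| ≤ c * q2 n) : |2 ^ n * x - 2 ^ n * y| ≤ c := by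
  rw [← mul_sub]
  exact scl h

variable (X : VCtx D S K I j j' i b m)
include X

/-- the margin is below the digits -/
theorem rr_eq {ω : Ω} (hω : S ω) : D.rr j + D.ν = D.rk j ∧ D.rr j' + D.ν = D.rk j' ∧
    D.rr j' = D.rr j + m := by
  have h1 := (X.ok ω hω).hy.r0 j X.jI
  have hK := X.K1
  have h2 : D.rr j ≠ 0 := by
    intro h
    rw [h] at h1
    have : q2 0 = 1 := by unfold q2; norm_num
    rw [this] at h1
    nlinarith
  have e1 : D.rr j = D.rk j - D.ν := rfl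
  have e2 : D.rr j' = D.rk j' - D.ν := rfl
  have := X.rj
  omega

theorem kapN {ω : Ω} (hω : S ω) : q2 (D.rr j) = q2 (D.rk j) * 2 ^ D.ν := by
  have h := (X.rr_eq hω).1
  have e : q2 (D.rk j) = q2 (D.rr j) * q2 D.ν := by rw [← q2_add, h]
  have h2 := q2_mul_pow D.ν
  rw [e, mul_assoc]
  linear_combination (-(q2 (D.rr j))) * h2

/-- the ratio of the normalisations of two steps -/
theorem rho {ω : Ω} (hω : S ω) : |D.cNL j ω / D.cNL j' ω| ≤ (8 * K) ^ 2 ∧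
    |1 - D.cNL j ω / D.cNL j' ω| ≤ (8 * K) ^ 2 * q2 (D.rr j) := by
  have hK := X.K1
  have h := (X.ok ω hω).hy
  have ok1 := pa_ok (σ := fun _ => j) (hσ := monotone_const) hK h (fun _ => X.jI)
  have ok2 := pa_ok (σ := fun _ => j') (hσ := monotone_const) hK h (fun _ => X.jI')
  have hr := rr_mono D X.jj
  have q := q2_pos (D.rr j)
  have e1 := cN_near hK h X.jI'
  have e2 := cN_near hK h X.jI
  have hN : |D.cNL j' ω - D.cNL j ω| ≤ 8 * K * q2 (D.rr j) := by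
    have x : 4 * K * q2 (D.rr j') ≤ 4 * K * q2 (D.rr j) :=
      mul_le_mul_of_nonneg_left hr (by linarith)
    rw [abs_le] at e1 e2 ⊢
    constructor <;> linarith [e1.1, e1.2, e2.1, e2.2]
  have h0 : |(0:ℝ)| ≤ 8 * K := by rw [abs_zero]; linarith
  have h0' : |(0:ℝ) - 0| ≤ 8 * K * q2 (D.rr j) := by rw [sub_zero, abs_zero]; positivity
  obtain ⟨r1, r2, _⟩ := rat (K := 8 * K) (E := q2 (D.rr j)) (by linarith) (ok2.n1 j') (ok1.n1 j)
    (ok1.n2 j) hN h0 h0'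
  exact ⟨r1, r2⟩

/-- curvatures of two steps -/
theorem aaG {ω : Ω} (hω : S ω) : |D.g j ω - D.cNL j ω / D.cNL j' ω * D.g j' ω| * q2 (D.a j) ≤
    4 * (8 * K) ^ 3 * q2 (D.rk j) := by
  have hK := X.K1
  have ok0 := X.ok ω hω
  have hA := q2_pos (D.a j)
  have hκ := q2_pos (D.rk j)
  have hη := q2_pos D.μ
  have hη1 := q2_one D.μ
  have hpη := pη D.μ
  have hNM : (2:ℝ) ^ D.ν ≤ 2 ^ D.μ := pow_le_pow_right₀ (by norm_num) X.nu
  have e : D.g j ω - D.cNL j ω / D.cNL j' ω * D.g j' ω =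
      -(D.g j' ω - D.g j ω) + (1 - D.cNL j ω / D.cNL j' ω) * D.g j' ω := by ring
  rw [e]
  have x1 := abs_add_le (-(D.g j' ω - D.g j ω)) ((1 - D.cNL j ω / D.cNL j' ω) * D.g j' ω)
  rw [abs_neg] at x1
  have x2 := mul_le_mul_of_nonneg_right x1 hA.le
  have x3 : |(1 - D.cNL j ω / D.cNL j' ω) * D.g j' ω| * q2 (D.a j) ≤ (8 * K) ^ 3 * q2 (D.rk j) := by
    rw [abs_mul]
    calc |1 - D.cNL j ω / D.cNL j' ω| * |D.g j' ω| * q2 (D.a j) =
          |1 - D.cNL j ω / D.cNL j' ω| * (|D.g j' ω| * q2 (D.a j)) := by ring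
      _ ≤ ((8 * K) ^ 2 * q2 (D.rr j)) * (K * q2 (2 * D.μ)) :=
          mul_le_mul (X.rho hω).2 ok0.w0 (by positivity) (mul_nonneg (by positivity) (q2_pos _).le)
      _ = ((8 * K) ^ 2 * (q2 (D.rk j) * 2 ^ D.ν)) * (K * q2 D.μ ^ 2) := by rw [X.kapN hω, q2_mul]
      _ ≤ ((8 * K) ^ 2 * (q2 (D.rk j) * 2 ^ D.μ)) * (K * q2 D.μ ^ 2) := by gcongr
      _ = 64 * K ^ 3 * q2 (D.rk j) * q2 D.μ * (q2 D.μ * 2 ^ D.μ) := by ring
      _ ≤ 64 * K ^ 3 * q2 (D.rk j) * 1 * (q2 D.μ * 2 ^ D.μ) := by gcongr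
      _ = 64 * (K ^ 3 * q2 (D.rk j)) := by rw [hpη]; ring
      _ ≤ 512 * (K ^ 3 * q2 (D.rk j)) := by
          have : 0 ≤ K ^ 3 * q2 (D.rk j) := by positivity
          linarith
      _ = _ := by ring
  have x4 := ok0.wa
  have x5 : 3 * K * q2 (D.rk j) ≤ (8 * K) ^ 3 * q2 (D.rk j) := by
    have h1 : K ≤ K ^ 3 := by
      calc K = K ^ 1 := (pow_one K).symm
        _ ≤ K ^ 3 := pow_le_pow_right₀ hK (by norm_num)
    have : 3 * K ≤ (8 * K) ^ 3 := by nlinarith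
    gcongr
  have x6 : 0 ≤ (8 * K) ^ 3 * q2 (D.rk j) := by positivity
  linarith

/-- normal positions of two points -/
theorem dNN {ω ω' : Ω} (hj : (D.p1 j).cell j b ω' = (D.p1 j).cell j b ω)
    (hj' : (D.p1 j').cell j' b ω' = (D.p1 j').cell j' b ω) :
    |(D.l ω').N (D.s i ω) - (D.l ω).N (D.s i ω)| ≤ 2 * (q2 (D.a j) * q2 b * 2 ^ D.μ) := by
  have hA := q2_pos (D.a j)
  have hB := q2_pos b
  have hwc : |(D.l ω').w - (D.l ω).w| ≤ q2 b * 2 ^ D.μ := by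
    have h : fl1 (b - D.μ) ((D.l ω').w + D.o 1) = fl1 (b - D.μ) ((D.l ω).w + D.o 1) :=
      congrArg (fun q => q.2.2 1) hj
    exact (fl1_near h).trans (q2_sub _ _)
  have hNc : |(D.l ω').N (D.s j' ω) - (D.l ω).N (D.s j' ω)| ≤ q2 (D.a j) * q2 b * 2 ^ D.μ := by
    have h : fl1 (D.a j' + b - D.μ) ((D.l ω').N (D.s j' ω') + D.o 2) =
        fl1 (D.a j' + b - D.μ) ((D.l ω).N (D.s j' ω) + D.o 2) := congrArg (fun q => q.2.2 2) hj'
    have hs' : D.s j' ω' = D.s j' ω := (same_T (D.p1 j') (congrArg Prod.fst hj')).1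
    rw [hs'] at h
    refine (fl1_near h).trans ((q2_sub _ _).trans ?_)
    rw [q2_add]
    have : q2 (D.a j') ≤ q2 (D.a j) := q2_le (D.ha X.jj)
    gcongr
  have hds : |D.s i ω - D.s j' ω| ≤ q2 (D.a j) := by
    have h : D.a j ≤ D.a j' := D.ha X.jj
    have h2 : D.a j' ≤ D.a i := D.ha X.ji
    exact (Vale.Agent.P127.U.CellD.rd_sub h2 _).trans (q2_le h)
  have e : (D.l ω').N (D.s i ω) - (D.l ω).N (D.s i ω) = ((D.l ω').N (D.s j' ω) - (D.l ω).N (D.s j' ω)) +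
      (D.s i ω - D.s j' ω) * ((D.l ω').w - (D.l ω).w) := by
    unfold Ray.N; ring
  rw [e]
  have x1 := abs_add_le ((D.l ω').N (D.s j' ω) - (D.l ω).N (D.s j' ω)) ((D.s i ω - D.s j' ω) * ((D.l ω').w - (D.l ω).w))
  have x2 := am hds hwc
  linarith

/-- bounds of the relative kappas -/
theorem tbd {ω : Ω} (hω : S ω) :
    |TE (D.p1 j) (D.p1 i) j i ω| ≤ 2 * (8 * K) ^ 3 * (q2 (D.rk j) * (2 ^ D.ν) ^ 2) ∧
    |TE (D.p1 j') (D.p1 i) j' i ω| ≤ 2 * (8 * K) ^ 3 * (q2 (D.rk j) * (2 ^ D.ν) ^ 2) ∧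
    |D.cNL j' ω / D.cNL i ω * D.kaL i (D.lt i ω)| ≤ (8 * K) ^ 3 := by
  have hK := X.K1
  have ok := X.ok ω hω
  have hκ := q2_pos (D.rk j)
  have hN1 : (1:ℝ) ≤ 2 ^ D.ν := one_le_pow₀ (by norm_num)
  have hN2 : (2:ℝ) ^ D.ν ≤ (2 ^ D.ν) ^ 2 := by nlinarith
  have oki := pa_ok (σ := fun _ => i) (hσ := monotone_const) hK ok.hy (fun _ => X.iI)
  refine ⟨?_, ?_, ?_⟩
  · refine (TE_bd hK ok.hy X.jI X.iI (X.jj.trans X.ji)).2.trans ?_
    rw [X.kapN hω]; gcongr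
  · refine (TE_bd hK ok.hy X.jI' X.iI X.ji).2.trans ?_
    refine (mul_le_mul_of_nonneg_left (rr_mono D X.jj) (by positivity)).trans ?_
    rw [X.kapN hω]; gcongr
  · have h1 : |D.cNL j' ω / D.cNL i ω| ≤ (8 * K) ^ 2 := (TE_bd hK ok.hy X.jI' X.iI X.ji).1
    have h2 : |D.kaL i (D.lt i ω)| ≤ 8 * K := oki.k1 i
    refine (am h1 h2).trans (le_of_eq ?_)
    ring

/-- the real data of two points -/
theorem trd {dr dr' : Ω → Ω} (hdr : Rep S ((D.p1 j).cell j b) dr) (hdr' : Rep S ((D.p1 j').cell j' b) dr')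
    {ω ω' : Ω} (hω : S ω) (hω' : S ω') (hj : (D.p1 j).cell j b ω' = (D.p1 j).cell j b ω)
    (hj' : (D.p1 j').cell j' b ω' = (D.p1 j').cell j' b ω) (hs : D.s i ω' = D.s i ω)
    (dX : |(D.l ω').X (D.s i ω) - (D.l ω).X (D.s i ω)| ≤ q2 (D.a j) * q2 b)
    (dZ : |((D.l ω').Z (D.s i ω) - vb (D.p1 j) b ω * (D.l ω').X (D.s i ω) - wb (D.p1 j) b ω * (D.l ω').N (D.s i ω)) -
      ((D.l ω).Z (D.s i ω) - vb (D.p1 j) b ω * (D.l ω).X (D.s i ω) - wb (D.p1 j) b ω * (D.l ω).N (D.s i ω))| ≤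
      q2 (D.a j) * q2 b ^ 2)
    (dT : |TE (D.p1 j') (D.p1 i) j' i ω' - TE (D.p1 j') (D.p1 i) j' i ω| ≤ q2 (D.rk j))
    (dH : |HsG (G0 (D.p1 j') j' dr' (D.s i ω) ω) (TE (D.p1 j') (D.p1 i) j' i ω') (vb (D.p1 j) b ω)
        (wb (D.p1 j) b ω) (D.p ω') (D.l ω') (D.s i ω) -
      HsG (G0 (D.p1 j') j' dr' (D.s i ω) ω) (TE (D.p1 j') (D.p1 i) j' i ω) (vb (D.p1 j) b ω)
        (wb (D.p1 j) b ω) (D.p ω) (D.l ω) (D.s i ω)| ≤ q2 (D.rk j) * q2 b)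
    (dE : |EsG (G0 (D.p1 j') j' dr' (D.s i ω) ω) (TE (D.p1 j') (D.p1 i) j' i ω) (vb (D.p1 j) b ω)
        (wb (D.p1 j) b ω) (D.p ω) (D.l ω) (D.l ω') (D.s i ω)| ≤ 3 * (q2 (D.a j) * q2 (D.rk j) * q2 b ^ 2)) :
    TRd (8 * K) (q2 (D.a j)) (q2 b) (q2 (D.rk j)) (2 ^ D.μ) (2 ^ D.ν) (q2 D.μ)
      (G0 (D.p1 j) j dr (D.s i ω) ω) (G0 (D.p1 j') j' dr' (D.s i ω) ω) (vb (D.p1 j) b ω) (wb (D.p1 j) b ω)
      (D.s i ω) (D.l ω) (D.l ω') (D.p ω) (D.p ω') (TE (D.p1 j) (D.p1 i) j i ω) (TE (D.p1 j) (D.p1 i) j i ω')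
      (TE (D.p1 j') (D.p1 i) j' i ω) (TE (D.p1 j') (D.p1 i) j' i ω')
      (D.cNL j ω / D.cNL j' ω) (D.cNL j ω' / D.cNL j' ω') := by
  have hK := X.K1
  have ok := X.ok ω hω
  have ok' := X.ok ω' hω'
  have hNM : (2:ℝ) ^ D.ν ≤ 2 ^ D.μ := pow_le_pow_right₀ (by norm_num) X.nu
  have hN1 : (1:ℝ) ≤ 2 ^ D.ν := one_le_pow₀ (by norm_num)
  have okj' := pa_ok (σ := fun _ => j') (hσ := monotone_const) hK ok.hy (fun _ => X.jI')
  have pkj' := pa_ok (σ := fun _ => j') (hσ := monotone_const) hK ok'.hy (fun _ => X.jI')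
  have K8 : 1 ≤ 8 * K := by linarith
  have n1' : 1 ≤ 8 * K * D.cNL j' ω := okj'.n1 j'
  have n1'' : D.cNL j' ω ≤ 8 * K := okj'.n2 j'
  have n2' : 1 ≤ 8 * K * D.cNL j' ω' := pkj'.n1 j'
  have z1 := pos_of_mul K8 n1'
  have z2 := pos_of_mul K8 n2'
  obtain ⟨c1, a1, g1⟩ := GP (i := i) hdr hω rfl rfl
  obtain ⟨c1', a1', g1'⟩ := GP (i := i) hdr' hω rfl rfl
  obtain ⟨c2, a2, g2⟩ := GP (i := i) hdr hω' hj hs
  obtain ⟨c2', a2', g2'⟩ := GP (i := i) hdr' hω' hj' hs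
  have hw2 : |D.p ω| ≤ q2 D.μ ^ 4 := by have := ok.p4; rwa [q2_mul] at this
  have hw2' : |D.p ω'| ≤ q2 D.μ ^ 4 := by have := ok'.p4; rwa [q2_mul] at this
  have wa0 : |D.g j' ω| * q2 (D.a j) ≤ 8 * K := by
    refine ok.w0.trans ?_
    have : q2 (2 * D.μ) ≤ 1 := q2_one _
    nlinarith
  have hcw : wb (D.p1 j) b ω' = wb (D.p1 j) b ω := wcell (D.p1 j) hj
  have w2 := wd (D := D) (j := j) (b := b) ω'
  rw [hcw] at w2
  have w1 := wd (D := D) (j := j) (b := b) ω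
  have v1 := vd (D := D) (j := j) (b := b) ω
  have t1 := X.tbd hω
  have t2 := X.tbd hω'
  have r1 := (X.rho hω).1
  have r2 := (X.rho hω').1
  have aa1 := X.aaG hω
  have aa2 := X.aaG hω'
  have dN := X.dNN hj hj'
  have hMη : (2:ℝ) ^ D.μ * q2 D.μ = 1 := by rw [mul_comm]; exact pη D.μ
  have hBη : q2 b ≤ q2 D.μ ^ 8 := by rw [← q2_mul]; exact q2_le X.b8
  have hKη := X.Kη
  have hA := q2_pos (D.a j)
  have hB := q2_pos b
  have hκ := q2_pos (D.rk j)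
  have hη := q2_pos D.μ
  have hη1 := q2_one D.μ
  have hκ1 := q2_one (D.rk j)
  have y1 := D.cNL i ω
  clear hcw ok ok' okj' pkj' hj hj' hs
  generalize G0 (D.p1 j) j dr (D.s i ω) ω = G at *
  generalize G0 (D.p1 j') j' dr' (D.s i ω) ω = G' at *
  generalize TE (D.p1 j) (D.p1 i) j i ω = T₁ at *
  generalize TE (D.p1 j) (D.p1 i) j i ω' = T₂ at *
  generalize TE (D.p1 j') (D.p1 i) j' i ω = T₁' at *
  generalize TE (D.p1 j') (D.p1 i) j' i ω' = T₂' at *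
  generalize vb (D.p1 j) b ω = vv at *
  generalize wb (D.p1 j) b ω = ww at *
  exact {
    K1 := K8
    A0 := hA
    B0 := hB
    κ0 := hκ
    κ1 := hκ1
    η0 := hη
    η1 := hη1
    Mη := hMη
    N1 := hN1
    NM := hNM
    Bη := hBη
    Kη := hKη
    cr1 := by rw [c1, c1']; field_simp
    cr2 := by rw [c2, c2']; field_simp
    kr1 := by rw [a1, a1']; field_simp
    kr2 := by rw [a2, a2']; field_simp
    c1 := by rw [c1']; exact n1'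
    c1' := by rw [c1']; exact n1''
    c2 := by rw [c2']; exact n2'
    r1 := r1
    r2 := r2
    t1 := t1.1
    t2 := t2.1
    t1' := t1.2.1
    t2' := t2.2.1
    kk := by rw [a1']; exact t1.2.2
    aa1 := by rw [g1, g1']; exact aa1
    aa2 := by rw [g2, g2']; exact aa2
    a0 := by rw [g1']; exact wa0
    p1 := hw2
    p2 := hw2'
    w1 := w1
    w2 := w2
    v1 := v1
    dN := dN
    dX := dX
    dZ := dZ
    dT' := dT
    dH' := dH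
    dE' := dE }

/-- **change of the frame of two states** -/
theorem cls {dr : ℕ → Ω → Ω} (hdr : Rep S ((D.p1 j).cell j b) (dr j)) (hdr' : Rep S ((D.p1 j').cell j' b) (dr j'))
    {ω ω' : Ω} (hω : S ω) (hω' : S ω') (hj : D.mtr j b ω' = D.mtr j b ω) (hj' : D.mtr j' b ω' = D.mtr j' b ω)
    (hs : D.s i ω' = D.s i ω)
    (h4 : (∀ k, |XV D b i dr j' ω' k - XV D b i dr j' ω k| ≤ 2 ^ m) ∧
      |MV D b i dr j' ω' - MV D b i dr j' ω - XV D b i dr j' ω 2 * (XV D b i dr j' ω' 0 - XV D b i dr j' ω 0) -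
        XV D b i dr j' ω 3 * (XV D b i dr j' ω' 1 - XV D b i dr j' ω 1)| ≤ 3 * (2 ^ m) ^ 2)
    {c : ℝ} (hc : 160 * (8 * K) ^ 9 ≤ c) :
    ClH c (XV D b i dr j ω') (MV D b i dr j ω') (XV D b i dr j ω) (MV D b i dr j ω) := by
  have hK := X.K1
  have hj := (D.p1_cell_iff j j b ω' ω).2 hj
  have hj' := (D.p1_cell_iff j' j' b ω' ω).2 hj'
  obtain ⟨r1, r2, -⟩ := X.rr_eq hω
  obtain ⟨x0, x1, x2, x3, -⟩ := XV_at D hdr' hj' hs r2
  obtain ⟨y0, y1, y2, y3, -⟩ := XV_eq D b i j' dr ω r2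
  obtain ⟨u0, u1, u2, u3, -⟩ := XV_at D hdr hj hs r1
  obtain ⟨v0, v1, v2, v3, -⟩ := XV_eq D b i j dr ω r1
  obtain ⟨h4, h5⟩ := h4
  rw [M_EsG D hdr' hj' hs r2] at h5
  have d0 := h4 0
  have d1 := h4 1
  have d2 := h4 2
  have d3 := h4 3
  rw [x0, y0, ← one_mul ((2:ℝ) ^ m)] at d0
  rw [x1, y1, ← one_mul ((2:ℝ) ^ m)] at d1
  rw [x2, y2, ← one_mul ((2:ℝ) ^ m)] at d2
  rw [x3, y3, ← one_mul ((2:ℝ) ^ m)] at d3
  have aj := X.aj
  have rj := X.rj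
  have e0 := sc_dn (n := D.a j + b) (by omega) d0
  have e1 := sc_dn (n := D.a j + 2 * b) (by omega) d1
  have e2 := sc_dn (n := D.rk j + b) (by omega) d2
  have e3 := sc_dn (n := D.rk j) (by omega) d3
  have e5 := sc_dn0 (n := D.a j + D.rk j + 2 * b) (by omega) h5
  rw [one_mul, q2_add] at e0
  have qq : q2 (2 * b) = q2 b ^ 2 := q2_mul 2 b
  rw [one_mul, q2_add, qq] at e1
  rw [one_mul, q2_add] at e2
  rw [one_mul] at e3
  rw [q2_add, q2_add, qq] at e5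
  have T := X.trd hdr hdr' hω hω' hj hj' hs e0 e1 e3 e2 e5
  have f0 := T.dX
  have f1 := T.dZ
  have f2 := T.dH
  have f3 := T.dT
  have f4 := T.dE
  have hK9 : (1:ℝ) ≤ (8 * K) ^ 9 := one_le_pow₀ (by linarith)
  refine ⟨fun k => ?_, ?_⟩
  · fin_cases k
    · show |XV D b i dr j ω' 0 - XV D b i dr j ω 0| ≤ c
      rw [u0, v0]
      refine (sc_up (c := 1) ?_).trans (by linarith)
      rw [one_mul, q2_add]; exact f0
    · show |XV D b i dr j ω' 1 - XV D b i dr j ω 1| ≤ c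
      rw [u1, v1]
      refine (sc_up (c := 1) ?_).trans (by linarith)
      rw [one_mul, q2_add, qq]; exact f1
    · show |XV D b i dr j ω' 2 - XV D b i dr j ω 2| ≤ c
      rw [u2, v2]
      refine (sc_up (c := 80 * (8 * K) ^ 9) ?_).trans (by linarith)
      rw [q2_add]; exact f2
    · show |XV D b i dr j ω' 3 - XV D b i dr j ω 3| ≤ c
      rw [u3, v3]
      exact (sc_up (c := 17 * (8 * K) ^ 9) f3).trans (by linarith)
  · rw [M_EsG D hdr hj hs r1]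
    refine (scl ?_).trans hc
    rw [q2_add, q2_add, qq]; exact f4

end VCtx

end Vale.Agent.P106.H25
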