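import Vale.Agent.P106.H25.SatLG

/-!
# P106 / H25 : THE STEP `(a, b)` OF TYPE (ii), whole cell (4 m bits), M-step form

The hypotheses of 572's `satH_weak` (same weight `chiH`); conclusion for the whole label `lbH`:
`4 p log 2 - (23 + 3 b + 4 m pb + 2 ^ (4 m + 6 h + 8 b + 55) / δ (√ι₁ + √ι₂)) ≤ H(lbH 1 | lbH 2^p, D, Θ)`, `p ≤ m`.
-/

set_option autoImplicit false

namespace Vale.Agent.P106.H25

open Finset Vale.Agent.P127 Vale.Agent.P127.Stk Vale.Agent.P127.U.Pin Vale.Agent.P127.U.Mic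
open Vale.Agent.P127.U.CellD Vale.Agent.P127.TV
open Vale.Agent.P106.TV Vale.Agent.P106.U.H683 Vale.Agent.P106.U.H572

variable {Ω : Type} [Fintype Ω] {S U V Z : Type*}

theorem mH_le {s k : ℝ} {x x' : ℝ × ℝ} {b : ℕ} (hs : |s| ≤ 1) (hk : |k| ≤ 1) (hx : OkX b x)
    (hx' : OkX b x') : |mH s k x x'| ≤ (2 ^ (b + 2)) ^ 2 := by
  obtain ⟨a1, a2, a3⟩ := hx
  obtain ⟨b1, b2, _⟩ := hx'
  have hb1 : (1 : ℝ) ≤ 2 ^ b := one_le_pow₀ (by norm_num)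
  have h1 : |(x.1 - x'.1) ^ 2| ≤ 1 := by
    rw [abs_of_nonneg (sq_nonneg _)]
    have h2 : |x.1 - x'.1| ≤ 1 := by rw [abs_le]; constructor <;> linarith
    rw [← sq_abs]
    nlinarith [abs_nonneg (x.1 - x'.1)]
  have h4 : |s * x.2 - k| ≤ 2 * 2 ^ b := by
    refine (abs_sub _ _).trans ?_
    rw [abs_mul]
    have h5 : |s| * |x.2| ≤ 1 * 2 ^ b := mul_le_mul hs a3 (abs_nonneg _) (by norm_num)
    linarith
  unfold mH
  rw [abs_div, abs_mul, abs_mul, abs_of_pos (by norm_num : (0 : ℝ) < 2)]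
  have h6 : |s| * |s * x.2 - k| ≤ 1 * (2 * 2 ^ b) := mul_le_mul hs h4 (abs_nonneg _) (by norm_num)
  have h7 : |s| * |s * x.2 - k| * |(x.1 - x'.1) ^ 2| ≤ 1 * (2 * 2 ^ b) * 1 :=
    mul_le_mul h6 h1 (abs_nonneg _) (by positivity)
  have h8 : (2 : ℝ) ^ b ≤ (2 ^ (b + 2)) ^ 2 := by
    rw [← pow_mul]
    exact pow_le_pow_right₀ (by norm_num) (by omega)
  linarith

/-- the hypothesis `hsat` of `mstepR`, whole cell -/
theorem hsatG (P : Law Ω) {D : Ω → U} {Θ : Ω → V} {X : Ω → Fin 4 → ℝ} {M : Ω → ℝ}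
    {Sf Tf : U → V → V → ℝ} {ρ : ℝ} (b : ℕ) (τ L : ℝ) (R R₃ : ℕ) (hτ : 0 < τ) (hτ1 : τ ≤ 1)
    (hL : 1 ≤ L) (hR : 16 * (2 ^ (b + 2) * L) ≤ R * τ)
    (hR3 : 10 * (((2 : ℝ) ^ (b + 2)) ^ 2 * (R : ℝ) ^ 2) ≤ R₃ * τ) (hρ : 0 ≤ ρ)
    (hRρ : 100 * 2 ^ (b + 2) * R * R₃ * ρ ≤ 1)
    (d : U) (θ : V) (θs : Fin 2 → V) (xs : Fin 4 → ℝ × ℝ) (hχ : 0 < chiH b Sf Tf τ d θ θs xs)
    (Q : Law Ω) (ε : Fin 2 × Fin 4 × Fin 4 → ℝ)
    (_ : ∀ ω, 0 < Q.w ω → 0 < P.w ω ∧ D ω = d ∧ Θ ω = θ) (hε : ∀ p, 0 ≤ ε p)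
    (hA : ∀ p ∈ AH, SubC Q Q (RH X M Sf Tf ρ d θ (θs p.1) (xs p.2.1) (xs p.2.2)) (ε p)) :
    (4 * Real.log L - (23 + 3 * b)) -
        ((2 * R + 4 * R₃) * (1 + 2 * Real.log R + Real.log R₃)) * ∑ p ∈ AH, ε p ≤
      hc Q (fun ω => lbH 1 (X ω) (M ω)) (fun ω => lbH L (X ω) (M ω)) := by
  have hG : GoodH b Sf Tf τ d θ θs xs := by
    by_contra hcon
    unfold chiH at hχ
    rw [if_neg hcon] at hχ
    exact lt_irrefl _ hχ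
  obtain ⟨h1, h2, i, i', j, j', h3⟩ := hG
  have hsum0 : 0 ≤ ∑ p ∈ AH, ε p := Finset.sum_nonneg fun p _ => hε p
  have hle : ∀ p ∈ AH, ε p ≤ ∑ p ∈ AH, ε p := fun p hp =>
    Finset.single_le_sum (f := ε) (fun q _ => hε q) hp
  have hBc : (((2 ^ (b + 2) : ℕ)) : ℝ) = 2 ^ (b + 2) := by push_cast; rfl
  have hb : ∀ (i : Fin 2) (j : Fin 3) (l : Fin 4),
      |FH (Sf d θ (θs i)) (Tf d θ (θs i)) (xs 0) (xs j.succ) l| ≤ ((2 ^ (b + 2) : ℕ) : ℝ) :=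
    fun i j l => by
      rw [hBc]
      exact FH_le (h1 i).1 (h1 i).2 (h2 0) (h2 j.succ) l
  have hm : ∀ (i : Fin 2) (j : Fin 3),
      |mH (Sf d θ (θs i)) (Tf d θ (θs i)) (xs 0) (xs j.succ)| ≤ (((2 ^ (b + 2) : ℕ) : ℝ)) ^ 2 :=
    fun i j => by
      rw [hBc]
      exact mH_le (h1 i).1 (h1 i).2 (h2 0) (h2 j.succ)
  have hch : ∀ (i : Fin 2) (j : Fin 3), SubC Q Q (St4 X M
      (FH (Sf d θ (θs i)) (Tf d θ (θs i)) (xs 0) (xs j.succ))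
      (mH (Sf d θ (θs i)) (Tf d θ (θs i)) (xs 0) (xs j.succ)) ρ ρ) (∑ p ∈ AH, ε p) := fun i j =>
    (hA _ (AH_mem i j).1).mono (fun a b hab => hab) (hle _ (AH_mem i j).1)
  have hci : ∀ (i : Fin 2) (j : Fin 3), SubC Q Q (St4 X M
      (fun l => - FH (Sf d θ (θs i)) (Tf d θ (θs i)) (xs 0) (xs j.succ) l)
      (mH (Sf d θ (θs i)) (Tf d θ (θs i)) (xs j.succ) (xs 0)) ρ ρ) (∑ p ∈ AH, ε p) := by
    intro i j
    refine (hA _ (AH_mem i j).2).mono ?_ (hle _ (AH_mem i j).2)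
    intro a b hab
    rw [← FH_neg]
    exact hab
  have main := satG (X := X) (M := M) Q (B := 2 ^ (b + 2)) (L := L) (R := R) (R₃ := R₃)
    Nat.one_le_two_pow (hb i j) (hb i' j') (hm i j) (hm i' j') (mH_inv _ _ _ _) (mH_inv _ _ _ _)
    hτ hτ1 h3 hL (by rw [hBc]; exact hR) (by rw [hBc]; exact hR3) hρ (by rw [hBc]; exact hRρ)
    hsum0 (hch i j) (hch i' j') (hci i j) (hci i' j')
  have e7 : 17 + 4 * Real.log (((2 ^ (b + 2) : ℕ)) : ℝ) ≤ 23 + 3 * b := by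
    rw [hBc, Real.log_pow]
    push_cast
    have := Real.log_two_lt_d9
    have hb0 : (0 : ℝ) ≤ b := Nat.cast_nonneg _
    nlinarith
  refine le_trans ?_ main
  have e8 : (2 * (R : ℝ) + 4 * R₃) * (1 + 2 * Real.log R + Real.log R₃) * ∑ p ∈ AH, ε p =
      (2 * R + 4 * R₃) * (∑ p ∈ AH, ε p) * (1 + 2 * Real.log R + Real.log R₃) := by ring
  linarith

section steps

variable (P : Law Ω) {D : Ω → U} {Θ : Ω → V} {W : Ω → S} {E : Ω → Z} {e : U → S → ℝ × ℝ}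
  {X : Ω → Fin 4 → ℝ} {M : Ω → ℝ} {Sf Tf : U → V → V → ℝ} {ρ : ℝ}

/-- **pointwise form** -/
theorem satG_pt (geo : GeoR P D Θ W E e (RH X M Sf Tf ρ)) (b : ℕ) (τ L : ℝ) (R R₃ : ℕ)
    (hτ : 0 < τ) (hτ1 : τ ≤ 1) (hL : 1 ≤ L) (hR : 16 * (2 ^ (b + 2) * L) ≤ R * τ)
    (hR3 : 10 * (((2 : ℝ) ^ (b + 2)) ^ 2 * (R : ℝ) ^ 2) ≤ R₃ * τ) (hρ : 0 ≤ ρ)
    (hRρ : 100 * 2 ^ (b + 2) * R * R₃ * ρ ≤ 1) (hR1 : 1 ≤ R) (hR31 : 1 ≤ R₃) :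
    ∃ er : Ω → ℝ, (∀ ω, 0 ≤ er ω) ∧
      P.ex er ≤ 12 * (8 * Real.sqrt (mi P (fun ω => e (D ω) (W ω)) E (fun ω => (D ω, Θ ω))) +
        64 * Real.sqrt (mi P Θ W D)) ∧
      ∀ ω, 0 < P.w ω →
        avG P D Θ W e (chiH b Sf Tf τ) ω * (4 * Real.log L - (23 + 3 * b)) -
          ((2 * R + 4 * R₃) * (1 + 2 * Real.log R + Real.log R₃)) * er ω ≤
        avG P D Θ W e (chiH b Sf Tf τ) ω *
          hc (P.cond (fun ω => (D ω, Θ ω)) (D ω, Θ ω)) (fun ω => lbH 1 (X ω) (M ω))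
            (fun ω => lbH L (X ω) (M ω)) := by
  have hlR : 0 ≤ Real.log R := Real.log_nonneg (by exact_mod_cast hR1)
  have hlR3 : 0 ≤ Real.log R₃ := Real.log_nonneg (by exact_mod_cast hR31)
  have main := mstepR_pt P D Θ W E e (RH X M Sf Tf ρ) geo AH AH_ne (chiH b Sf Tf τ)
    (chiH_nonneg b Sf Tf τ) (chiH_le b Sf Tf τ) (fun _ _ ω => lbH 1 (X ω) (M ω))
    (fun _ _ ω => lbH L (X ω) (M ω)) (4 * Real.log L - (23 + 3 * b))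
    ((2 * R + 4 * R₃) * (1 + 2 * Real.log R + Real.log R₃)) (by positivity)
    (fun d θ θs xs hχ Q ε hQ hε hA => hsatG P b τ L R R₃ hτ hτ1 hL hR hR3 hρ hRρ d θ θs xs hχ Q ε
      hQ hε hA)
  rw [AH_card] at main
  exact_mod_cast main

/-- the numbers -/
theorem numGW (b m h p : ℕ) (hp : p ≤ m) :
    (16 * (2 ^ (b + 2) * (2 : ℝ) ^ p) ≤ ((2 ^ (m + h + b + 6) : ℕ) : ℝ) * q2 h) ∧
    (10 * (((2 : ℝ) ^ (b + 2)) ^ 2 * (((2 ^ (m + h + b + 6) : ℕ) : ℝ)) ^ 2) ≤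
      ((2 ^ (2 * m + 3 * h + 4 * b + 20) : ℕ) : ℝ) * q2 h) ∧
    (0 ≤ (2 * ((2 ^ (m + h + b + 6) : ℕ) : ℝ) + 4 * ((2 ^ (2 * m + 3 * h + 4 * b + 20) : ℕ) : ℝ)) *
      (1 + 2 * Real.log ((2 ^ (m + h + b + 6) : ℕ) : ℝ) +
        Real.log ((2 ^ (2 * m + 3 * h + 4 * b + 20) : ℕ) : ℝ))) ∧
    ((2 * ((2 ^ (m + h + b + 6) : ℕ) : ℝ) + 4 * ((2 ^ (2 * m + 3 * h + 4 * b + 20) : ℕ) : ℝ)) *
      (1 + 2 * Real.log ((2 ^ (m + h + b + 6) : ℕ) : ℝ) +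
        Real.log ((2 ^ (2 * m + 3 * h + 4 * b + 20) : ℕ) : ℝ)) * 768 ≤
      2 ^ (4 * m + 6 * h + 8 * b + 55)) := by
  have eR : ((2 ^ (m + h + b + 6) : ℕ) : ℝ) = 2 ^ (m + h + b + 6) := by push_cast; rfl
  have eR3 : ((2 ^ (2 * m + 3 * h + 4 * b + 20) : ℕ) : ℝ) = 2 ^ (2 * m + 3 * h + 4 * b + 20) := by
    push_cast; rfl
  have hl2 : Real.log 2 ≤ 1 := by
    have := Real.log_two_lt_d9
    linarith
  have hl20 : 0 < Real.log 2 := Real.log_pos (by norm_num)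
  rw [eR, eR3, Real.log_pow, Real.log_pow]
  set R3 : ℝ := 2 ^ (2 * m + 3 * h + 4 * b + 20) with hR3def
  have hR30 : 0 < R3 := by positivity
  refine ⟨?_, ?_, by positivity, ?_⟩
  · rw [show m + h + b + 6 = (m + b + 6) + h by ring, pow_add (2 : ℝ) (m + b + 6) h, mul_assoc,
      q2_mul_pow, mul_one]
    have e : (16 : ℝ) * (2 ^ (b + 2) * 2 ^ p) = 2 ^ (4 + (b + 2) + p) := by
      rw [pow_add, pow_add]; norm_num; ring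
    rw [e]
    exact pow_le_pow_right₀ (by norm_num) (by omega)
  · rw [hR3def, show 2 * m + 3 * h + 4 * b + 20 = (2 * m + 2 * h + 4 * b + 20) + h by ring,
      pow_add (2 : ℝ) (2 * m + 2 * h + 4 * b + 20) h, mul_assoc, q2_mul_pow, mul_one]
    have e : ((2 : ℝ) ^ (b + 2)) ^ 2 * (2 ^ (m + h + b + 6)) ^ 2 = 2 ^ (2 * m + 2 * h + 4 * b + 16) := by
      rw [← pow_mul, ← pow_mul, ← pow_add]
      congr 1
      ring
    rw [e, show 2 * m + 2 * h + 4 * b + 20 = (2 * m + 2 * h + 4 * b + 16) + 4 by ring,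
      pow_add (2 : ℝ) (2 * m + 2 * h + 4 * b + 16) 4]
    have : (0 : ℝ) < 2 ^ (2 * m + 2 * h + 4 * b + 16) := by positivity
    linarith
  · have hRR3 : (2 : ℝ) ^ (m + h + b + 6) ≤ R3 := pow_le_pow_right₀ (by norm_num) (by omega)
    have h2 : (((2 * m + 3 * h + 4 * b + 20 : ℕ) : ℝ)) + 1 ≤ R3 := by
      rw [hR3def]
      exact_mod_cast Nat.lt_two_pow_self (n := 2 * m + 3 * h + 4 * b + 20)
    have h3 : (((m + h + b + 6 : ℕ) : ℝ)) ≤ ((2 * m + 3 * h + 4 * b + 20 : ℕ) : ℝ) := by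
      exact_mod_cast (by omega : m + h + b + 6 ≤ 2 * m + 3 * h + 4 * b + 20)
    have h4 : (((m + h + b + 6 : ℕ) : ℝ)) * Real.log 2 ≤ R3 - 1 :=
      (mul_le_of_le_one_right (Nat.cast_nonneg _) hl2).trans (by linarith)
    have h5 : (((2 * m + 3 * h + 4 * b + 20 : ℕ) : ℝ)) * Real.log 2 ≤ R3 - 1 :=
      (mul_le_of_le_one_right (Nat.cast_nonneg _) hl2).trans (by linarith)
    have h6 : 1 + 2 * ((((m + h + b + 6 : ℕ) : ℝ)) * Real.log 2) +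
        (((2 * m + 3 * h + 4 * b + 20 : ℕ) : ℝ)) * Real.log 2 ≤ 4 * R3 := by linarith
    have h7 : 2 * (2 : ℝ) ^ (m + h + b + 6) + 4 * R3 ≤ 8 * R3 := by linarith
    have h8 := mul_le_mul h7 h6 (by positivity) (by positivity)
    have e : (2 : ℝ) ^ (4 * m + 6 * h + 8 * b + 55) = 32768 * (R3 * R3) := by
      rw [hR3def, ← pow_add, show (32768 : ℝ) = 2 ^ 15 by norm_num, ← pow_add]
      congr 1
      ring
    rw [e]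
    nlinarith [mul_pos hR30 hR30]

/-- the numbers, existential form -/
theorem numGE (b m h p : ℕ) (hp : p ≤ m) {ρ : ℝ} (hρ0 : 0 ≤ ρ)
    (hρ : 2 ^ (3 * m + 4 * h + 6 * b + 35) * ρ ≤ 1) :
    ∃ R R₃ : ℕ, 1 ≤ R ∧ 1 ≤ R₃ ∧ 16 * (2 ^ (b + 2) * (2 : ℝ) ^ p) ≤ R * q2 h ∧
      10 * (((2 : ℝ) ^ (b + 2)) ^ 2 * (R : ℝ) ^ 2) ≤ R₃ * q2 h ∧
      100 * 2 ^ (b + 2) * (R : ℝ) * R₃ * ρ ≤ 1 ∧
      0 ≤ (2 * (R : ℝ) + 4 * R₃) * (1 + 2 * Real.log R + Real.log R₃) ∧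
      (2 * (R : ℝ) + 4 * R₃) * (1 + 2 * Real.log R + Real.log R₃) * 768 ≤
        2 ^ (4 * m + 6 * h + 8 * b + 55) := by
  obtain ⟨n1, n2, n3, n4⟩ := numGW b m h p hp
  refine ⟨_, _, Nat.one_le_two_pow, Nat.one_le_two_pow, n1, n2, ?_, n3, n4⟩
  refine le_trans ?_ hρ
  refine mul_le_mul_of_nonneg_right ?_ hρ0
  have e9 : (2 : ℝ) ^ (3 * m + 4 * h + 6 * b + 35) =
      128 * 2 ^ (b + 2) * 2 ^ (m + h + b + 6) * 2 ^ (2 * m + 3 * h + 4 * b + 20) := by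
    rw [show (128 : ℝ) = 2 ^ 7 by norm_num, ← pow_add, ← pow_add, ← pow_add]
    congr 1
    ring
  rw [e9, Nat.cast_pow, Nat.cast_pow, Nat.cast_ofNat]
  have h0 : (0 : ℝ) < 2 ^ (b + 2) * 2 ^ (m + h + b + 6) * 2 ^ (2 * m + 3 * h + 4 * b + 20) := by
    positivity
  nlinarith

/-- **THE STEP `(a, b)` OF TYPE (ii), whole cell**, weak form: the good copies have conditional probability `≥ δ`
outside an event of probability `pb` -/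
theorem satG_weak (geo : GeoR P D Θ W E e (RH X M Sf Tf ρ)) (b m h p : ℕ) (hp : p ≤ m)
    (hρ0 : 0 ≤ ρ) (hρ : 2 ^ (3 * m + 4 * h + 6 * b + 35) * ρ ≤ 1) {ι₁ ι₂ δ pb : ℝ} (hδ : 0 < δ)
    (hb : P.ex (fun ω => Law.ind (¬ δ ≤ avG P D Θ W e (chiH b Sf Tf (q2 h)) ω)) ≤ pb)
    (h1 : mi P (fun ω => e (D ω) (W ω)) E (fun ω => (D ω, Θ ω)) ≤ ι₁) (h2 : mi P Θ W D ≤ ι₂) :
    4 * p * Real.log 2 - (23 + 3 * b + 4 * m * pb +
      2 ^ (4 * m + 6 * h + 8 * b + 55) / δ * (Real.sqrt ι₁ + Real.sqrt ι₂)) ≤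
    hc P (fun ω => lbH 1 (X ω) (M ω)) (fun ω => (lbH (2 ^ p) (X ω) (M ω), (D ω, Θ ω))) := by
  classical
  obtain ⟨R, R₃, hR1, hR31, n1, n2, hRR, n3, n4⟩ := numGE b m h p hp hρ0 hρ
  have hq1 : q2 h ≤ 1 := by
    have h1 := q2_mul_pow h
    have h2 : (1 : ℝ) ≤ 2 ^ h := one_le_pow₀ (by norm_num)
    have h3 := q2_pos h
    nlinarith
  obtain ⟨er, her0, her, hpt⟩ := satG_pt P geo b (q2 h) (2 ^ p) R R₃ (q2_pos _) hq1
    (one_le_pow₀ (by norm_num)) n1 n2 hρ0 hRR hR1 hR31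
  rw [hc_cond_ex P _ _ (fun ω => (D ω, Θ ω))]
  rw [Real.log_pow] at hpt
  have hl2 : Real.log 2 ≤ 1 := by
    have := Real.log_two_lt_d9
    linarith
  have hl20 : 0 < Real.log 2 := Real.log_pos (by norm_num)
  have hF1 : 4 * ((p : ℝ) * Real.log 2) ≤ 4 * m := by
    have : (p : ℝ) ≤ m := by exact_mod_cast hp
    have := (mul_le_of_le_one_right (Nat.cast_nonneg p) hl2).trans this
    linarith
  have hpoint : ∀ ω, 0 < P.w ω → 4 * ((p : ℝ) * Real.log 2) - (23 + 3 * b) -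
      4 * m * Law.ind (¬ δ ≤ avG P D Θ W e (chiH b Sf Tf (q2 h)) ω) -
      (2 * R + 4 * R₃) * (1 + 2 * Real.log R + Real.log R₃) / δ * er ω ≤
      hc (P.cond (fun ω => (D ω, Θ ω)) (D ω, Θ ω)) (fun ω => lbH 1 (X ω) (M ω))
        (fun ω => lbH (2 ^ p) (X ω) (M ω)) := fun ω hω =>
    wptH hδ n3 (her0 ω) (by positivity) (hc_nonneg _ _ _) hF1
      ⟨fun h => Law.ind_not (not_not.2 h), fun h => Law.ind_of h⟩ (hpt ω hω)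
  refine le_trans ?_ (P.ex_mono hpoint)
  rw [P.ex_sub, P.ex_sub, P.ex_const_mul, P.ex_const_mul, P.ex_const]
  have h8 : (2 * (R : ℝ) + 4 * R₃) * (1 + 2 * Real.log R + Real.log R₃) / δ * P.ex er ≤
      2 ^ (4 * m + 6 * h + 8 * b + 55) / δ * (Real.sqrt ι₁ + Real.sqrt ι₂) := by
    have e3 := (mul_le_mul_of_nonneg_left her n3).trans (errH n3 n4 h1 h2)
    rw [div_mul_eq_mul_div, div_mul_eq_mul_div]
    exact div_le_div_of_nonneg_right e3 hδ.le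
  have h9 := mul_le_mul_of_nonneg_left hb (by positivity : 0 ≤ 4 * (m : ℝ))
  linarith

end steps

end Vale.Agent.P106.H25
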