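import Vale.Agent.P106.U.H466.HeiG
import Vale.Agent.P106.U.H785.Mtr
import Vale.Agent.P106.H25.SatGW

/-!
# P106 / H25 : nominal positions in the V windows (kappa regime)

`XV, MV` : 466's state of the layers `D.p1 j` (cell), `D.p1 i` (late cell) in the units `2 ^ -rk`; `AV j` = the cell `mtr j b` and the
unit label of the state.
-/

set_option autoImplicit false

namespace Vale.Agent.P106.H25

open Finset Vale.Agent.P127 Vale.Agent.P127.Stk
open Vale.Agent.P106.U.Cell Vale.Agent.P106.U.H466 Vale.Agent.P106.U.H785.Mtr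

variable {Ω π : Type} (D : Mtd Ω π)

/-- state of the step `j`, late step `i`, cap `b`, representatives `dr` of the cells of the step `j` -/
noncomputable def XV (b i : ℕ) (dr : ℕ → Ω → Ω) (j : ℕ) : Ω → Fin 4 → ℝ :=
  XH (D.p1 j) (D.p1 i) (2 ^ D.ν) j i b (dr j)

/-- value of the functional of the step `j` -/
noncomputable def MV (b i : ℕ) (dr : ℕ → Ω → Ω) (j : ℕ) : Ω → ℝ :=
  MH (D.p1 j) (D.p1 i) (2 ^ D.ν) j i b (dr j)

/-- **nominal position** of the step `j` at the time of the step `i` -/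
noncomputable def AV (b i : ℕ) (dr : ℕ → Ω → Ω) (j : ℕ) (ω : Ω) : (Lt π × Pth.Dg) × (ℤ × (Fin 4 → ℤ)) :=
  (D.mtr j b ω, lbH 1 (XV D b i dr j ω) (MV D b i dr j ω))

end Vale.Agent.P106.H25
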