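import Vale.Agent.P106.H25.LabV
import Vale.Agent.P106.U.H785.Run2
import Vale.Agent.P106.U.H466.HeiM

/-!
# P106 / H25 : the two transfers over the nominal positions of the V windows

* `VCtx.step_hA` : `hc (AV j) (AV j', Θ) ≤ d + 6 log (2 c + 3)`, `d ≥ hc (mtr j b) (mtr j' b, Θ)`.
* `VCtx.step_hs` : a lower bound of the entropy of the unit label of the step `j'` given the label of scale `2 ^ m`, the cell
  `mtr j' b` and `Θ` is (up to the same error) a lower bound of `hc (AV j') (AV j, (mtr j' b, Θ))`.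
* `vctx_mt` : `VCtx` for the data `S3.mt` of a run (785), two consecutive levels of a run.
-/

set_option autoImplicit false

namespace Vale.Agent.P106.H25

open Finset Vale.Agent.P127 Vale.Agent.P127.Stk
open Vale.Agent.P127.U.CellD (q2 rd Nb q2_pos q2_add q2_le rd_err rd_le lt_rd rd_mono q2_mul_pow fl1_fl1)
open Vale.Agent.P106.U.Cell Vale.Agent.P106.U.H466 Vale.Agent.P106.U.H785.Mtr
open Vale.Agent.P106.U.H572 (ClH lbH_close lab_hs lab_hA)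
open Vale.Agent.P106.U

namespace VCtx

variable {Ω π : Type} [Fintype Ω] {D : Mtd Ω π} {P : Law Ω} {K : ℝ} {I : Set ℕ} {j j' i b m : ℕ}
  (X : VCtx D (fun ω => 0 < P.w ω) K I j j' i b m)
include X

/-- **transfer of the chain** -/
theorem step_hA {dr : ℕ → Ω → Ω} (hdr : Rep (fun ω => 0 < P.w ω) ((D.p1 j).cell j b) (dr j))
    (hdr' : Rep (fun ω => 0 < P.w ω) ((D.p1 j').cell j' b) (dr j')) {ζ : Type*} {Θ : Ω → ζ}
    (hΘ : ∀ ω ω', 0 < P.w ω → 0 < P.w ω' → Θ ω' = Θ ω → D.s i ω' = D.s i ω) (c : ℕ)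
    (hcK : 160 * (8 * K) ^ 9 ≤ c) {d : ℝ} (hD : hc P (D.mtr j b) (fun ω => (D.mtr j' b ω, Θ ω)) ≤ d) :
    hc P (AV D b i dr j) (fun ω => (AV D b i dr j' ω, Θ ω)) ≤ d + 6 * Real.log (2 * c + 3) := by
  refine lab_hA P (D := D.mtr j' b) (D' := D.mtr j b) (F := fun ω => lbH 1 (XV D b i dr j' ω) (MV D b i dr j' ω))
    (Y := XV D b i dr j) (N := MV D b i dr j) c hD ?_
  intro ω ω' hω hω' h1 h2 h3 h4
  have h5 := lbH_close (by norm_num : (0:ℝ) < 1) h4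
  have hm : (1:ℝ) ≤ 2 ^ m := one_le_pow₀ (by norm_num)
  refine X.cls hdr hdr' hω hω' h1 h2 (hΘ ω ω' hω hω' h3) ⟨fun k => (h5.1 k).trans hm, h5.2.trans ?_⟩ hcK
  nlinarith

/-- **transfer of the gain** -/
theorem step_hs {dr : ℕ → Ω → Ω} (hdr : Rep (fun ω => 0 < P.w ω) ((D.p1 j).cell j b) (dr j))
    (hdr' : Rep (fun ω => 0 < P.w ω) ((D.p1 j').cell j' b) (dr j')) {ζ : Type*} {Θ : Ω → ζ}
    (hΘ : ∀ ω ω', 0 < P.w ω → 0 < P.w ω' → Θ ω' = Θ ω → D.s i ω' = D.s i ω) (c : ℕ)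
    (hcK : 160 * (8 * K) ^ 9 ≤ c) {d E : ℝ} (hD : hc P (D.mtr j b) (fun ω => (D.mtr j' b ω, Θ ω)) ≤ d) {q : ℕ}
    (hq : q ≤ m)
    (hE : E ≤ hc P (fun ω => lbH 1 (XV D b i dr j' ω) (MV D b i dr j' ω))
      (fun ω => (lbH (2 ^ q) (XV D b i dr j' ω) (MV D b i dr j' ω), (D.mtr j' b ω, Θ ω)))) :
    E - (d + 6 * Real.log (2 * c + 3)) ≤
      hc P (AV D b i dr j') (fun ω => (AV D b i dr j ω, (D.mtr j' b ω, Θ ω))) := by
  refine lab_hs P (D := D.mtr j' b) (D' := D.mtr j b) (F := fun ω => lbH 1 (XV D b i dr j' ω) (MV D b i dr j' ω))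
    (FL := fun ω => lbH (2 ^ q) (XV D b i dr j' ω) (MV D b i dr j' ω))
    (Y := XV D b i dr j) (N := MV D b i dr j) c hE hD ?_
  intro ω ω' hω hω' h1 h2 h3 h4
  have h5 := lbH_close (by positivity : (0:ℝ) < 2 ^ q) h4
  have hm : (2:ℝ) ^ q ≤ 2 ^ m := pow_le_pow_right₀ (by norm_num) hq
  refine X.cls hdr hdr' hω hω' h1 h2 (hΘ ω ω' hω hω' h3) ⟨fun k => (h5.1 k).trans hm, h5.2.trans ?_⟩ hcK
  gcongr

end VCtx

section record

variable {Ω : Type} [Fintype Ω] {τ υ π : Type}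
variable {R : S3.Run Ω τ υ} {p : S3.Run.Num} {K c' g' gU : ℝ} {B bS bV μ : ℕ} {F : S3.Pf R π} {Vs Xs : Finset ℕ}
  {o : Fin 7 → ℝ} {o' : ℕ → ℝ} {j j' i b : ℕ}

/-- **two consecutive levels of a run** -/
theorem vctx_mt (hok : R.Ok p K c' g' gU) (hf : S3.F2 R p K B bS bV F Vs Xs) (h1 : 1 ≤ K)
    (hB : (100 * K) ^ 20 ≤ (B : ℝ)) (hr : 100 * (R.m * B) ≤ R.r0) (hμB : μ ≤ B) (hμ : 2 * μ ≤ R.C.μ)
    (hη : 4 * (32 * K) ^ 4 * q2 μ ≤ 1) (hj : j ∈ YI R p Vs) (hj' : j' ∈ YI R p Vs) (hi : i ∈ YI R p Vs)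
    (hjj : j ≤ j') (hji : j' ≤ i) (haj : R.C.a j' = R.C.a j + R.m) (hrj : R.C.rk j' = R.C.rk j + R.m)
    (hb : 8 * μ ≤ b) (ha : 2 * μ ≤ R.C.a j) (ha0 : 0 < R.C.a j)
    (hA : ∀ ω, 0 < R.Q.w ω → F.Ao (S3.lv R j') ω = F.Ao (S3.lv R j) ω) :
    VCtx (S3.mt R F μ o o') (fun ω => 0 < R.Q.w ω) (4 * K) (YI R p Vs) j j' i b R.m := by
  have m1 := hok.pth.m1
  have k0 := hok.pth.k0
  have B1 : 1 ≤ B := by
    by_contra hc
    have : B = 0 := by omega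
    rw [this] at hB
    have : (1 : ℝ) ≤ (100 * K) ^ 20 := one_le_pow₀ (by linarith)
    norm_num at hB
    linarith
  have mB : B ≤ R.m * B := Nat.le_mul_of_pos_left B m1
  have rkj : R.r0 ≤ R.C.rk j := k0 ▸ R.C.hk (Nat.zero_le j)
  refine {
    K1 := by linarith
    Kη := by
      have e : 8 * (4 * K) = 32 * K := by ring
      rw [e]; exact hη
    jI := hj
    jI' := hj'
    iI := hi
    jj := hjj
    ji := hji
    aj := haj
    rj := hrj
    b8 := hb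
    nu := Nat.div_le_self μ 2
    ok := fun ω hω => ?_ }
  have hwa := wa_mt (o := o) (o' := o') (μ := μ) hf hj'.1 hjj hj.2 hj'.2 (by omega) (by omega) hω (hA ω hω)
  obtain ⟨i₀, i1, i2, i3⟩ := rI0_of hok.pth hj.1 ha0 (show 2 * μ + R.m ≤ R.r0 by
    have : R.m ≤ R.m * B := Nat.le_mul_of_pos_right _ B1
    omega)
  have hal : |R.al j ω| * q2 (R.C.a j) ≤ 2 * K * q2 (2 * μ) := by
    have t1 := OfR.al_sub hok i1 hj.1 hω i3
    have t2 := hok.alB i₀ (i1.trans hj.1) ω hω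
    have e0 : q2 (R.C.a i₀) = 1 := by rw [i2]; unfold q2; norm_num
    rw [e0, mul_one] at t2
    have h2 : q2 (R.C.a j) ≤ q2 (2 * μ) := q2_le ha
    have h3 : |R.al j ω| ≤ |R.al j ω - R.al i₀ ω| + |R.al i₀ ω| := by
      have := abs_add_le (R.al j ω - R.al i₀ ω) (R.al i₀ ω)
      rwa [sub_add_cancel] at this
    have h4 := mul_le_mul_of_nonneg_right h3 (q2_pos (R.C.a j)).le
    have h5 : |R.al i₀ ω| * q2 (R.C.a j) ≤ K * q2 (2 * μ) := mul_le_mul t2 h2 (q2_pos _).le ((abs_nonneg _).trans t2)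
    linarith
  have hap := hf.gvA j hj.1 ω hω
  have q0 := q2_pos (R.C.rk j)
  have qa := q2_pos (R.C.a j)
  have q1 : q2 (R.C.rk j) ≤ q2 (2 * μ) / 2 := by
    have h2 : q2 (R.C.rk j) ≤ q2 (2 * μ + 1) := q2_le (by omega)
    have e : q2 (2 * μ + 1) = q2 (2 * μ) / 2 := by
      rw [q2_add]; unfold q2; norm_num; ring
    linarith
  refine ⟨hy_mt hok hf h1 hB hr hμB (by omega) hω, ?_, ?_, ?_⟩
  · exact (ofR_mt (F := F) (o := o) (o' := o') (μ := μ) (by omega)).p4 hok hω hμ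
  · refine hwa.trans ?_
    have : 0 ≤ K * q2 ((S3.mt R F μ o o').rk j) := mul_nonneg (by linarith) (q2_pos _).le
    linarith
  · show |(S3.mt R F μ o o').g j' ω| * q2 (R.C.a j) ≤ 4 * K * q2 (2 * μ)
    have hwa' : |(S3.mt R F μ o o').g j' ω - (S3.mt R F μ o o').g j ω| * q2 (R.C.a j) ≤ 3 * K * q2 (R.C.rk j) := hwa
    have hap' : |R.al j ω - (S3.mt R F μ o o').g j ω| * q2 (R.C.a j) ≤ K * q2 (R.C.rk j) := hap
    have hal' : |R.al j ω| * q2 (R.C.a j) ≤ 2 * K * q2 (2 * μ) := hal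
    have x : |(S3.mt R F μ o o').g j' ω| ≤ |(S3.mt R F μ o o').g j' ω - (S3.mt R F μ o o').g j ω| +
        |R.al j ω - (S3.mt R F μ o o').g j ω| + |R.al j ω| := by
      have a1 := abs_add_le ((S3.mt R F μ o o').g j' ω - (S3.mt R F μ o o').g j ω - (R.al j ω - (S3.mt R F μ o o').g j ω))
        (R.al j ω)
      have a2 := abs_sub ((S3.mt R F μ o o').g j' ω - (S3.mt R F μ o o').g j ω) (R.al j ω - (S3.mt R F μ o o').g j ω)
      rw [show (S3.mt R F μ o o').g j' ω - (S3.mt R F μ o o').g j ω - (R.al j ω - (S3.mt R F μ o o').g j ω) + R.al j ω =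
        (S3.mt R F μ o o').g j' ω by ring] at a1
      linarith
    have y := mul_le_mul_of_nonneg_right x qa.le
    rw [add_mul, add_mul] at y
    have z : 4 * K * q2 (R.C.rk j) ≤ 2 * K * q2 (2 * μ) := by
      have := mul_le_mul_of_nonneg_left q1 (by linarith : 0 ≤ 4 * K)
      linarith
    linarith

end record

end Vale.Agent.P106.H25
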