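import Vale.Agent.P127.TV.LatHc

/-!
# P106 / H25 : a two-dimensional lattice of translations with a drifting third coordinate

`lat3_hc` : the law is nearly invariant under the words `(n₁, n₂, k)`, `n₁, n₂ < R`, `k < R₃`, which
move `z` by `n₁ a₁ (1, g₁) + n₂ a₂ (1, g₂)` and `w` by `dr a (n₁, n₂) + k c` (the drift `dr` depends
on the starting point and on the word in an arbitrary way, it is only bounded by `B ≤ R₃ |c|`).
Then the three coordinates are saturated together.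
-/

set_option autoImplicit false

namespace Vale.Agent.P106.H25

open Finset Vale.Agent.P127 Vale.Agent.P127.Stk Vale.Agent.P127.TV Vale.Agent.P127.TV.Lat

variable {Ω : Type} [Fintype Ω]

/-- the word `(n, k)` -/
def Moved3 (a₁ a₂ g₁ g₂ c : ℝ) (z : ℝ × ℝ) (w : ℝ) (d : ℕ × ℕ → ℝ) (k : ℕ × (ℕ × ℕ))
    (z' : ℝ × ℝ) (w' : ℝ) : Prop :=
  Moved a₁ a₂ g₁ g₂ z k.2 z' ∧ |w' - (w + d k.2 + (k.1 : ℝ) * c)| ≤ 1

/-- the label -/
noncomputable def lab3 (l l₃ : ℝ) (z : ℝ × ℝ) (w : ℝ) : ℤ × (ℤ × ℤ) := (⌊w / l₃⌋, cell l z)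

/-- fibres -/
theorem fib3 (S : Finset (ℕ × (ℕ × ℕ))) (a₁ a₂ g₁ g₂ c l l₃ : ℝ) (z : ℝ × ℝ) (w : ℝ)
    (d : ℕ × ℕ → ℝ) (q : ℤ × (ℤ × ℤ))
    (ha₁ : 0 < |a₁|) (ha₂ : 0 < |a₂|) (ha₁' : |a₁| ≤ 1) (ha₂' : |a₂| ≤ 1)
    (hg : 0 < |g₂ - g₁|) (hg₁ : |g₁| ≤ 1) (hg₂ : |g₂| ≤ 1) (hl : 1 ≤ l)
    (hc0 : 0 < |c|) (hc1 : |c| ≤ 1) (hl₃ : 1 ≤ l₃)
    (h : ∀ k ∈ S, ∃ z' w', Moved3 a₁ a₂ g₁ g₂ c z w d k z' w' ∧ lab3 l l₃ z' w' = q) :
    (S.card : ℝ) ≤ (4 * l₃ / |c|) * (32 * l ^ 2 / (|a₁| * |a₂| * |g₂ - g₁|)) := by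
  have hl30 : 0 < l₃ := by linarith
  refine card_pair_le S _ _ (by positivity) ?_ ?_
  · intro T hT
    refine fib_le T a₁ a₂ g₁ g₂ l z q.2 ha₁ ha₂ ha₁' ha₂' hg hg₁ hg₂ hl ?_
    intro n hn
    obtain ⟨k, hk⟩ := hT n hn
    obtain ⟨z', w', h1, h2⟩ := h _ hk
    exact ⟨z', h1.1, congrArg Prod.snd h2⟩
  · intro n T hT
    have h5 := card_nat_le T c (((q.1 : ℝ) + 1 / 2) * l₃ - w - d n) (l₃ / 2 + 1)
      (abs_pos.1 hc0) (by linarith) ?_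
    · refine h5.trans ?_
      rw [div_add_one hc0.ne']
      refine div_le_div_of_nonneg_right ?_ hc0.le
      linarith
    · intro k hk
      obtain ⟨z', w', h1, h2⟩ := h _ (hT k hk)
      have h3 := h1.2
      have h6 := abs_of_floor hl30 (congrArg Prod.fst h2)
      dsimp only at h3
      rw [abs_le] at h3 h6 ⊢
      constructor <;> linarith [h3.1, h3.2, h6.1, h6.2]

/-- coarse cells -/
theorem crs3 (Q : Finset (ℤ × (ℤ × ℤ))) (a₁ a₂ g₁ g₂ c L L₃ T₁ T₂ T₃ : ℝ) (z : ℝ × ℝ) (w : ℝ)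
    (d : ℕ × ℕ → ℝ)
    (hg₁ : |g₁| ≤ 1) (hg₂ : |g₂| ≤ 1) (hL : 1 ≤ L)
    (hT1 : L ≤ T₁) (hT2 : L ≤ T₂) (hD1 : L ≤ T₁ * |g₂ - g₁|) (hD2 : L ≤ T₂ * |g₂ - g₁|)
    (hL3 : 1 ≤ L₃) (hT3 : L₃ ≤ T₃)
    (h : ∀ q ∈ Q, ∃ (k : ℕ × (ℕ × ℕ)) (z' : ℝ × ℝ) (w' : ℝ), (k.2.1 : ℝ) * |a₁| ≤ T₁ ∧
      (k.2.2 : ℝ) * |a₂| ≤ T₂ ∧ (k.1 : ℝ) * |c| ≤ T₃ ∧ |d k.2| ≤ T₃ ∧
      Moved3 a₁ a₂ g₁ g₂ c z w d k z' w' ∧ lab3 L L₃ z' w' = q) :
    (Q.card : ℝ) ≤ (11 * T₃ / L₃) * (99 * (T₁ * T₂ * |g₂ - g₁|) / L ^ 2) := by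
  have hL30 : 0 < L₃ := by linarith
  have hT30 : 0 ≤ T₃ := by linarith
  refine card_pair_le Q _ _ (by positivity) ?_ ?_
  · intro T hT
    refine crs_le T a₁ a₂ g₁ g₂ L T₁ T₂ z hg₁ hg₂ hL hT1 hT2 hD1 hD2 ?_
    intro q hq
    obtain ⟨v, hv⟩ := hT q hq
    obtain ⟨k, z', w', h1, h2, _, _, h5, h6⟩ := h _ hv
    exact ⟨k.2, z', h1, h2, h5.1, congrArg Prod.snd h6⟩
  · intro q T hT
    have h5 := card_int_le T L₃ w (2 * T₃ + 1 + L₃) hL30.ne' (by positivity) ?_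
    · refine h5.trans ?_
      rw [abs_of_pos hL30, div_add_one hL30.ne']
      refine div_le_div_of_nonneg_right ?_ hL30.le
      linarith
    · intro v hv
      obtain ⟨k, z', w', _, _, h3, h4, h5, h6⟩ := h _ (hT v hv)
      have h7 := abs_of_floor hL30 (congrArg Prod.fst h6)
      have h8 := h5.2
      have h11 : |(k.1 : ℝ) * c| ≤ T₃ := by
        rw [abs_mul, Nat.abs_cast]
        exact h3
      dsimp only at h7
      rw [abs_le] at h4 h7 h8 h11 ⊢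
      constructor <;> linarith [h4.1, h4.2, h7.1, h7.2, h8.1, h8.2, h11.1, h11.2]

/-- **three coordinates, drifting third one** -/
theorem lat3_hc (P : Law Ω) (z : Ω → ℝ × ℝ) (w : Ω → ℝ) (a₁ a₂ g₁ g₂ c l L l₃ L₃ B e : ℝ)
    (R R₃ : ℕ) (dr : Ω → ℕ × ℕ → ℝ)
    (ha₁ : 0 < |a₁|) (ha₂ : 0 < |a₂|) (ha₁' : |a₁| ≤ 1) (ha₂' : |a₂| ≤ 1)
    (hg : 0 < |g₂ - g₁|) (hg₁ : |g₁| ≤ 1) (hg₂ : |g₂| ≤ 1) (hl : 1 ≤ l) (hlL : l ≤ L)
    (hR1 : L ≤ R * |a₁|) (hR2 : L ≤ R * |a₂|) (hD1 : L ≤ R * |a₁| * |g₂ - g₁|)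
    (hD2 : L ≤ R * |a₂| * |g₂ - g₁|)
    (hc0 : 0 < |c|) (hc1 : |c| ≤ 1) (hl₃ : 1 ≤ l₃) (hlL₃ : l₃ ≤ L₃)
    (hR3 : L₃ ≤ R₃ * |c|) (hB : B ≤ R₃ * |c|)
    (hdr : ∀ a, 0 < P.w a → ∀ n : ℕ × ℕ, n.1 < R → n.2 < R → |dr a n| ≤ B)
    (h : ∀ k : ℕ × (ℕ × ℕ), k.1 < R₃ → k.2.1 < R → k.2.2 < R →
      SubC P P (fun a b => Moved3 a₁ a₂ g₁ g₂ c (z a) (w a) (dr a) k (z b) (w b)) e) :
    2 * Real.log (L / l) + Real.log (L₃ / l₃) - Real.log 139392 -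
        e * (1 + 2 * Real.log R + Real.log R₃) ≤
      hc P (fun ω => lab3 l l₃ (z ω) (w ω)) (fun ω => lab3 L L₃ (z ω) (w ω)) := by
  classical
  have hL0 : 0 < L := by linarith
  have hl0 : 0 < l := by linarith
  have hL30 : 0 < L₃ := by linarith
  have hl30 : 0 < l₃ := by linarith
  have hRpos : 0 < R := by
    rcases Nat.eq_zero_or_pos R with h0 | h0
    · rw [h0] at hR1
      simp at hR1
      linarith
    · exact h0
  have hR3pos : 0 < R₃ := by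
    rcases Nat.eq_zero_or_pos R₃ with h0 | h0
    · rw [h0] at hR3
      simp at hR3
      linarith
    · exact h0
  have hRr : (0 : ℝ) < R := by exact_mod_cast hRpos
  have hR3r : (0 : ℝ) < R₃ := by exact_mod_cast hR3pos
  have : Nonempty (Fin R₃ × (Fin R × Fin R)) :=
    ⟨(⟨0, hR3pos⟩, ⟨0, hRpos⟩, ⟨0, hRpos⟩)⟩
  set Dl : ℝ := |g₂ - g₁| with hDl
  set y0 : ℝ := 32 * l ^ 2 / (|a₁| * |a₂| * Dl) with hy0
  set y1 : ℝ := 99 * ((R * |a₁|) * (R * |a₂|) * Dl) / L ^ 2 with hy1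
  set u0 : ℝ := 4 * l₃ / |c| with hu0
  set u1 : ℝ := 11 * (R₃ * |c|) / L₃ with hu1
  have hDle : Dl ≤ 2 := by
    calc Dl ≤ |g₂| + |g₁| := abs_sub _ _
      _ ≤ 2 := by linarith
  have hden : 0 < |a₁| * |a₂| * Dl := by positivity
  have h1y0 : 1 ≤ y0 := by
    rw [hy0, le_div_iff₀ hden]
    have h1 : |a₁| * |a₂| ≤ 1 * 1 := mul_le_mul ha₁' ha₂' ha₂.le zero_le_one
    have h2 : |a₁| * |a₂| * Dl ≤ (1 * 1) * 2 := mul_le_mul h1 hDle hg.le (by norm_num)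
    nlinarith
  have h1y1 : 1 ≤ y1 := by
    rw [hy1, le_div_iff₀ (by positivity)]
    have h2 : L * L ≤ (R * |a₁|) * (R * |a₂| * Dl) := mul_le_mul hR1 hD2 hL0.le (by positivity)
    nlinarith
  have h1u0 : 1 ≤ u0 := by
    rw [hu0, le_div_iff₀ hc0]
    linarith
  have h1u1 : 1 ≤ u1 := by
    rw [hu1, le_div_iff₀ hL30]
    have : 0 ≤ (R₃ : ℝ) * |c| := by positivity
    linarith
  let cv : Fin R₃ × (Fin R × Fin R) → ℕ × (ℕ × ℕ) := fun k => ((k.1 : ℕ), (k.2.1 : ℕ), (k.2.2 : ℕ))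
  have hinj : Function.Injective cv := by
    intro k k' hk
    simp only [cv, Prod.mk.injEq] at hk
    exact Prod.ext (Fin.ext hk.1) (Prod.ext (Fin.ext hk.2.1) (Fin.ext hk.2.2))
  -- the two counts
  have key := spread P (K := Fin R₃ × (Fin R × Fin R))
    (fun k a b => Moved3 a₁ a₂ g₁ g₂ c (z a) (w a) (dr a) (cv k) (z b) (w b)) (fun _ => e)
    (fun k => h _ k.1.2 k.2.1.2 k.2.2.2) (fun ω => lab3 l l₃ (z ω) (w ω))
    (fun ω => lab3 L L₃ (z ω) (w ω)) ⌊u0 * y0⌋₊ ⌊u1 * y1⌋₊ ?_ ?_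
  · have hcard : (Fintype.card (Fin R₃ × (Fin R × Fin R)) : ℝ) = (R : ℝ) * R * R₃ := by
      simp only [Fintype.card_prod, Fintype.card_fin, Nat.cast_mul]
      ring
    have hsum : (∑ _k : Fin R₃ × (Fin R × Fin R), e) / Fintype.card (Fin R₃ × (Fin R × Fin R)) =
        e := by
      rw [Finset.sum_const, Finset.card_univ, nsmul_eq_mul, mul_comm, mul_div_assoc, div_self,
        mul_one]
      rw [hcard]
      positivity
    rw [hsum, hcard, Real.log_mul (by positivity) hR3r.ne', Real.log_mul hRr.ne' hRr.ne'] at key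
    have e0 := log_floor_le (show 1 ≤ u0 * y0 by nlinarith)
    have e1 := log_floor_le (show 1 ≤ u1 * y1 by nlinarith)
    have e2 : Real.log (u0 * y0) + Real.log (u1 * y1) =
        Real.log 139392 + (Real.log R + Real.log R + Real.log R₃) - 2 * Real.log (L / l) -
          Real.log (L₃ / l₃) := by
      have hne : (L / l) ≠ 0 := by positivity
      have e3 : (u0 * y0) * (u1 * y1) = 139392 * (R * R * R₃) / ((L / l) ^ 2 * (L₃ / l₃)) := by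
        rw [hu0, hy0, hu1, hy1]
        field_simp
        ring
      rw [← Real.log_mul (by positivity) (by positivity), e3,
        Real.log_div (by positivity) (by positivity), Real.log_mul (by norm_num) (by positivity),
        Real.log_mul (by positivity) hR3r.ne', Real.log_mul hRr.ne' hRr.ne',
        Real.log_mul (by positivity) (by positivity), Real.log_pow]
      push_cast
      ring
    linarith
  · -- fibres
    intro a b _ _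
    refine ⟨univ.filter fun k : Fin R₃ × (Fin R × Fin R) => ∃ b',
      Moved3 a₁ a₂ g₁ g₂ c (z a) (w a) (dr a) (cv k) (z b') (w b') ∧
        lab3 l l₃ (z b') (w b') = lab3 l l₃ (z b) (w b), ?_, ?_⟩
    · refine Nat.le_floor ?_
      rw [← Finset.card_image_of_injective _ hinj]
      refine fib3 _ a₁ a₂ g₁ g₂ c l l₃ (z a) (w a) (dr a) (lab3 l l₃ (z b) (w b)) ha₁ ha₂ ha₁' ha₂'
        hg hg₁ hg₂ hl hc0 hc1 hl₃ ?_
      intro n hn
      rw [Finset.mem_image] at hn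
      obtain ⟨k, hk, rfl⟩ := hn
      rw [Finset.mem_filter] at hk
      obtain ⟨b', h1, h2⟩ := hk.2
      exact ⟨z b', w b', h1, h2⟩
    · intro k b' _ hk hf
      rw [Finset.mem_filter]
      exact ⟨Finset.mem_univ _, b', hk, hf⟩
  · -- coarse cells
    intro a ha
    refine ⟨(univ.filter fun b : Ω => ∃ k : Fin R₃ × (Fin R × Fin R),
      Moved3 a₁ a₂ g₁ g₂ c (z a) (w a) (dr a) (cv k) (z b) (w b)).image
        fun b => lab3 L L₃ (z b) (w b), ?_, ?_⟩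
    · refine Nat.le_floor ?_
      refine crs3 _ a₁ a₂ g₁ g₂ c L L₃ (R * |a₁|) (R * |a₂|) (R₃ * |c|) (z a) (w a) (dr a) hg₁ hg₂
        (hl.trans hlL) hR1 hR2 hD1 hD2 (hl₃.trans hlL₃) hR3 ?_
      intro q hq
      rw [Finset.mem_image] at hq
      obtain ⟨b, hb, rfl⟩ := hq
      rw [Finset.mem_filter] at hb
      obtain ⟨k, hk⟩ := hb.2
      refine ⟨cv k, z b, w b, ?_, ?_, ?_, ?_, hk, rfl⟩
      · have : ((k.2.1 : ℕ) : ℝ) ≤ R := by exact_mod_cast k.2.1.2.le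
        exact mul_le_mul_of_nonneg_right this ha₁.le
      · have : ((k.2.2 : ℕ) : ℝ) ≤ R := by exact_mod_cast k.2.2.2.le
        exact mul_le_mul_of_nonneg_right this ha₂.le
      · have : ((k.1 : ℕ) : ℝ) ≤ R₃ := by exact_mod_cast k.1.2.le
        exact mul_le_mul_of_nonneg_right this hc0.le
      · exact (hdr a ha (cv k).2 k.2.1.2 k.2.2.2).trans hB
    · intro k b _ hk
      rw [Finset.mem_image]
      exact ⟨b, by rw [Finset.mem_filter]; exact ⟨Finset.mem_univ _, k, hk⟩, rfl⟩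

end Vale.Agent.P106.H25
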