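import Vale.Agent.P106.TV.LatD
import Vale.Agent.P127.TV.LatHc

/-!
# P106 / H25 : lattice of translations with a drifting central coordinate, any dimension

`lat_n` : the law is nearly invariant under the words `(k, n)`, `k < R₃`, `n i < R`, which move `X` by
`∑ n i * v i` (rounding `1`), while the last (central) coordinate is only seen through the labels `F` (fine) and
`G` (coarse): over a point and `n`, at most `Bf` values of `k` lead to a given fine label; over a point and a
coarse cell of `X` at most `Bc` coarse labels are visited.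
-/

set_option autoImplicit false

namespace Vale.Agent.P106.H25

open Finset Vale.Agent.P127 Vale.Agent.P127.Stk Vale.Agent.P127.TV Vale.Agent.P127.TV.Lat Vale.Agent.P106.TV

variable {Ω : Type} [Fintype Ω] {d : ℕ}

/-- **LATTICE LEMMA with a central coordinate** -/
theorem lat_n {φ γ : Type} (Q : Law Ω) (X : Ω → Fin d → ℝ) (v : Fin d → Fin d → ℝ) (τ l L E : ℝ)
    (R R₃ : ℕ) (Wd : ℕ → (Fin d → ℕ) → Ω → Ω → Prop) (F : Ω → φ) (G : Ω → γ) (Bf Bc : ℝ)
    (hv : ∀ k i, |v k i| ≤ 1) (hτ : 0 < τ)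
    (hdet : τ ≤ |Matrix.det (Matrix.of v)|) (hl : 1 ≤ l) (hlL : l ≤ L)
    (hR : 2 * d * d.factorial * L ≤ R * τ) (hR0 : 0 < R) (hR3 : 0 < R₃) (hBf : 1 ≤ Bf)
    (hBc : 1 ≤ Bc)
    (h : ∀ k n, k < R₃ → (∀ i, n i < R) → SubC Q Q (Wd k n) E)
    (hX : ∀ k n a b, k < R₃ → (∀ i, n i < R) → Wd k n a b → Mvd v (X a) n (X b))
    (hF : ∀ a n f (S : Finset ℕ), 0 < Q.w a → (∀ i, n i < R) →
      (∀ k ∈ S, k < R₃ ∧ ∃ b, Wd k n a b ∧ F b = f) → (S.card : ℝ) ≤ Bf)
    (hFX : ∀ a b, F a = F b → celd l (X a) = celd l (X b))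
    (hG : ∀ a q (S : Finset γ), 0 < Q.w a →
      (∀ g ∈ S, ∃ k n b, k < R₃ ∧ (∀ i, n i < R) ∧ Wd k n a b ∧ celd L (X b) = q ∧ G b = g) →
        (S.card : ℝ) ≤ Bc) :
    d * Real.log (L / l) - d * Real.log (3 * (2 * d + 3)) +
        (Real.log R₃ - Real.log Bf - Real.log Bc) -
        E * (1 + d * Real.log R + Real.log R₃) ≤ hc Q F G := by
  classical
  have hl0 : 0 < l := by linarith
  have hL0 : 0 < L := by linarith
  set D : ℝ := |Matrix.det (Matrix.of v)| with hDdef
  have hD : 0 < D := hτ.trans_le hdet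
  have hRr : (0 : ℝ) < R := by exact_mod_cast hR0
  have hR3r : (0 : ℝ) < R₃ := by exact_mod_cast hR3
  have : Nonempty (Fin R₃ × (Fin d → Fin R)) := ⟨⟨0, hR3⟩, fun _ => ⟨0, hR0⟩⟩
  obtain ⟨ω₀, hω₀⟩ : ∃ ω, 0 < Q.w ω := by
    by_contra hcon
    push Not at hcon
    have : ∑ ω, Q.w ω ≤ 0 := Finset.sum_nonpos fun ω _ => hcon ω
    rw [Q.sum_one] at this
    linarith
  set x0 : ℝ := ((2 * d + 3) * l) ^ d / D with hx0
  set x1 : ℝ := D * (3 * R) ^ d / L ^ d with hx1
  have hfib : ∀ (S : Finset (Fin d → ℕ)) (z : Fin d → ℝ) (q : Fin d → ℤ),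
      (∀ n ∈ S, ∃ z', Mvd v z n z' ∧ celd l z' = q) → (S.card : ℝ) ≤ x0 := by
    intro S z q hS
    rw [hx0, le_div_iff₀ hD, mul_comm]
    exact fib_card v hv S l hl z q hS
  have hcrs : ∀ (T : Finset (Fin d → ℤ)) (z : Fin d → ℝ),
      (∀ q ∈ T, ∃ (n : Fin d → ℕ) (z' : Fin d → ℝ), (∀ k, n k ≤ R) ∧ Mvd v z n z' ∧
        celd L z' = q) → (T.card : ℝ) ≤ x1 := by
    intro T z hT
    rw [hx1, le_div_iff₀ (by positivity)]
    exact crs_card v hv τ L R hτ hdet (hl.trans hlL) hR T z hT
  have hzero : ∀ z : Fin d → ℝ, Mvd v z (fun _ => 0) z := by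
    intro z i
    simp [cmb]
  have h1x0 : 1 ≤ x0 := by
    have := hfib {fun _ => 0} (X ω₀) (celd l (X ω₀)) (by
      intro n hn
      rw [Finset.mem_singleton] at hn
      subst hn
      exact ⟨X ω₀, hzero _, rfl⟩)
    simpa using this
  have h1x1 : 1 ≤ x1 := by
    have := hcrs {celd L (X ω₀)} (X ω₀) (by
      intro q hq
      rw [Finset.mem_singleton] at hq
      exact ⟨fun _ => 0, X ω₀, fun _ => Nat.zero_le _, hzero _, hq.symm⟩)
    simpa using this
  have hinj : Function.Injective (fun (k : Fin R₃ × (Fin d → Fin R)) =>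
      ((k.1 : ℕ), fun i => (k.2 i : ℕ))) := by
    intro k k' hk
    simp only [Prod.mk.injEq] at hk
    exact Prod.ext (Fin.ext hk.1) (funext fun i => Fin.ext (congrFun hk.2 i))
  have key := spread Q (K := Fin R₃ × (Fin d → Fin R))
    (fun k a b => Wd (k.1 : ℕ) (fun i => (k.2 i : ℕ)) a b) (fun _ => E)
    (fun k => h _ _ k.1.2 fun i => (k.2 i).2) F G ⌊Bf * x0⌋₊ ⌊Bc * x1⌋₊ ?_ ?_
  · have hcard : (Fintype.card (Fin R₃ × (Fin d → Fin R)) : ℝ) = R₃ * (R : ℝ) ^ d := by
      simp
    have hcpos : (0 : ℝ) < R₃ * (R : ℝ) ^ d := by positivity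
    have hsum : (∑ _k : Fin R₃ × (Fin d → Fin R), E) /
        Fintype.card (Fin R₃ × (Fin d → Fin R)) = E := by
      rw [Finset.sum_const, Finset.card_univ, nsmul_eq_mul, mul_comm, mul_div_assoc, div_self,
        mul_one]
      rw [hcard]
      positivity
    rw [hsum, hcard, Real.log_mul hR3r.ne' (by positivity), Real.log_pow] at key
    have e0 := log_fl (show 1 ≤ Bf * x0 by nlinarith)
    have e1 := log_fl (show 1 ≤ Bc * x1 by nlinarith)
    rw [Real.log_mul (by linarith) (by linarith)] at e0 e1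
    have e2 : Real.log x0 + Real.log x1 =
        d * Real.log (3 * (2 * d + 3)) + d * Real.log R - d * Real.log (L / l) := by
      have e3 : x0 * x1 = ((3 * (2 * d + 3)) * R / (L / l)) ^ d := by
        rw [hx0, hx1, div_pow, mul_pow, mul_pow, mul_pow, mul_pow, div_pow]
        field_simp
      rw [← Real.log_mul (by linarith) (by linarith), e3, Real.log_pow,
        Real.log_div (by positivity) (by positivity), Real.log_mul (by positivity) hRr.ne']
      ring
    linarith
  · intro a b ha _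
    refine ⟨univ.filter fun k : Fin R₃ × (Fin d → Fin R) =>
      ∃ b', Wd (k.1 : ℕ) (fun i => (k.2 i : ℕ)) a b' ∧ F b' = F b, ?_, ?_⟩
    · refine Nat.le_floor ?_
      rw [← Finset.card_image_of_injective _ hinj]
      refine card_pair_le _ _ _ (by linarith) ?_ ?_
      · intro T hT
        refine hfib T (X a) (celd l (X b)) ?_
        intro n hn
        obtain ⟨k, hk⟩ := hT n hn
        rw [Finset.mem_image] at hk
        obtain ⟨k', hk', he⟩ := hk
        rw [Finset.mem_filter] at hk'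
        obtain ⟨b', h1, h2⟩ := hk'.2
        simp only [Prod.mk.injEq] at he
        refine ⟨X b', ?_, hFX _ _ h2⟩
        rw [← he.2]
        exact hX _ _ _ _ k'.1.2 (fun i => (k'.2 i).2) h1
      · intro n T hT
        rcases T.eq_empty_or_nonempty with hTe | ⟨k0, hk0⟩
        · rw [hTe]
          simp only [Finset.card_empty, Nat.cast_zero]
          linarith
        have hn : ∀ i, n i < R := by
          have h3 := hT k0 hk0
          rw [Finset.mem_image] at h3
          obtain ⟨k', _, he⟩ := h3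
          simp only [Prod.mk.injEq] at he
          rw [← he.2]
          exact fun i => (k'.2 i).2
        refine hF a n (F b) T ha hn ?_
        intro k hk
        have h3 := hT k hk
        rw [Finset.mem_image] at h3
        obtain ⟨k', hk', he⟩ := h3
        rw [Finset.mem_filter] at hk'
        obtain ⟨b', h1, h2⟩ := hk'.2
        simp only [Prod.mk.injEq] at he
        rw [← he.1, ← he.2]
        exact ⟨k'.1.2, b', h1, h2⟩
    · intro k b' _ hk hf
      rw [Finset.mem_filter]
      exact ⟨Finset.mem_univ _, b', hk, hf⟩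
  · intro a ha
    set T : Finset (γ × (Fin d → ℤ)) := (univ.filter fun b : Ω => ∃ k : Fin R₃ × (Fin d → Fin R),
      Wd (k.1 : ℕ) (fun i => (k.2 i : ℕ)) a b).image fun b => (G b, celd L (X b)) with hT
    refine ⟨T.image Prod.fst, ?_, ?_⟩
    · refine (Finset.card_image_le).trans (Nat.le_floor ?_)
      refine card_pair_le T _ _ (by linarith) ?_ ?_
      · intro S hS
        refine hcrs S (X a) ?_
        intro q hq
        obtain ⟨g, hg⟩ := hS q hq
        rw [hT, Finset.mem_image] at hg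
        obtain ⟨b, hb, he⟩ := hg
        rw [Finset.mem_filter] at hb
        obtain ⟨k, hk⟩ := hb.2
        simp only [Prod.mk.injEq] at he
        exact ⟨fun i => (k.2 i : ℕ), X b, fun i => (k.2 i).2.le,
          hX _ _ _ _ k.1.2 (fun i => (k.2 i).2) hk, he.2⟩
      · intro q S hS
        refine hG a q S ha ?_
        intro g hg
        have h3 := hS g hg
        rw [hT, Finset.mem_image] at h3
        obtain ⟨b, hb, he⟩ := h3
        rw [Finset.mem_filter] at hb
        obtain ⟨k, hk⟩ := hb.2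
        simp only [Prod.mk.injEq] at he
        exact ⟨k.1, fun i => (k.2 i : ℕ), b, k.1.2, fun i => (k.2 i).2, hk, he.2, he.1⟩
    · intro k b _ hk
      rw [Finset.mem_image]
      refine ⟨(G b, celd L (X b)), ?_, rfl⟩
      rw [hT, Finset.mem_image]
      exact ⟨b, by rw [Finset.mem_filter]; exact ⟨Finset.mem_univ _, k, hk⟩, rfl⟩

end Vale.Agent.P106.H25
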