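import Vale.Agent.P106.H25.SatK

/-!
# P106 / H25 : THE N-STEP, KAPPA REGIME, abstract form with numbers

* `satK` : strong form, the collisions of the time block, of the direction and of the lines given `D`.
* `satK_weak` : weak form, the good triples have conditional probability `≥ δ` outside a small event.
-/

set_option autoImplicit false

namespace Vale.Agent.P106.H25

open Finset Vale.Agent.P127 Vale.Agent.P127.Stk Vale.Agent.P127.U.Pin Vale.Agent.P127.U.Mic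
open Vale.Agent.P127.U.CellD Vale.Agent.P127.TV
open Vale.Agent.P106.TV Vale.Agent.P106.U.H683

variable {Ω : Type} [Fintype Ω] {S U V Z : Type*}

/-- average of a function of three copies -/
noncomputable def av3 (P : Law Ω) (D : Ω → U) (f : Ω → Ω → Ω → ℝ) : ℝ :=
  P.ex fun ω => (P.cond D (D ω)).ex fun a => (P.cond D (D ω)).ex fun b => f ω a b

theorem avc_azz (P : Law Ω) (D : Ω → U) (f : Ω → Ω → Ω → ℝ) :
    avc P D (Fin 2) (Fin 3) (fun a z _ => f a (z 0) (z 1)) = av3 P D f := by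
  unfold avc av3
  simp only [Law.ex_const]
  refine P.ex_congr fun ω _ => ?_
  exact cop_ex2 _ (by decide) (f ω)

/-- the union bound -/
theorem nonK (P : Law Ω) (D : Ω → U) (t e : Ω → ℤ) (w : Ω → Ω → Ω → Prop)
    (f : Ω → (Fin 2 → Ω) → (Fin 3 → Ω) → ℝ)
    (hf0 : ∀ ω z y, 0 ≤ f ω z y)
    (hf : ∀ ω z y, 0 < P.w ω → (∀ i, 0 < P.w (z i) ∧ D (z i) = D ω) →
      (∀ j, 0 < P.w (y j) ∧ D (y j) = D ω) →
      ¬ |t ω - t (z 0)| ≤ ((1 : ℕ) : ℤ) → ¬ w ω (z 0) (z 1) →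
      ¬ |e (y 0) - e (y 1)| ≤ ((1 : ℕ) : ℤ) → ¬ |e (y 0) - e (y 2)| ≤ ((1 : ℕ) : ℤ) →
      ¬ |e (y 1) - e (y 2)| ≤ ((1 : ℕ) : ℤ) → 1 ≤ f ω z y) :
    1 - (3 * colp P t D + 9 * colp P e D + av3 P D (fun ω a b => Law.ind (w ω a b))) ≤
      avc P D (Fin 2) (Fin 3) f := by
  let b0 : Ω → (Fin 2 → Ω) → (Fin 3 → Ω) → ℝ := fun a z _ =>
    Law.ind (|t a - t (z 0)| ≤ ((1 : ℕ) : ℤ))
  let c0 : Ω → (Fin 2 → Ω) → (Fin 3 → Ω) → ℝ := fun a z _ => Law.ind (w a (z 0) (z 1))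
  let d0 : Ω → (Fin 2 → Ω) → (Fin 3 → Ω) → ℝ := fun _ _ y =>
    Law.ind (|e (y 0) - e (y 1)| ≤ ((1 : ℕ) : ℤ))
  let d1 : Ω → (Fin 2 → Ω) → (Fin 3 → Ω) → ℝ := fun _ _ y =>
    Law.ind (|e (y 0) - e (y 2)| ≤ ((1 : ℕ) : ℤ))
  let d2 : Ω → (Fin 2 → Ω) → (Fin 3 → Ω) → ℝ := fun _ _ y =>
    Law.ind (|e (y 1) - e (y 2)| ≤ ((1 : ℕ) : ℤ))
  have h1 : avc P D (Fin 2) (Fin 3) (fun a z y => 1 - (b0 a z y + c0 a z y + d0 a z y +
      d1 a z y + d2 a z y)) ≤ avc P D (Fin 2) (Fin 3) f := by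
    refine avc_mono P D fun ω z y p pz py => ?_
    have n1 := lind_nonneg (|t ω - t (z 0)| ≤ ((1 : ℕ) : ℤ))
    have n3 := lind_nonneg (w ω (z 0) (z 1))
    have n4 := lind_nonneg (|e (y 0) - e (y 1)| ≤ ((1 : ℕ) : ℤ))
    have n5 := lind_nonneg (|e (y 0) - e (y 2)| ≤ ((1 : ℕ) : ℤ))
    have n6 := lind_nonneg (|e (y 1) - e (y 2)| ≤ ((1 : ℕ) : ℤ))
    have hx := hf0 ω z y
    simp only [b0, c0, d0, d1, d2]
    by_cases g1 : |t ω - t (z 0)| ≤ ((1 : ℕ) : ℤ)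
    · rw [Law.ind_of g1]; linarith
    by_cases g3 : w ω (z 0) (z 1)
    · rw [Law.ind_of g3]; linarith
    by_cases g4 : |e (y 0) - e (y 1)| ≤ ((1 : ℕ) : ℤ)
    · rw [Law.ind_of g4]; linarith
    by_cases g5 : |e (y 0) - e (y 2)| ≤ ((1 : ℕ) : ℤ)
    · rw [Law.ind_of g5]; linarith
    by_cases g6 : |e (y 1) - e (y 2)| ≤ ((1 : ℕ) : ℤ)
    · rw [Law.ind_of g6]; linarith
    have := hf ω z y p pz py g1 g3 g4 g5 g6
    linarith
  rw [avc_sub P D (fun _ _ _ => 1), avc_const] at h1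
  have e1 : avc P D (Fin 2) (Fin 3) (fun a z y => b0 a z y + c0 a z y + d0 a z y +
      d1 a z y + d2 a z y) =
      avc P D (Fin 2) (Fin 3) b0 + avc P D (Fin 2) (Fin 3) c0 +
      avc P D (Fin 2) (Fin 3) d0 + avc P D (Fin 2) (Fin 3) d1 + avc P D (Fin 2) (Fin 3) d2 := by
    rw [← avc_add, ← avc_add, ← avc_add, ← avc_add]
  rw [e1] at h1
  have hk : (2 * ((1 : ℕ) : ℝ) + 1) = 3 := by norm_num
  have f1 : avc P D (Fin 2) (Fin 3) b0 ≤ 3 * colp P t D := by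
    rw [avc_z P D 0 (fun a b => Law.ind (|t a - t b| ≤ ((1 : ℕ) : ℤ))), ← hk]
    exact av2_near P D t 1
  have f3 : avc P D (Fin 2) (Fin 3) c0 = av3 P D (fun ω a b => Law.ind (w ω a b)) :=
    avc_azz P D (fun ω a b => Law.ind (w ω a b))
  have f4 : avc P D (Fin 2) (Fin 3) d0 ≤ 3 * colp P e D := by
    rw [avc_yy P D (i := 0) (j := 1) (by decide)
      (fun a b => Law.ind (|e a - e b| ≤ ((1 : ℕ) : ℤ))), ← hk]
    exact av2_near P D e 1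
  have f5 : avc P D (Fin 2) (Fin 3) d1 ≤ 3 * colp P e D := by
    rw [avc_yy P D (i := 0) (j := 2) (by decide)
      (fun a b => Law.ind (|e a - e b| ≤ ((1 : ℕ) : ℤ))), ← hk]
    exact av2_near P D e 1
  have f6 : avc P D (Fin 2) (Fin 3) d2 ≤ 3 * colp P e D := by
    rw [avc_yy P D (i := 1) (j := 2) (by decide)
      (fun a b => Law.ind (|e a - e b| ≤ ((1 : ℕ) : ℤ))), ← hk]
    exact av2_near P D e 1
  linarith

/-- the numbers -/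
structure NumK (m g R R₃ : ℕ) : Prop where
  R1 : 1 ≤ R
  R31 : 1 ≤ R₃
  r1 : 36 * (2 : ℝ) ^ m ≤ R * q2 (7 * g + 1)
  r3 : 10 * (R : ℝ) ^ 2 ≤ R₃ * q2 (4 * g)
  rr : 100 * (R : ℝ) * R₃ ≤ 2 ^ (3 * m + 25 * g + 32)
  nn : 0 ≤ (3 * (R : ℝ) + 4 * R₃) * (1 + 3 * Real.log R + Real.log R₃)
  n : (3 * (R : ℝ) + 4 * R₃) * (1 + 3 * Real.log R + Real.log R₃) * 384 ≤ 2 ^ (57 * g)

theorem numKK {m g : ℕ} (hm : 1 ≤ m) (hmg : m ≤ g) :
    NumK m g (2 ^ (m + 7 * g + 7)) (2 ^ (2 * m + 18 * g + 18)) := by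
  have hl2 : Real.log 2 ≤ 7 / 10 := by
    have := Real.log_two_lt_d9
    linarith
  have hl20 : 0 < Real.log 2 := Real.log_pos (by norm_num)
  have hg1 : 1 ≤ g := hm.trans hmg
  have hg3 : (1 : ℝ) ≤ g := by exact_mod_cast hg1
  have hm3 : (1 : ℝ) ≤ m := by exact_mod_cast hm
  have hmg3 : (m : ℝ) ≤ g := by exact_mod_cast hmg
  have eR : ((2 ^ (m + 7 * g + 7) : ℕ) : ℝ) = 2 ^ (m + 7 * g + 7) := by push_cast; rfl
  have eR3 : ((2 ^ (2 * m + 18 * g + 18) : ℕ) : ℝ) = 2 ^ (2 * m + 18 * g + 18) := by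
    push_cast; rfl
  have lR : Real.log ((2 ^ (m + 7 * g + 7) : ℕ) : ℝ) = (m + 7 * g + 7) * Real.log 2 := by
    rw [eR, Real.log_pow]; push_cast; ring
  have lR3 : Real.log ((2 ^ (2 * m + 18 * g + 18) : ℕ) : ℝ) =
      (2 * m + 18 * g + 18) * Real.log 2 := by
    rw [eR3, Real.log_pow]; push_cast; ring
  refine ⟨Nat.one_le_two_pow, Nat.one_le_two_pow, ?_, ?_, ?_, ?_, ?_⟩
  · have e1 : (2 : ℝ) ^ (m + 7 * g + 7) * q2 (7 * g + 1) = 2 ^ (m + 6) := by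
      rw [show m + 7 * g + 7 = (m + 6) + (7 * g + 1) by ring, pow_add (2 : ℝ) (m + 6), mul_assoc,
        q2_mul_pow, mul_one]
    rw [eR, e1, pow_add]
    have : (0 : ℝ) < 2 ^ m := by positivity
    linarith
  · have e1 : (2 : ℝ) ^ (2 * m + 18 * g + 18) * q2 (4 * g) = 2 ^ (2 * m + 14 * g + 18) := by
      rw [show 2 * m + 18 * g + 18 = (2 * m + 14 * g + 18) + 4 * g by ring,
        pow_add (2 : ℝ) (2 * m + 14 * g + 18), mul_assoc, q2_mul_pow, mul_one]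
    rw [eR, eR3, e1, ← pow_mul, show 2 * m + 14 * g + 18 = (m + 7 * g + 7) * 2 + 4 by ring, pow_add]
    have : (0 : ℝ) < 2 ^ ((m + 7 * g + 7) * 2) := by positivity
    linarith
  · rw [eR, eR3]
    calc 100 * (2 : ℝ) ^ (m + 7 * g + 7) * 2 ^ (2 * m + 18 * g + 18) =
          100 * 2 ^ (3 * m + 25 * g + 25) := by
          rw [mul_assoc, ← pow_add]; congr 2; ring
      _ ≤ 2 ^ 7 * 2 ^ (3 * m + 25 * g + 25) :=
          mul_le_mul_of_nonneg_right (by norm_num) (by positivity)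
      _ = 2 ^ (3 * m + 25 * g + 32) := by rw [← pow_add]; congr 1; ring
  · rw [lR, lR3]
    positivity
  · rw [lR, lR3, eR, eR3]
    have h1 : 1 + 3 * ((m + 7 * g + 7) * Real.log 2) + (2 * m + 18 * g + 18) * Real.log 2 ≤
        2 ^ (6 + g) := by
      have h2 : (g : ℝ) ≤ 2 ^ g := by exact_mod_cast Nat.lt_two_pow_self.le
      have h3 : 1 + 3 * ((m + 7 * g + 7) * Real.log 2) + (2 * m + 18 * g + 18) * Real.log 2 =
          1 + (5 * m + 39 * g + 39) * Real.log 2 := by ring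
      have h4 : (5 * m + 39 * g + 39) * Real.log 2 ≤ (83 * g) * (7 / 10) :=
        mul_le_mul (by linarith) hl2 hl20.le (by positivity)
      rw [h3, pow_add]
      linarith
    have h5 : 3 * (2 : ℝ) ^ (m + 7 * g + 7) + 4 * 2 ^ (2 * m + 18 * g + 18) ≤
        2 ^ (38 * g + 3) := by
      have h6 : (2 : ℝ) ^ (m + 7 * g + 7) ≤ 2 ^ (38 * g) :=
        pow_le_pow_right₀ (by norm_num) (by omega)
      have h7 : (2 : ℝ) ^ (2 * m + 18 * g + 18) ≤ 2 ^ (38 * g) :=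
        pow_le_pow_right₀ (by norm_num) (by omega)
      rw [pow_add (2 : ℝ) (38 * g) 3]
      have : (0 : ℝ) < 2 ^ (38 * g) := by positivity
      linarith
    calc _ ≤ (2 : ℝ) ^ (38 * g + 3) * 2 ^ (6 + g) * 2 ^ 9 := by
          refine mul_le_mul (mul_le_mul h5 h1 (by positivity) (by positivity)) (by norm_num)
            (by positivity) (by positivity)
      _ = 2 ^ (39 * g + 18) := by rw [← pow_add, ← pow_add]; congr 1; ring
      _ ≤ 2 ^ (57 * g) := pow_le_pow_right₀ (by norm_num) (by omega)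

lemma q2_one (n : ℕ) : q2 n ≤ 1 := by
  have h := q2_mul_pow n
  have h1 : (1 : ℝ) ≤ 2 ^ n := one_le_pow₀ (by norm_num)
  have h2 := q2_pos n
  nlinarith

/-- numerical end, strong form -/
theorem endK {m p₁ p₂ : ℕ} {S3 A I B H : ℝ} (hm : 1 ≤ m) (hp1 : p₁ ≤ m) (hp2 : p₂ ≤ m)
    (hS0 : 0 ≤ S3) (hX : 1 - 9 * S3 ≤ A)
    (main : A * (3 * (p₁ * Real.log 2) + 2 * (p₂ * Real.log 2) - 18) - I ≤ H) (hI : I ≤ B)
    (hB : 0 ≤ B) (hH0 : 0 ≤ H) :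
    (3 * p₁ + 2 * p₂) * Real.log 2 - (18 + 32 * m * S3 + B) ≤ H := by
  have hl2 : Real.log 2 ≤ 7 / 10 := by
    have := Real.log_two_lt_d9
    linarith
  have hl20 : 0 < Real.log 2 := Real.log_pos (by norm_num)
  have hm0 : (1 : ℝ) ≤ m := by exact_mod_cast hm
  have hp1r : (p₁ : ℝ) ≤ m := by exact_mod_cast hp1
  have hp2r : (p₂ : ℝ) ≤ m := by exact_mod_cast hp2
  have e1 : 3 * ((p₁ : ℝ) * Real.log 2) + 2 * (p₂ * Real.log 2) =
      (3 * p₁ + 2 * p₂) * Real.log 2 := by ring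
  rw [e1] at main
  have h5 : (3 * (p₁ : ℝ) + 2 * p₂) * Real.log 2 ≤ 7 / 2 * m := by
    have : (3 * (p₁ : ℝ) + 2 * p₂) * Real.log 2 ≤ (5 * m) * (7 / 10) :=
      mul_le_mul (by linarith) hl2 hl20.le (by positivity)
    linarith
  generalize hF : (3 * (p₁ : ℝ) + 2 * p₂) * Real.log 2 = F at *
  have hmS : 0 ≤ (m : ℝ) * S3 := by positivity
  rcases le_or_gt (F - 18) 0 with hneg | hpos
  · have : 0 ≤ 32 * (m : ℝ) * S3 := by positivity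
    linarith
  · have h6 : (1 - 9 * S3) * (F - 18) ≤ A * (F - 18) := mul_le_mul_of_nonneg_right hX hpos.le
    have h7 : 9 * S3 * (F - 18) ≤ 32 * m * S3 := by
      have h8 : F - 18 ≤ 7 / 2 * m := by linarith
      have h9 := mul_le_mul_of_nonneg_left h8 (by positivity : 0 ≤ 9 * S3)
      nlinarith
    linarith

/-- the error term -/
theorem errK {N I₁ I₂ ι₁ ι₂ B : ℝ} (hN0 : 0 ≤ N) (hN : N * 384 ≤ B) (h1 : I₁ ≤ ι₁)
    (h2 : I₂ ≤ ι₂) : N * (6 * (8 * Real.sqrt I₁ + 64 * Real.sqrt I₂)) ≤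
      B * (Real.sqrt ι₁ + Real.sqrt ι₂) := by
  have s1 := Real.sqrt_le_sqrt h1
  have s2 := Real.sqrt_le_sqrt h2
  have s3 := Real.sqrt_nonneg ι₁
  have s4 := Real.sqrt_nonneg ι₂
  have e1 : 6 * (8 * Real.sqrt I₁ + 64 * Real.sqrt I₂) ≤ 384 * (Real.sqrt ι₁ + Real.sqrt ι₂) := by
    linarith
  calc _ ≤ N * (384 * (Real.sqrt ι₁ + Real.sqrt ι₂)) := mul_le_mul_of_nonneg_left e1 hN0
    _ = (N * 384) * (Real.sqrt ι₁ + Real.sqrt ι₂) := by ring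
    _ ≤ _ := mul_le_mul_of_nonneg_right hN (add_nonneg s3 s4)

/-- numerical end, pointwise weak form -/
theorem wpt {av δ NN er F m i H : ℝ} (hδ : 0 < δ) (hNN : 0 ≤ NN) (her : 0 ≤ er)
    (hH : 0 ≤ H) (hF1 : F ≤ 4 * m) (hm : 0 ≤ m) (hi : (δ ≤ av → i = 0) ∧ (¬ δ ≤ av → i = 1))
    (h3 : av * (F - 18) - NN * er ≤ av * H) :
    F - 18 - 4 * m * i - NN / δ * er ≤ H := by
  have hne : 0 ≤ NN / δ * er := mul_nonneg (div_nonneg hNN hδ.le) her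
  by_cases hd : δ ≤ av
  · rw [hi.1 hd]
    have ha : 0 < av := hδ.trans_le hd
    have h4 : NN * er ≤ NN / δ * er * av := by
      have h5 : NN * er = NN / δ * er * δ := by field_simp
      rw [h5]
      exact mul_le_mul_of_nonneg_left hd hne
    have h6 : av * (F - 18 - NN / δ * er) ≤ av * H := by
      refine le_trans ?_ h3
      nlinarith
    have h7 := le_of_mul_le_mul_left h6 ha
    linarith
  · rw [hi.2 hd]
    linarith

section steps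

variable (P : Law Ω) {D : Ω → U} {Θ : Ω → V} {W : Ω → S} {E : Ω → Z} {e : U → S → ℝ}
  {X : Ω → Fin 3 → ℝ} {M : Ω → ℝ} {Sf Tf : U → V → V → ℝ} {ρ : ℝ}

/-- **THE N-STEP, KAPPA REGIME**, strong form -/
theorem satK (geo : GeoR P D Θ W E e (RK X M Sf Tf ρ)) {g m p₁ p₂ : ℕ} (hm : 1 ≤ m)
    (hmg : m ≤ g) (hp1 : p₁ ≤ m) (hp2 : p₂ ≤ m) (t y : Ω → ℤ)
    (hS1 : ∀ ω ω', 0 < P.w ω → 0 < P.w ω' → D ω' = D ω → |Sf (D ω) (Θ ω) (Θ ω')| ≤ 1)
    (hT1 : ∀ ω ω', 0 < P.w ω → 0 < P.w ω' → D ω' = D ω → |Tf (D ω) (Θ ω) (Θ ω')| ≤ 1)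
    (he1 : ∀ ω ω', 0 < P.w ω → 0 < P.w ω' → D ω' = D ω → 0 ≤ e (D ω) (W ω') ∧ e (D ω) (W ω') ≤ 1)
    (hS : ∀ ω ω', 0 < P.w ω → 0 < P.w ω' → D ω' = D ω → ¬ |t ω - t ω'| ≤ ((1 : ℕ) : ℤ) →
      q2 g ≤ |Sf (D ω) (Θ ω) (Θ ω')|)
    (he : ∀ ω a b, 0 < P.w ω → 0 < P.w a → 0 < P.w b → D a = D ω → D b = D ω →
      ¬ |y a - y b| ≤ ((1 : ℕ) : ℤ) → q2 g ≤ |e (D ω) (W a) - e (D ω) (W b)|)
    (hρ0 : 0 ≤ ρ) (hρ : 2 ^ (3 * m + 25 * g + 32) * ρ ≤ 1) {ι₁ ι₂ pw : ℝ}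
    (hw : av3 P D (fun ω a b => Law.ind (¬ q2 (2 * g) ≤
      |Sf (D ω) (Θ ω) (Θ a) * Tf (D ω) (Θ ω) (Θ b) -
        Sf (D ω) (Θ ω) (Θ b) * Tf (D ω) (Θ ω) (Θ a)|)) ≤ pw)
    (h1 : mi P (fun ω => e (D ω) (W ω)) E (fun ω => (D ω, Θ ω)) ≤ ι₁) (h2 : mi P Θ W D ≤ ι₂) :
    (3 * p₁ + 2 * p₂) * Real.log 2 - (18 + 32 * m * (colp P t D + colp P y D + pw) +
      2 ^ (57 * g) * (Real.sqrt ι₁ + Real.sqrt ι₂)) ≤
    hc P (fun ω => lbk 1 1 (X ω) (M ω))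
      (fun ω => (lbk (2 ^ p₁) (2 ^ p₂) (X ω) (M ω), (D ω, Θ ω))) := by
  classical
  have hN := numKK hm hmg
  set R : ℕ := 2 ^ (m + 7 * g + 7) with hRdef
  set R₃ : ℕ := 2 ^ (2 * m + 18 * g + 18) with hR3def
  have hp1' : (1 : ℝ) ≤ 2 ^ p₁ := one_le_pow₀ (by norm_num)
  have hp2' : (1 : ℝ) ≤ 2 ^ p₂ := one_le_pow₀ (by norm_num)
  have main := satK_av P geo (q2 (7 * g + 1)) (q2 (4 * g)) (2 ^ m) (2 ^ p₁) (2 ^ p₂) R R₃
    (q2_pos _) (q2_one _) (q2_pos _) hp1' hp2' (pow_le_pow_right₀ (by norm_num) hp1)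
    (pow_le_pow_right₀ (by norm_num) hp2) hN.r1 hN.r3 hρ0
    ((mul_le_mul_of_nonneg_right hN.rr hρ0).trans hρ) hN.R1 hN.R31
  have hpw0 : 0 ≤ pw := by
    refine le_trans ?_ hw
    exact Law.ex_nonneg _ fun ω _ => Law.ex_nonneg _ fun a _ => Law.ex_nonneg _ fun b _ =>
      ind_nonneg _
  -- the weight
  have hX : 1 - 9 * (colp P t D + colp P y D + pw) ≤
      P.ex (avG P D Θ W e (chiK Sf Tf (q2 (7 * g + 1)) (q2 (4 * g)))) := by
    have hn := nonK P D t y (fun ω a b => ¬ q2 (2 * g) ≤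
      |Sf (D ω) (Θ ω) (Θ a) * Tf (D ω) (Θ ω) (Θ b) -
        Sf (D ω) (Θ ω) (Θ b) * Tf (D ω) (Θ ω) (Θ a)|)
      (fun ω z x => chiK Sf Tf (q2 (7 * g + 1)) (q2 (4 * g)) (D ω) (Θ ω)
      (fun i => Θ (z i)) (fun j => e (D ω) (W (x j)))) (fun ω z x => chiK_nonneg _ _ _ _ _ _ _ _) ?_
    · have k1 := colp_nonneg P t D
      have k3 := colp_nonneg P y D
      refine le_trans ?_ hn
      linarith
    · intro ω z x p pz px g1 g3 g4 g5 g6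
      refine le_of_eq ?_
      unfold chiK
      rw [if_pos]
      have s0 := hS ω (z 0) p (pz 0).1 (pz 0).2 g1
      have gg := not_not.1 g3
      have x01 := he ω (x 0) (x 1) p (px 0).1 (px 1).1 (px 0).2 (px 1).2 g4
      have x02 := he ω (x 0) (x 2) p (px 0).1 (px 2).1 (px 0).2 (px 2).2 g5
      have x12 := he ω (x 1) (x 2) p (px 1).1 (px 2).1 (px 1).2 (px 2).2 g6
      have q0 := q2_pos g
      have q0' := q2_pos (2 * g)
      refine ⟨fun k i => ?_, ?_, ?_⟩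
      · exact FK_le (hS1 ω _ p (pz _).1 (pz _).2) (hT1 ω _ p (pz _).1 (pz _).2)
          (he1 ω _ p (px _).1 (px _).2) (he1 ω _ p (px _).1 (px _).2) i
      · rw [detK]
        rw [abs_div, abs_mul, abs_mul, abs_mul, abs_mul, abs_pow,
          abs_of_pos (by norm_num : (0 : ℝ) < 2), le_div_iff₀ (by norm_num)]
        have e1 : q2 (7 * g + 1) * 2 = q2 g ^ 2 * q2 g * q2 g * q2 g * q2 (2 * g) := by
          have e2 : q2 g ^ 2 * q2 g * q2 g * q2 g * q2 (2 * g) = q2 g ^ 7 := by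
            rw [← q2_pow g 2]; ring
          rw [e2, q2_pow, q2_add, mul_assoc]
          have : q2 1 * 2 = 1 := by unfold q2; norm_num
          rw [this, mul_one]
        rw [e1]
        gcongr
      · rw [comK, abs_mul, abs_pow]
        have e1 : q2 (4 * g) = q2 g ^ 2 * q2 (2 * g) := by
          rw [← q2_pow g 2, ← q2_pow g 4]; ring
        rw [e1]
        gcongr
  rw [Real.log_pow, Real.log_pow] at main
  exact endK hm hp1 hp2 (by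
      have k1 := colp_nonneg P t D
      have k3 := colp_nonneg P y D
      positivity) hX main (errK hN.nn hN.n h1 h2)
    (mul_nonneg (by positivity) (add_nonneg (Real.sqrt_nonneg _) (Real.sqrt_nonneg _)))
    (hc_nonneg _ _ _)

/-- **THE N-STEP, KAPPA REGIME**, weak form: the good copies have conditional probability `≥ δ` outside an event of
probability `pb` -/
theorem satK_weak (geo : GeoR P D Θ W E e (RK X M Sf Tf ρ)) {g m p₁ p₂ : ℕ} (hm : 1 ≤ m)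
    (hmg : m ≤ g) (hp1 : p₁ ≤ m) (hp2 : p₂ ≤ m)
    (hρ0 : 0 ≤ ρ) (hρ : 2 ^ (3 * m + 25 * g + 32) * ρ ≤ 1) {ι₁ ι₂ δ pb : ℝ} (hδ : 0 < δ)
    (hb : P.ex (fun ω => Law.ind (¬ δ ≤ avG P D Θ W e (chiK Sf Tf (q2 (7 * g + 1)) (q2 (4 * g))) ω))
      ≤ pb)
    (h1 : mi P (fun ω => e (D ω) (W ω)) E (fun ω => (D ω, Θ ω)) ≤ ι₁) (h2 : mi P Θ W D ≤ ι₂) :
    (3 * p₁ + 2 * p₂) * Real.log 2 - (18 + 4 * m * pb +
      2 ^ (57 * g) / δ * (Real.sqrt ι₁ + Real.sqrt ι₂)) ≤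
    hc P (fun ω => lbk 1 1 (X ω) (M ω))
      (fun ω => (lbk (2 ^ p₁) (2 ^ p₂) (X ω) (M ω), (D ω, Θ ω))) := by
  classical
  have hN := numKK hm hmg
  set R : ℕ := 2 ^ (m + 7 * g + 7) with hRdef
  set R₃ : ℕ := 2 ^ (2 * m + 18 * g + 18) with hR3def
  have hp1' : (1 : ℝ) ≤ 2 ^ p₁ := one_le_pow₀ (by norm_num)
  have hp2' : (1 : ℝ) ≤ 2 ^ p₂ := one_le_pow₀ (by norm_num)
  obtain ⟨er, her0, her, hpt⟩ := satK_pt P geo (q2 (7 * g + 1)) (q2 (4 * g)) (2 ^ m) (2 ^ p₁)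
    (2 ^ p₂) R R₃
    (q2_pos _) (q2_one _) (q2_pos _) hp1' hp2' (pow_le_pow_right₀ (by norm_num) hp1)
    (pow_le_pow_right₀ (by norm_num) hp2) hN.r1 hN.r3 hρ0
    ((mul_le_mul_of_nonneg_right hN.rr hρ0).trans hρ) hN.R1 hN.R31
  rw [hc_cond_ex P _ _ (fun ω => (D ω, Θ ω))]
  rw [Real.log_pow, Real.log_pow] at hpt
  have hl2 : Real.log 2 ≤ 7 / 10 := by
    have := Real.log_two_lt_d9
    linarith
  have hl20 : 0 < Real.log 2 := Real.log_pos (by norm_num)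
  have hm0 : (1 : ℝ) ≤ m := by exact_mod_cast hm
  have hp1r : (p₁ : ℝ) ≤ m := by exact_mod_cast hp1
  have hp2r : (p₂ : ℝ) ≤ m := by exact_mod_cast hp2
  have e1 : 3 * ((p₁ : ℝ) * Real.log 2) + 2 * (p₂ * Real.log 2) =
      (3 * p₁ + 2 * p₂) * Real.log 2 := by ring
  rw [e1] at hpt
  have hF1 : (3 * (p₁ : ℝ) + 2 * p₂) * Real.log 2 ≤ 4 * m := by
    have : (3 * (p₁ : ℝ) + 2 * p₂) * Real.log 2 ≤ (5 * m) * (7 / 10) :=
      mul_le_mul (by linarith) hl2 hl20.le (by positivity)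
    linarith
  have hpoint : ∀ ω, 0 < P.w ω → (3 * (p₁ : ℝ) + 2 * p₂) * Real.log 2 - 18 -
      4 * m * Law.ind (¬ δ ≤ avG P D Θ W e (chiK Sf Tf (q2 (7 * g + 1)) (q2 (4 * g))) ω) -
      (3 * (R : ℝ) + 4 * R₃) * (1 + 3 * Real.log R + Real.log R₃) / δ * er ω ≤
      hc (P.cond (fun ω => (D ω, Θ ω)) (D ω, Θ ω)) (fun ω => lbk 1 1 (X ω) (M ω))
        (fun ω => lbk (2 ^ p₁) (2 ^ p₂) (X ω) (M ω)) := fun ω hω =>
    wpt hδ hN.nn (her0 ω) (hc_nonneg _ _ _) hF1 (by linarith)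
      ⟨fun h => Law.ind_not (not_not.2 h), fun h => Law.ind_of h⟩ (hpt ω hω)
  refine le_trans ?_ (P.ex_mono hpoint)
  rw [P.ex_sub, P.ex_sub, P.ex_const_mul, P.ex_const_mul, P.ex_const]
  have h8 : (3 * (R : ℝ) + 4 * R₃) * (1 + 3 * Real.log R + Real.log R₃) / δ * P.ex er ≤
      2 ^ (57 * g) / δ * (Real.sqrt ι₁ + Real.sqrt ι₂) := by
    have e3 := (mul_le_mul_of_nonneg_left her hN.nn).trans (errK hN.nn hN.n h1 h2)
    rw [div_mul_eq_mul_div, div_mul_eq_mul_div]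
    exact div_le_div_of_nonneg_right e3 hδ.le
  have h9 := mul_le_mul_of_nonneg_left hb (by positivity : 0 ≤ 4 * (m : ℝ))
  linarith

end steps

end Vale.Agent.P106.H25
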