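import Vale.Agent.P106.H25.SatKD
import Vale.Agent.P106.U.H466.GeoL
import Vale.Agent.P106.U.MIC.Props

/-!
# P106 / H25 : **PSatKap**, the N-step in the deep kappa regime over the cells (helper466's geometry)

`psatKap` : `PSatKap` with the hypotheses `f ≤ j` at a time step and `rk i + b < rf i`.
-/

set_option autoImplicit false

namespace Vale.Agent.P106.H25

open Finset Vale.Agent.P127 Vale.Agent.P127.Stk Vale.Agent.P127.U.Mic
open Vale.Agent.P127.U.CellD (q2 rd q2_pos q2_add q2_le rd_le lt_rd rd_err rd_mono rd_sub fl1_fl1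
  q2_mul_pow div_pow_eq)
open Vale.Agent.P106.TV
open Vale.Agent.P106.U.Cell Vale.Agent.P106.U.H84
open Vale.Agent.P106.U.H466 (Ctx Rep tol TT exists_rep)
open Vale.Agent.P106.U.MIC
open Vale.Agent.P106.U.H683 (Dp)

variable {Ω τ : Type} {C : Pth Ω τ}

/-- helper466's chain in the form `ChainK` -/
theorem chainK {S : Ω → Prop} {K : ℝ} {f j js i b bb p : ℕ} {dr tr : Ω → Ω}
    (H : Ctx C S K f j js i b bb p) (hdr : Rep S (C.cell j b) dr)
    (htr : Rep S (fun ω => (C.cell j b ω, C.T i ω)) tr) :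
    ChainK C S f j i b bb p dr tr (tol K C p) := by
  intro a a₁ a₂ a₃ a₄ c pa p1 p2 p3 p4 pc d1 d2 d3 d4 dc _ _ t4 _ e1 w1 e2 w2 e3
  have h := H.stp hdr htr pa p1 p2 p3 p4 pc d1 d2 d3 d4 dc t4 e1 w1 e2 w2 e3
  have x1 : U.H466.eD b bb p (C.cell j b a) (C.cell j bb a₁) = dirD C b p a₁ := by
    rw [U.H466.eD_eq C H.bbp]
    unfold dirD U.H466.vb rd
    rw [cell_fl d1]
  have x4 : U.H466.eD b bb p (C.cell j b a) (C.cell j bb a₄) = dirD C b p a₄ := by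
    rw [U.H466.eD_eq C H.bbp]
    unfold dirD U.H466.vb rd
    rw [cell_fl d4]
  rw [x1, x4] at h
  refine ⟨h.V, h.Z, ?_, ?_⟩
  · refine le_trans (le_of_eq ?_) h.E
    congr 1
    ring
  · refine le_trans (le_of_eq ?_) h.M
    congr 1
    ring

/-- the constant of the labels -/
lemma nK_log (c0 : ℕ) : 5 * Real.log ((2 * nK (9 * ((2 : ℝ) ^ c0) ^ 7) + 3 : ℕ) : ℝ) ≤
    400 + 750 * c0 := by
  have h0 : (0 : ℝ) ≤ 7000 * (9 * ((2 : ℝ) ^ c0) ^ 7) ^ 30 := by positivity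
  have h1 : (nK (9 * ((2 : ℝ) ^ c0) ^ 7) : ℝ) < 7000 * (9 * ((2 : ℝ) ^ c0) ^ 7) ^ 30 + 1 :=
    Nat.ceil_lt_add_one h0
  have e1 : (9 * ((2 : ℝ) ^ c0) ^ 7) ^ 30 = 9 ^ 30 * 2 ^ (210 * c0) := by
    rw [mul_pow, ← pow_mul, ← pow_mul]
    congr 2
    omega
  have e2 : (7000 : ℝ) * 9 ^ 30 ≤ 2 ^ 109 := by norm_num
  have h2 : (7000 : ℝ) * (9 * ((2 : ℝ) ^ c0) ^ 7) ^ 30 ≤ 2 ^ (109 + 210 * c0) := by
    rw [e1, ← mul_assoc, pow_add]
    exact mul_le_mul_of_nonneg_right e2 (by positivity)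
  have h3 : (1 : ℝ) ≤ 2 ^ (109 + 210 * c0) := one_le_pow₀ (by norm_num)
  have h4 : ((2 * nK (9 * ((2 : ℝ) ^ c0) ^ 7) + 3 : ℕ) : ℝ) ≤ 2 ^ (112 + 210 * c0) := by
    push_cast
    have e3 : (2 : ℝ) ^ (112 + 210 * c0) = 8 * 2 ^ (109 + 210 * c0) := by
      rw [show 112 + 210 * c0 = 3 + (109 + 210 * c0) by ring, pow_add 2 3]; norm_num
    rw [e3]
    linarith
  have h5 : Real.log ((2 * nK (9 * ((2 : ℝ) ^ c0) ^ 7) + 3 : ℕ) : ℝ) ≤
      (112 + 210 * c0 : ℕ) * Real.log 2 := by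
    rw [← Real.log_pow]
    exact Real.log_le_log (by positivity) h4
  have h6 : Real.log 2 ≤ 7 / 10 := by have := Real.log_two_lt_d9; linarith
  have h7 : ((112 + 210 * c0 : ℕ) : ℝ) * Real.log 2 ≤ (112 + 210 * c0 : ℕ) * (7 / 10) :=
    mul_le_mul_of_nonneg_left h6 (Nat.cast_nonneg _)
  push_cast at h5 h7
  push_cast
  have h8 : (0 : ℝ) ≤ c0 := Nat.cast_nonneg _
  linarith

lemma tol_le {K : ℝ} {c0 m g p : ℕ} (hK1 : 1 ≤ K) (hK : 2 * K ≤ 2 ^ c0) (hmg : m ≤ g)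
    (hμ : 200 * (g + c0 + 1) ≤ C.μ) (hp : C.μ ≤ p) :
    2 ^ (3 * m + 25 * (g + 3 * c0 + 3) + 32) * tol K C p ≤ 1 := by
  unfold tol
  have h1 : q2 p ≤ q2 C.μ := q2_le hp
  have h2 : q2 C.μ ≤ q2 (200 * (g + c0 + 1)) := q2_le hμ
  have h3 : K ^ 10 ≤ 2 ^ (10 * c0) := by
    have : K ≤ 2 ^ c0 := by linarith
    calc K ^ 10 ≤ (2 ^ c0) ^ 10 := pow_le_pow_left₀ (by linarith) this 10
      _ = _ := by rw [← pow_mul, mul_comm]
  have h4 : q2 C.μ ≤ q2 ((3 * m + 25 * (g + 3 * c0 + 3) + 32) + (10 * c0 + 17)) := q2_le (by omega)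
  have hq := q2_pos C.μ
  have hqp := q2_pos p
  calc 2 ^ (3 * m + 25 * (g + 3 * c0 + 3) + 32) * (40000 * K ^ 10 * (q2 p + q2 C.μ))
      ≤ 2 ^ (3 * m + 25 * (g + 3 * c0 + 3) + 32) * (40000 * 2 ^ (10 * c0) *
        (q2 C.μ + q2 C.μ)) := by gcongr
    _ = 2 ^ (3 * m + 25 * (g + 3 * c0 + 3) + 32) * (80000 * 2 ^ (10 * c0) * q2 C.μ) := by ring
    _ ≤ 2 ^ (3 * m + 25 * (g + 3 * c0 + 3) + 32) * (2 ^ 17 * 2 ^ (10 * c0) *
        q2 ((3 * m + 25 * (g + 3 * c0 + 3) + 32) + (10 * c0 + 17))) := by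
        gcongr
        norm_num
    _ = 1 := by
        rw [q2_add (3 * m + 25 * (g + 3 * c0 + 3) + 32) (10 * c0 + 17), q2_add (10 * c0) 17]
        have e1 := q2_mul_pow (3 * m + 25 * (g + 3 * c0 + 3) + 32)
        have e2 := q2_mul_pow (10 * c0)
        have e3 := q2_mul_pow 17
        calc _ = (2 ^ (3 * m + 25 * (g + 3 * c0 + 3) + 32) *
              q2 (3 * m + 25 * (g + 3 * c0 + 3) + 32)) * (2 ^ (10 * c0) * q2 (10 * c0)) *
              (2 ^ 17 * q2 17) := by ring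
          _ = 1 := by rw [e1, e2, e3]; norm_num

lemma rr_le {K : ℝ} {c0 g : ℕ} (hK1 : 1 ≤ K) (hK : 2 * K ≤ 2 ^ c0)
    (hμ : 200 * (g + c0 + 1) ≤ C.μ) : 8 * (12 * K ^ 5 * q2 C.μ ^ 7) ≤ q2 (2 * g) := by
  have h3 : K ^ 5 ≤ 2 ^ (5 * c0) := by
    have : K ≤ 2 ^ c0 := by linarith
    calc K ^ 5 ≤ (2 ^ c0) ^ 5 := pow_le_pow_left₀ (by linarith) this 5
      _ = _ := by rw [← pow_mul, mul_comm]
  have hq := q2_pos C.μ
  have hq1 : q2 C.μ ≤ 1 := Pth.q2_le_one _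
  have h4 : q2 C.μ ^ 7 ≤ q2 (2 * g + (5 * c0 + 7)) := by
    calc q2 C.μ ^ 7 ≤ q2 C.μ ^ 1 := pow_le_pow_of_le_one hq.le hq1 (by norm_num)
      _ = q2 C.μ := pow_one _
      _ ≤ _ := q2_le (by omega)
  calc 8 * (12 * K ^ 5 * q2 C.μ ^ 7) ≤ 8 * (12 * 2 ^ (5 * c0) * q2 (2 * g + (5 * c0 + 7))) := by
        gcongr
    _ = 96 * 2 ^ (5 * c0) * q2 (2 * g + (5 * c0 + 7)) := by ring
    _ ≤ 2 ^ 7 * 2 ^ (5 * c0) * q2 (2 * g + (5 * c0 + 7)) := by
        have := q2_pos (2 * g + (5 * c0 + 7))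
        gcongr
        norm_num
    _ = q2 (2 * g) := by
        rw [q2_add (2 * g) (5 * c0 + 7), q2_add (5 * c0) 7]
        have e2 := q2_mul_pow (5 * c0)
        have e3 := q2_mul_pow 7
        calc _ = q2 (2 * g) * (2 ^ (5 * c0) * q2 (5 * c0)) * (2 ^ 7 * q2 7) := by ring
          _ = _ := by rw [e2, e3]; ring

/-- **the N-step in the deep kappa regime** -/
theorem psatKap [Fintype Ω] (P : Law Ω) (C : Pth Ω τ) (K : ℝ) (c0 m g p b b' f j js i : ℕ) (ι₁ ι₂ : ℝ)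
    (H : Ctx C (fun ω => 0 < P.w ω) K f (j + 1) js i b b' p) (hA : Adv C m b j)
    (hK : 2 * K ≤ 2 ^ c0) (hm : 1 ≤ m) (hmg : m ≤ g) (hμ : 800 * (g + c0 + 1) ≤ C.μ) (hp : C.μ ≤ p)
    (hfr : C.a (j + 1) = C.a j + m → f ≤ j) (hki : ¬ C.rf i ≤ b + C.rk i)
    (h1 : mi P (fun ω => fl1 (b + p) (C.l ω).v) (C.cell i b)
      (fun ω => (C.cell (j + 1) b ω, C.T i ω)) ≤ ι₁)
    (h2 : mi P (C.T i) (C.cell (j + 1) b') (C.cell (j + 1) b) ≤ ι₂) :
    SatN P C b j i (wt C b j * Real.log 2 - (800 * (c0 + 1) + 800 * m * (cT P C b (j + 1) g +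
      cL P C b f (j + 1) i (2 * g) + cY P C b (j + 1) g) +
      (2 : ℝ) ^ (800 * (g + c0 + 1)) * (Real.sqrt ι₁ + Real.sqrt ι₂))) := by
  have hne : Nonempty Ω := by
    by_contra hcon
    rw [not_nonempty_iff] at hcon
    have := P.sum_one
    simp at this
  obtain ⟨dr, hdr⟩ := exists_rep (fun ω => 0 < P.w ω) (C.cell (j + 1) b)
  obtain ⟨tr, htr⟩ := exists_rep (fun ω => 0 < P.w ω) (fun ω => (C.cell (j + 1) b ω, C.T i ω))
  have hK1 := H.K1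
  have hb8 := H.b8
  have hRk := Ctx_Rk H
  obtain ⟨p₁, p₂, ha, hR, q1, q2', hwt, hf⟩ : ∃ p₁ p₂ : ℕ, C.a (j + 1) = C.a j + p₁ ∧
      C.R (j + 1) b = C.R j b + p₂ ∧ p₁ ≤ m ∧ p₂ ≤ m ∧
      wt C b j ≤ 3 * (p₁ : ℝ) + 2 * p₂ ∧ (f ≤ j ∨ C.a (j + 1) = C.a j) := by
    rcases hA with ⟨h3, h4⟩ | ⟨h3, h4⟩
    · refine ⟨m, 0, h3, by omega, le_rfl, by omega, ?_, Or.inl (hfr h3)⟩
      unfold wt
      rw [h3, h4]
      push_cast
      linarith
    · refine ⟨0, m, by omega, h4, by omega, le_rfl, ?_, Or.inr h3⟩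
      unfold wt
      rw [h3, h4]
      push_cast
      have : (0 : ℝ) ≤ m := Nat.cast_nonneg _
      linarith
  have L : LvK C K c0 m g p b f j p₁ p₂ (tol K C p) (12 * K ^ 5 * q2 C.μ ^ 7) :=
    { hK := hK
      m1 := hm
      mg := hmg
      gp := by omega
      gμ := by omega
      cμ := by omega
      a := ha
      R := hR
      q1 := q1
      q2' := q2'
      R2 := by omega
      fr := hf
      r0 := by
        unfold tol
        have := q2_pos p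
        have := q2_pos C.μ
        positivity
      r1 := tol_le hK1 hK hmg (by omega) hp
      r' := rr_le hK1 hK (by omega) }
  have main := satKC H L hdr htr (chainK H hdr htr) (fun ω hω => by
    have hv := htr.val ω hω
    have := H.TT_near hω (htr.mem ω hω) (Prod.mk.inj hv).1 (Prod.mk.inj hv).2
    refine this.trans (le_of_eq ?_)
    ring) (ι₁ := ι₁) (ι₂ := ι₂) (pw := cL P C b f (j + 1) i (2 * g)) le_rfl h1 h2
  refine SatN.of_T hki (le_trans ?_ main)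
  -- the numbers
  have hlog := nK_log c0
  have hl2 : 0 < Real.log 2 := Real.log_pos (by norm_num)
  have t1 : wt C b j * Real.log 2 ≤ (3 * (p₁ : ℝ) + 2 * p₂) * Real.log 2 :=
    mul_le_mul_of_nonneg_right hwt hl2.le
  have fnD : Fn P (C.cell (j + 1) b) (Dp C (j + 1) b) := fun _ _ _ _ e => congrArg Prod.fst e
  have t2 : colp P (fun ω => fl1 (C.a (j + 1) + g) (C.t ω)) (C.cell (j + 1) b) ≤
      cT P C b (j + 1) g := colp_mono_cond P _ fnD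
  have t3 : colp P (fun ω => fl1 (b + g) (C.l ω).v) (C.cell (j + 1) b) ≤ cY P C b (j + 1) g :=
    colp_mono_cond P _ fnD
  have n1 : 0 ≤ cT P C b (j + 1) g := colp_nonneg P _ _
  have n2 : 0 ≤ cY P C b (j + 1) g := colp_nonneg P _ _
  have n3 : 0 ≤ cL P C b f (j + 1) i (2 * g) :=
    Law.ex_nonneg _ fun _ _ => Law.ex_nonneg _ fun _ _ => Law.ex_nonneg _ fun _ _ => ind_nonneg _
  have m0 : (0 : ℝ) ≤ m := Nat.cast_nonneg _
  have c00 : (0 : ℝ) ≤ c0 := Nat.cast_nonneg _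
  have t4 : 32 * (m : ℝ) * (colp P (fun ω => fl1 (C.a (j + 1) + g) (C.t ω)) (C.cell (j + 1) b) +
      colp P (fun ω => fl1 (b + g) (C.l ω).v) (C.cell (j + 1) b) + cL P C b f (j + 1) i (2 * g)) ≤
      800 * m * (cT P C b (j + 1) g + cL P C b f (j + 1) i (2 * g) + cY P C b (j + 1) g) := by
    calc _ ≤ 32 * (m : ℝ) * (cT P C b (j + 1) g + cY P C b (j + 1) g +
          cL P C b f (j + 1) i (2 * g)) := by gcongr
      _ = 32 * (m * (cT P C b (j + 1) g + cL P C b f (j + 1) i (2 * g) + cY P C b (j + 1) g)) := by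
          ring
      _ ≤ 800 * (m * (cT P C b (j + 1) g + cL P C b f (j + 1) i (2 * g) +
          cY P C b (j + 1) g)) := by
          apply mul_le_mul_of_nonneg_right (by norm_num)
          positivity
      _ = _ := by ring
  have t5 : (2 : ℝ) ^ (57 * (g + 3 * c0 + 3)) * (Real.sqrt ι₁ + Real.sqrt ι₂) ≤
      2 ^ (800 * (g + c0 + 1)) * (Real.sqrt ι₁ + Real.sqrt ι₂) := by
    apply mul_le_mul_of_nonneg_right _ (by positivity)
    exact pow_le_pow_right₀ (by norm_num) (by omega)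
  linarith

end Vale.Agent.P106.H25
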