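import Vale.Agent.P106.H25.SatKN

/-!
# P106 / H25 : THE N-STEP, KAPPA REGIME, weak form with numbers

* `avG_low` : pointwise lower bound of the weight from the probability of a large area and the collisions of the directions.
* `satKW` : the time and the kappa of two copies span an area `≥ 2 q2 g` with conditional probability `≥ δ` only.
-/

set_option autoImplicit false

namespace Vale.Agent.P106.H25

open Finset Vale.Agent.P127 Vale.Agent.P127.Stk Vale.Agent.P127.U.Pin Vale.Agent.P127.U.Mic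
open Vale.Agent.P127.U.CellD Vale.Agent.P127.TV
open Vale.Agent.P106.TV Vale.Agent.P106.U.H683

variable {Ω : Type} [Fintype Ω] {S U V Z : Type*}

section low

variable (P : Law Ω) {D : Ω → U} {Θ : Ω → V} {W : Ω → S} {E : Ω → Z} {e : U → S → ℝ}
  {Sf Tf : U → V → V → ℝ}

/-- the area spanned by two copies -/
noncomputable def ar (D : Ω → U) (Θ : Ω → V) (Sf Tf : U → V → V → ℝ) (ω a b : Ω) : ℝ :=
  |Sf (D ω) (Θ ω) (Θ a) * Tf (D ω) (Θ ω) (Θ b) - Sf (D ω) (Θ ω) (Θ b) * Tf (D ω) (Θ ω) (Θ a)|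

lemma ar_symm (D : Ω → U) (Θ : Ω → V) (Sf Tf : U → V → V → ℝ) (ω a b : Ω) :
    ar D Θ Sf Tf ω a b = ar D Θ Sf Tf ω b a := by
  unfold ar
  rw [abs_sub_comm]

/-- pointwise lower bound of the weight -/
theorem avG_low {g : ℕ} (hg : 1 ≤ g) (y : Ω → ℤ)
    (hS1 : ∀ ω ω', 0 < P.w ω → 0 < P.w ω' → D ω' = D ω → |Sf (D ω) (Θ ω) (Θ ω')| ≤ 1)
    (hT1 : ∀ ω ω', 0 < P.w ω → 0 < P.w ω' → D ω' = D ω → |Tf (D ω) (Θ ω) (Θ ω')| ≤ 1)
    (he1 : ∀ ω ω', 0 < P.w ω → 0 < P.w ω' → D ω' = D ω → 0 ≤ e (D ω) (W ω') ∧ e (D ω) (W ω') ≤ 1)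
    (he : ∀ ω a b, 0 < P.w ω → 0 < P.w a → 0 < P.w b → D a = D ω → D b = D ω →
      ¬ |y a - y b| ≤ ((1 : ℕ) : ℤ) → q2 g ≤ |e (D ω) (W a) - e (D ω) (W b)|)
    {δ : ℝ} {ω : Ω} (hω : 0 < P.w ω) (hδ0 : 0 ≤ δ)
    (h1 : δ ≤ (P.cond D (D ω)).ex fun a => (P.cond D (D ω)).ex fun b =>
      Law.ind (2 * q2 g ≤ ar D Θ Sf Tf ω a b))
    (h2 : (P.cond D (D ω)).ex (fun a => (P.cond D (D ω)).ex fun b =>
      Law.ind (|y a - y b| ≤ ((1 : ℕ) : ℤ))) ≤ 1 / 6) :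
    δ / 4 ≤ avG P D Θ W e (chiK Sf Tf (q2 (7 * g + 1)) (q2 (4 * g))) ω := by
  classical
  set Q := P.cond D (D ω) with hQ
  have q0 := q2_pos g
  have q0' := q2_pos (2 * g)
  have q21 : q2 (2 * g) ≤ 2 * q2 g := by
    have : q2 (2 * g) ≤ q2 g := q2_le (by omega)
    linarith
  let A : Ω → Ω → ℝ := fun a b => Law.ind (q2 g ≤ |Sf (D ω) (Θ ω) (Θ a)| ∧
    2 * q2 g ≤ ar D Θ Sf Tf ω a b)
  let B : (Fin 3 → Ω) → ℝ := fun x => 1 - (Law.ind (|y (x 0) - y (x 1)| ≤ ((1 : ℕ) : ℤ)) +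
    Law.ind (|y (x 0) - y (x 2)| ≤ ((1 : ℕ) : ℤ)) + Law.ind (|y (x 1) - y (x 2)| ≤ ((1 : ℕ) : ℤ)))
  have hA0 : ∀ a b, 0 ≤ A a b := fun a b => ind_nonneg _
  have hA1 : ∀ a b, A a b ≤ 1 := fun a b => ind_le_one _
  have hsup : ∀ x, 0 < Q.w x → 0 < P.w x ∧ D x = D ω := fun x hx => by
    have := cond_supp P D (P.pr_pos D hω) hx
    exact ⟨this.2, this.1⟩
  -- the times and the kappas
  have hz : δ / 2 ≤ (cop Q (Fin 2)).ex fun z => A (z 0) (z 1) := by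
    have e1 : (cop Q (Fin 2)).ex (fun z => A (z 0) (z 1)) = Q.ex fun a => Q.ex fun b => A a b :=
      cop_ex2 Q (by decide) A
    have e2 : (cop Q (Fin 2)).ex (fun z => A (z 1) (z 0)) = Q.ex fun a => Q.ex fun b => A a b :=
      cop_ex2 Q (i := 1) (j := 0) (by decide) A
    have e3 : (cop Q (Fin 2)).ex (fun z => Law.ind (2 * q2 g ≤ ar D Θ Sf Tf ω (z 0) (z 1))) =
        Q.ex fun a => Q.ex fun b => Law.ind (2 * q2 g ≤ ar D Θ Sf Tf ω a b) :=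
      cop_ex2 Q (by decide) (fun a b => Law.ind (2 * q2 g ≤ ar D Θ Sf Tf ω a b))
    have h3 : (cop Q (Fin 2)).ex (fun z => Law.ind (2 * q2 g ≤ ar D Θ Sf Tf ω (z 0) (z 1))) ≤
        (cop Q (Fin 2)).ex (fun z => A (z 0) (z 1) + A (z 1) (z 0)) := by
      refine Law.ex_mono _ fun z pz => ?_
      obtain ⟨p0, d0⟩ := hsup _ (cop_supp pz 0)
      obtain ⟨p1, d1⟩ := hsup _ (cop_supp pz 1)
      by_cases hq : 2 * q2 g ≤ ar D Θ Sf Tf ω (z 0) (z 1)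
      · have t0 := hT1 ω _ hω p0 d0
        have t1 := hT1 ω _ hω p1 d1
        have hor : q2 g ≤ |Sf (D ω) (Θ ω) (Θ (z 0))| ∨ q2 g ≤ |Sf (D ω) (Θ ω) (Θ (z 1))| := by
          by_contra hcon
          push Not at hcon
          have h4 : ar D Θ Sf Tf ω (z 0) (z 1) ≤ |Sf (D ω) (Θ ω) (Θ (z 0))| +
              |Sf (D ω) (Θ ω) (Θ (z 1))| := by
            unfold ar
            refine (abs_sub _ _).trans (add_le_add ?_ ?_)
            · rw [abs_mul]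
              exact mul_le_of_le_one_right (abs_nonneg _) t1
            · rw [abs_mul]
              exact mul_le_of_le_one_right (abs_nonneg _) t0
          linarith [hcon.1, hcon.2]
        rw [Law.ind_of hq]
        rcases hor with h4 | h4
        · have e4 : A (z 0) (z 1) = 1 := Law.ind_of ⟨h4, hq⟩
          rw [e4]
          linarith [hA0 (z 1) (z 0)]
        · have e4 : A (z 1) (z 0) = 1 := Law.ind_of ⟨h4, by rw [ar_symm]; exact hq⟩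
          rw [e4]
          linarith [hA0 (z 0) (z 1)]
      · rw [Law.ind_not hq]
        linarith [hA0 (z 0) (z 1), hA0 (z 1) (z 0)]
    rw [Law.ex_add, e1, e2, e3] at h3
    rw [e1]
    linarith
  -- the directions
  have hy : 1 / 2 ≤ (cop Q (Fin 3)).ex B := by
    have f : ∀ i j : Fin 3, i ≠ j → (cop Q (Fin 3)).ex (fun x =>
        Law.ind (|y (x i) - y (x j)| ≤ ((1 : ℕ) : ℤ))) ≤ 1 / 6 := by
      intro i j hij
      have e1 := cop_ex2 Q hij (fun a b => Law.ind (|y a - y b| ≤ ((1 : ℕ) : ℤ)))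
      rw [e1]
      exact h2
    have e2 : (cop Q (Fin 3)).ex B = 1 - ((cop Q (Fin 3)).ex (fun x =>
        Law.ind (|y (x 0) - y (x 1)| ≤ ((1 : ℕ) : ℤ))) + (cop Q (Fin 3)).ex (fun x =>
        Law.ind (|y (x 0) - y (x 2)| ≤ ((1 : ℕ) : ℤ))) + (cop Q (Fin 3)).ex (fun x =>
        Law.ind (|y (x 1) - y (x 2)| ≤ ((1 : ℕ) : ℤ)))) := by
      simp only [B]
      rw [Law.ex_sub, Law.ex_const, Law.ex_add, Law.ex_add]
    rw [e2]
    have f1 := f 0 1 (by decide)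
    have f2 := f 0 2 (by decide)
    have f3 := f 1 2 (by decide)
    linarith
  -- the product
  have hprod : (cop Q (Fin 2)).ex (fun z => (cop Q (Fin 3)).ex fun x => A (z 0) (z 1) * B x) ≤
      avG P D Θ W e (chiK Sf Tf (q2 (7 * g + 1)) (q2 (4 * g))) ω := by
    unfold avG
    refine Law.ex_mono _ fun z pz => Law.ex_mono _ fun x px => ?_
    have sz := fun i => hsup _ (cop_supp pz i)
    have sx := fun i => hsup _ (cop_supp px i)
    by_cases ha : q2 g ≤ |Sf (D ω) (Θ ω) (Θ (z 0))| ∧ 2 * q2 g ≤ ar D Θ Sf Tf ω (z 0) (z 1)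
    swap
    · have e1 : A (z 0) (z 1) = 0 := Law.ind_not ha
      rw [e1, zero_mul]
      exact chiK_nonneg _ _ _ _ _ _ _ _
    have e1 : A (z 0) (z 1) = 1 := Law.ind_of ha
    rw [e1, one_mul]
    have n4 := ind_nonneg (|y (x 0) - y (x 1)| ≤ ((1 : ℕ) : ℤ))
    have n5 := ind_nonneg (|y (x 0) - y (x 2)| ≤ ((1 : ℕ) : ℤ))
    have n6 := ind_nonneg (|y (x 1) - y (x 2)| ≤ ((1 : ℕ) : ℤ))
    have hc := chiK_nonneg Sf Tf (q2 (7 * g + 1)) (q2 (4 * g)) (D ω) (Θ ω)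
      (fun i => Θ (z i)) (fun j => e (D ω) (W (x j)))
    by_cases g4 : |y (x 0) - y (x 1)| ≤ ((1 : ℕ) : ℤ)
    · refine le_trans ?_ hc
      simp only [B]
      rw [Law.ind_of g4]; linarith
    by_cases g5 : |y (x 0) - y (x 2)| ≤ ((1 : ℕ) : ℤ)
    · refine le_trans ?_ hc
      simp only [B]
      rw [Law.ind_of g5]; linarith
    by_cases g6 : |y (x 1) - y (x 2)| ≤ ((1 : ℕ) : ℤ)
    · refine le_trans ?_ hc
      simp only [B]
      rw [Law.ind_of g6]; linarith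
    have hB : B x ≤ 1 := by
      simp only [B]
      linarith
    refine hB.trans (le_of_eq ?_)
    unfold chiK
    rw [if_pos]
    obtain ⟨s0, gg⟩ := ha
    have gg' : q2 (2 * g) ≤ |Sf (D ω) (Θ ω) (Θ (z 0)) * Tf (D ω) (Θ ω) (Θ (z 1)) -
        Sf (D ω) (Θ ω) (Θ (z 1)) * Tf (D ω) (Θ ω) (Θ (z 0))| := q21.trans gg
    have x01 := he ω (x 0) (x 1) hω (sx 0).1 (sx 1).1 (sx 0).2 (sx 1).2 g4
    have x02 := he ω (x 0) (x 2) hω (sx 0).1 (sx 2).1 (sx 0).2 (sx 2).2 g5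
    have x12 := he ω (x 1) (x 2) hω (sx 1).1 (sx 2).1 (sx 1).2 (sx 2).2 g6
    refine ⟨fun k i => ?_, ?_, ?_⟩
    · exact FK_le (hS1 ω _ hω (sz _).1 (sz _).2) (hT1 ω _ hω (sz _).1 (sz _).2)
        (he1 ω _ hω (sx _).1 (sx _).2) (he1 ω _ hω (sx _).1 (sx _).2) i
    · rw [detK]
      rw [abs_div, abs_mul, abs_mul, abs_mul, abs_mul, abs_pow,
        abs_of_pos (by norm_num : (0 : ℝ) < 2), le_div_iff₀ (by norm_num)]
      have e1 : q2 (7 * g + 1) * 2 = q2 g ^ 2 * q2 g * q2 g * q2 g * q2 (2 * g) := by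
        have e2 : q2 g ^ 2 * q2 g * q2 g * q2 g * q2 (2 * g) = q2 g ^ 7 := by
          rw [← q2_pow g 2]; ring
        rw [e2, q2_pow, q2_add, mul_assoc]
        have : q2 1 * 2 = 1 := by unfold q2; norm_num
        rw [this, mul_one]
      rw [e1]
      gcongr
    · rw [comK, abs_mul, abs_pow]
      have e1 : q2 (4 * g) = q2 g ^ 2 * q2 (2 * g) := by
        rw [← q2_pow g 2, ← q2_pow g 4]; ring
      rw [e1]
      gcongr
  have e5 : (cop Q (Fin 2)).ex (fun z => (cop Q (Fin 3)).ex fun x => A (z 0) (z 1) * B x) =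
      (cop Q (Fin 2)).ex (fun z => A (z 0) (z 1)) * (cop Q (Fin 3)).ex B := by
    have e6 : ∀ z : Fin 2 → Ω, (cop Q (Fin 3)).ex (fun x => A (z 0) (z 1) * B x) =
        (cop Q (Fin 3)).ex B * A (z 0) (z 1) := fun z => by rw [Law.ex_const_mul, mul_comm]
    simp only [e6]
    rw [Law.ex_const_mul, mul_comm]
  rw [e5] at hprod
  refine le_trans ?_ hprod
  calc δ / 4 = δ / 2 * (1 / 2) := by ring
    _ ≤ _ := mul_le_mul hz hy (by norm_num) ((by linarith : (0 : ℝ) ≤ δ / 2).trans hz)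

/-- **THE N-STEP, KAPPA REGIME**, weak form with numbers -/
theorem satKW {X : Ω → Fin 3 → ℝ} {M : Ω → ℝ} {ρ : ℝ}
    (geo : GeoR P D Θ W E e (RK X M Sf Tf ρ)) {g m p₁ p₂ : ℕ} (hm : 1 ≤ m)
    (hmg : m ≤ g) (hp1 : p₁ ≤ m) (hp2 : p₂ ≤ m) (y : Ω → ℤ)
    (hS1 : ∀ ω ω', 0 < P.w ω → 0 < P.w ω' → D ω' = D ω → |Sf (D ω) (Θ ω) (Θ ω')| ≤ 1)
    (hT1 : ∀ ω ω', 0 < P.w ω → 0 < P.w ω' → D ω' = D ω → |Tf (D ω) (Θ ω) (Θ ω')| ≤ 1)
    (he1 : ∀ ω ω', 0 < P.w ω → 0 < P.w ω' → D ω' = D ω → 0 ≤ e (D ω) (W ω') ∧ e (D ω) (W ω') ≤ 1)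
    (he : ∀ ω a b, 0 < P.w ω → 0 < P.w a → 0 < P.w b → D a = D ω → D b = D ω →
      ¬ |y a - y b| ≤ ((1 : ℕ) : ℤ) → q2 g ≤ |e (D ω) (W a) - e (D ω) (W b)|)
    (hρ0 : 0 ≤ ρ) (hρ : 2 ^ (3 * m + 25 * g + 32) * ρ ≤ 1) {ι₁ ι₂ δ pw : ℝ} (hδ : 0 < δ)
    (hw : P.ex (fun ω => Law.ind (¬ δ ≤ (P.cond D (D ω)).ex fun a => (P.cond D (D ω)).ex fun b =>
      Law.ind (2 * q2 g ≤ ar D Θ Sf Tf ω a b))) ≤ pw)
    (h1 : mi P (fun ω => e (D ω) (W ω)) E (fun ω => (D ω, Θ ω)) ≤ ι₁) (h2 : mi P Θ W D ≤ ι₂) :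
    (3 * p₁ + 2 * p₂) * Real.log 2 - (18 + 4 * m * (pw + 18 * colp P y D) +
      2 ^ (57 * g) * 4 / δ * (Real.sqrt ι₁ + Real.sqrt ι₂)) ≤
    hc P (fun ω => lbk 1 1 (X ω) (M ω))
      (fun ω => (lbk (2 ^ p₁) (2 ^ p₂) (X ω) (M ω), (D ω, Θ ω))) := by
  classical
  obtain ⟨N, hN⟩ : ∃ N : Ω → ℝ, N = fun ω => (P.cond D (D ω)).ex (fun a =>
      (P.cond D (D ω)).ex fun b => Law.ind (|y a - y b| ≤ ((1 : ℕ) : ℤ))) := ⟨_, rfl⟩
  obtain ⟨F, hF⟩ : ∃ F : Ω → ℝ, F = fun ω => (P.cond D (D ω)).ex (fun a =>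
      (P.cond D (D ω)).ex fun b => Law.ind (2 * q2 g ≤ ar D Θ Sf Tf ω a b)) := ⟨_, rfl⟩
  obtain ⟨G, hG⟩ : ∃ G : Ω → ℝ, G =
      avG P D Θ W e (chiK Sf Tf (q2 (7 * g + 1)) (q2 (4 * g))) := ⟨_, rfl⟩
  have hw' : P.ex (fun ω => Law.ind (¬ δ ≤ F ω)) ≤ pw := by rw [hF]; exact hw
  have hb : P.ex (fun ω => Law.ind (¬ δ / 4 ≤ G ω)) ≤ pw + 18 * colp P y D := by
    have hav : P.ex N ≤ 3 * colp P y D := by
      have := av2_near P D y 1
      rw [← av_shift P D (fun a b => Law.ind (|y a - y b| ≤ ((1 : ℕ) : ℤ)))] at this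
      rw [hN]
      refine this.trans (le_of_eq ?_)
      norm_num
    have hN0 : ∀ ω, 0 ≤ N ω := fun ω => by
      rw [hN]
      exact Law.ex_nonneg _ fun _ _ => Law.ex_nonneg _ fun _ _ => ind_nonneg _
    have hpt : P.ex (fun ω => Law.ind (¬ δ / 4 ≤ G ω)) ≤
        P.ex (fun ω => Law.ind (¬ δ ≤ F ω) + 6 * N ω) := by
      refine P.ex_mono fun ω hω => ?_
      by_cases k1 : δ ≤ F ω
      · by_cases k2 : N ω ≤ 1 / 6
        · have h3 : δ / 4 ≤ G ω := by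
            rw [hG]
            exact avG_low P (by omega : 1 ≤ g) y hS1 hT1 he1 he hω hδ.le
              (by rw [hF] at k1; exact k1) (by rw [hN] at k2; exact k2)
          rw [Law.ind_not (not_not.2 h3), Law.ind_not (not_not.2 k1)]
          linarith [hN0 ω]
        · push Not at k2
          have a1 := ind_le_one (¬ δ / 4 ≤ G ω)
          have a2 := ind_nonneg (¬ δ ≤ F ω)
          linarith
      · have a1 := ind_le_one (¬ δ / 4 ≤ G ω)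
        rw [Law.ind_of k1]
        linarith [hN0 ω]
    rw [Law.ex_add, Law.ex_const_mul] at hpt
    linarith
  rw [hG] at hb
  have main := satK_weak P geo hm hmg hp1 hp2 hρ0 hρ (by linarith : (0 : ℝ) < δ / 4) hb h1 h2
  refine le_trans (le_of_eq ?_) main
  have : (2 : ℝ) ^ (57 * g) / (δ / 4) = 2 ^ (57 * g) * 4 / δ := by field_simp
  rw [this]

end low

end Vale.Agent.P106.H25
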