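import Vale.Agent.P106.H25.PKap
import Vale.Agent.P106.H25.SatKW

/-!
# P106 / H25 : **PSatKapW**, weak form of the N-step in the deep kappa regime over the cells
-/

set_option autoImplicit false

namespace Vale.Agent.P106.H25

open Finset Vale.Agent.P127 Vale.Agent.P127.Stk Vale.Agent.P127.U.Mic
open Vale.Agent.P127.U.CellD (q2 rd q2_pos q2_add q2_le rd_le lt_rd rd_err rd_mono rd_sub fl1_fl1
  q2_mul_pow div_pow_eq)
open Vale.Agent.P106.TV
open Vale.Agent.P106.U.Cell Vale.Agent.P106.U.H84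
open Vale.Agent.P106.U.H466 (Ctx Rep tol TT exists_rep)
open Vale.Agent.P106.U.MIC
open Vale.Agent.P106.U.H683 (Dp)

variable {Ω τ : Type} [Fintype Ω] {C : Pth Ω τ}

section lv

variable {P : Law Ω} {K : ℝ} {c0 m g p b bb f j js i p₁ p₂ : ℕ} {r r' : ℝ} {dr tr : Ω → Ω}

/-- scaled area of two copies against the area of `MIC.Props` -/
theorem area_cell (H : Ctx C (fun ω => 0 < P.w ω) K f (j + 1) js i b bb p)
    (hK : 2 * K ≤ 2 ^ c0) (hr' : 8 * r' ≤ q2 (2 * g))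
    (htr : Rep (fun ω => 0 < P.w ω) (fun ω => (C.cell (j + 1) b ω, C.T i ω)) tr)
    (htt : ∀ ω, 0 < P.w ω → |TT C f i (tr ω) - TT C f i ω| ≤ r' * q2 (C.rk (j + 1)))
    {ω a a' : Ω} (hω : 0 < P.w ω) (pa : 0 < P.w a) (pa' : 0 < P.w a')
    (da : C.cell (j + 1) b a = C.cell (j + 1) b ω) (da' : C.cell (j + 1) b a' = C.cell (j + 1) b ω)
    (hq : q2 (2 * g) ≤
      |uS C (j + 1) i ω a * uT C f (j + 1) i ω a' - uS C (j + 1) i ω a' * uT C f (j + 1) i ω a|) :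
    q2 (2 * g + 1 + (3 * c0 + 2)) ≤
      |Sv C (j + 1) i (C.cell (j + 1) b ω) (C.T i ω) (C.T i a) *
        Tf C (3 * c0 + 2) f (j + 1) i b tr (C.cell (j + 1) b ω) (C.T i ω) (C.T i a') -
      Sv C (j + 1) i (C.cell (j + 1) b ω) (C.T i ω) (C.T i a') *
        Tf C (3 * c0 + 2) f (j + 1) i b tr (C.cell (j + 1) b ω) (C.T i ω) (C.T i a)| := by
  have hji : j + 1 ≤ i := H.jjs.trans H.jsi
  have hp0 : (0 : ℝ) < 2 ^ C.a (j + 1) := by positivity
  have hSle : ∀ ω', C.cell (j + 1) b ω' = C.cell (j + 1) b ω →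
      |2 ^ C.a (j + 1) * (C.s i ω' - C.s i ω)| ≤ 1 := by
    intro ω' hD
    rw [abs_mul, abs_of_pos hp0]
    calc _ ≤ 2 ^ C.a (j + 1) * q2 (C.a (j + 1)) := mul_le_mul_of_nonneg_left (s_cell hji hD) hp0.le
      _ = 1 := q2_mul_pow _
  have hTd : ∀ x, 0 < P.w x → |2 ^ C.rk (j + 1) * (TT C f i (tr x) - TT C f i (tr ω)) -
      2 ^ C.rk (j + 1) * (TT C f i x - TT C f i ω)| ≤ 2 * r' := by
    intro x hx
    have hrp : (0 : ℝ) < 2 ^ C.rk (j + 1) := by positivity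
    have e : 2 ^ C.rk (j + 1) * (TT C f i (tr x) - TT C f i (tr ω)) -
      2 ^ C.rk (j + 1) * (TT C f i x - TT C f i ω) =
      2 ^ C.rk (j + 1) * ((TT C f i (tr x) - TT C f i x) - (TT C f i (tr ω) - TT C f i ω)) := by
      ring
    rw [e, abs_mul, abs_of_pos hrp]
    calc _ ≤ 2 ^ C.rk (j + 1) * (r' * q2 (C.rk (j + 1)) + r' * q2 (C.rk (j + 1))) :=
          mul_le_mul_of_nonneg_left (subb (htt x hx) (htt ω hω)) hrp.le
      _ = 2 * r' * (2 ^ C.rk (j + 1) * q2 (C.rk (j + 1))) := by ring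
      _ = 2 * r' := by rw [q2_mul_pow, mul_one]
  have hT1 := (Tf_le H hK htr hω pa da).1
  have hT2 := (Tf_le H hK htr hω pa' da').1
  have har := area (c := 3 * c0 + 2) (hSle a da) (hSle a' da') (hTd a pa) (hTd a' pa') hr' hq
  rw [Sv_eq, Sv_eq, hT1, hT2]
  exact har

/-- **THE N-STEP, KAPPA REGIME, over the cells**, weak form -/
theorem satKCw (H : Ctx C (fun ω => 0 < P.w ω) K f (j + 1) js i b bb p)
    (L : LvK C K c0 m g p b f j p₁ p₂ r r')
    (hr1 : 2 ^ (3 * m + 25 * (2 * g + 3 * c0 + 4) + 32) * r ≤ 1)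
    (hdr : Rep (fun ω => 0 < P.w ω) (C.cell (j + 1) b) dr)
    (htr : Rep (fun ω => 0 < P.w ω) (fun ω => (C.cell (j + 1) b ω, C.T i ω)) tr)
    (hch : ChainK C (fun ω => 0 < P.w ω) f (j + 1) i b bb p dr tr r)
    (htt : ∀ ω, 0 < P.w ω → |TT C f i (tr ω) - TT C f i ω| ≤ r' * q2 (C.rk (j + 1)))
    {ι₁ ι₂ : ℝ}
    (h1 : mi P (fun ω => fl1 (b + p) (C.l ω).v) (C.cell i b)
      (fun ω => (C.cell (j + 1) b ω, C.T i ω)) ≤ ι₁)
    (h2 : mi P (C.T i) (C.cell (j + 1) bb) (C.cell (j + 1) b) ≤ ι₂) :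
    (3 * p₁ + 2 * p₂) * Real.log 2 - (18 + 4 * m * (cW P C b f (j + 1) i (2 * g) +
      18 * colp P (fun ω => fl1 (b + g) (C.l ω).v) (C.cell (j + 1) b)) +
      2 ^ (57 * (2 * g + 3 * c0 + 4)) * 4 / q2 (2 * g) * (Real.sqrt ι₁ + Real.sqrt ι₂) +
      5 * Real.log ((2 * nK (9 * ((2 : ℝ) ^ c0) ^ 7) + 3 : ℕ) : ℝ)) ≤
    hc P (C.A (j + 1) b i) (fun ω => (C.A j b i ω, (C.cell (j + 1) b ω, C.T i ω))) := by
  classical
  have hji : j + 1 ≤ i := H.jjs.trans H.jsi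
  have hlab := lab (labD H L hdr htr)
  have geo := geoR_of_chain (c := 3 * c0 + 2) H.bbp htr hch
  have hp0 : (0 : ℝ) < 2 ^ C.a (j + 1) := by positivity
  have hqg : q2 (2 * g + 3 * c0 + 4) ≤ q2 g := q2_le (by omega)
  have main := satKW P geo (g := 2 * g + 3 * c0 + 4) (m := m) (p₁ := p₁) (p₂ := p₂) L.m1
    (L.mg.trans (by omega)) L.q1 L.q2' (fun ω => fl1 (b + g) (C.l ω).v) ?_ ?_ ?_ ?_ L.r0 hr1
    (ι₁ := ι₁) (ι₂ := ι₂) (pw := cW P C b f (j + 1) i (2 * g)) (q2_pos (2 * g)) ?_ ?_ h2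
  · linarith
  · intro ω ω' _ _ hD
    rw [Sv_eq, abs_mul, abs_of_pos hp0]
    calc _ ≤ 2 ^ C.a (j + 1) * q2 (C.a (j + 1)) := mul_le_mul_of_nonneg_left (s_cell hji hD) hp0.le
      _ = 1 := q2_mul_pow _
  · intro ω ω' hω hω' hD
    exact (Tf_le H L.hK htr hω hω' hD).2
  · intro ω ω' _ _ hD
    rw [ev_eq H.bbp ω ω' hD]
    exact dir_mem b p ω'
  · intro ω a a' _ _ _ hDa hDb hne
    rw [ev_eq H.bbp ω a hDa, ev_eq H.bbp ω a' hDb]
    exact hqg.trans (dir_far L.gp (hDb.trans hDa.symm) hne)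
  · -- the areas
    unfold cW
    refine P.ex_mono fun ω hω => ?_
    have hle : (P.cond (C.cell (j + 1) b) (C.cell (j + 1) b ω)).ex (fun a =>
        (P.cond (C.cell (j + 1) b) (C.cell (j + 1) b ω)).ex fun a' => Law.ind (q2 (2 * g) ≤
          |uS C (j + 1) i ω a * uT C f (j + 1) i ω a' -
            uS C (j + 1) i ω a' * uT C f (j + 1) i ω a|)) ≤
        (P.cond (C.cell (j + 1) b) (C.cell (j + 1) b ω)).ex (fun a =>
        (P.cond (C.cell (j + 1) b) (C.cell (j + 1) b ω)).ex fun a' =>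
          Law.ind (2 * q2 (2 * g + 3 * c0 + 4) ≤
            ar (C.cell (j + 1) b) (C.T i) (Sv C (j + 1) i) (Tf C (3 * c0 + 2) f (j + 1) i b tr)
              ω a a')) := by
      refine Law.ex_mono _ fun a ha => ?_
      refine Law.ex_mono _ fun a' ha' => ?_
      obtain ⟨da, pa⟩ := Vale.Agent.P127.U.Pin.cond_supp P (C.cell (j + 1) b)
        (P.pr_pos (C.cell (j + 1) b) hω) ha
      obtain ⟨da', pa'⟩ := Vale.Agent.P127.U.Pin.cond_supp P (C.cell (j + 1) b)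
        (P.pr_pos (C.cell (j + 1) b) hω) ha'
      by_cases hq : q2 (2 * g) ≤
        |uS C (j + 1) i ω a * uT C f (j + 1) i ω a' - uS C (j + 1) i ω a' * uT C f (j + 1) i ω a|
      · have har := area_cell H L.hK L.r' htr htt hω pa pa' da da' hq
        have e : 2 * q2 (2 * g + 3 * c0 + 4) = q2 (2 * g + 1 + (3 * c0 + 2)) := by
          rw [show 2 * g + 3 * c0 + 4 = (2 * g + 1 + (3 * c0 + 2)) + 1 by ring, q2_add]
          have : q2 1 = 1 / 2 := by unfold q2; norm_num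
          rw [this]; ring
        have hfin : 2 * q2 (2 * g + 3 * c0 + 4) ≤ ar (C.cell (j + 1) b) (C.T i) (Sv C (j + 1) i)
            (Tf C (3 * c0 + 2) f (j + 1) i b tr) ω a a' := by
          rw [e]; exact har
        rw [Law.ind_of hfin]
        exact ind_le_one _
      · rw [Law.ind_not hq]
        exact ind_nonneg _
    by_cases hlt : (P.cond (C.cell (j + 1) b) (C.cell (j + 1) b ω)).ex (fun a =>
        (P.cond (C.cell (j + 1) b) (C.cell (j + 1) b ω)).ex fun a' => Law.ind (q2 (2 * g) ≤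
          |uS C (j + 1) i ω a * uT C f (j + 1) i ω a' -
            uS C (j + 1) i ω a' * uT C f (j + 1) i ω a|)) < q2 (2 * g)
    · rw [Law.ind_of hlt]
      exact ind_le_one _
    · have h3 := (not_lt.1 hlt).trans hle
      rw [Law.ind_not (not_not.2 h3)]
      exact ind_nonneg _
  · refine le_trans (mi_mono_left P _ ?_) h1
    intro ω ω' _ _ e
    simp only [Prod.mk.injEq] at e
    obtain ⟨e1, e2, -⟩ := e
    show ev C (j + 1) b bb p (C.cell (j + 1) b ω) (C.cell (j + 1) bb ω) =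
      ev C (j + 1) b bb p (C.cell (j + 1) b ω') (C.cell (j + 1) bb ω')
    rw [ev_eq H.bbp ω ω rfl, ev_eq H.bbp ω' ω' rfl]
    unfold dirD rd
    rw [e1, cell_fl e2]

end lv

lemma tol_le2 {K : ℝ} {c0 m g p : ℕ} (hK1 : 1 ≤ K) (hK : 2 * K ≤ 2 ^ c0) (hmg : m ≤ g)
    (hμ : 200 * (g + c0 + 1) ≤ C.μ) (hp : C.μ ≤ p) :
    2 ^ (3 * m + 25 * (2 * g + 3 * c0 + 4) + 32) * tol K C p ≤ 1 := by
  unfold tol
  have h1 : q2 p ≤ q2 C.μ := q2_le hp
  have h3 : K ^ 10 ≤ 2 ^ (10 * c0) := by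
    have : K ≤ 2 ^ c0 := by linarith
    calc K ^ 10 ≤ (2 ^ c0) ^ 10 := pow_le_pow_left₀ (by linarith) this 10
      _ = _ := by rw [← pow_mul, mul_comm]
  have h4 : q2 C.μ ≤ q2 ((3 * m + 25 * (2 * g + 3 * c0 + 4) + 32) + (10 * c0 + 17)) :=
    q2_le (by omega)
  have hq := q2_pos C.μ
  have hqp := q2_pos p
  calc 2 ^ (3 * m + 25 * (2 * g + 3 * c0 + 4) + 32) * (40000 * K ^ 10 * (q2 p + q2 C.μ))
      ≤ 2 ^ (3 * m + 25 * (2 * g + 3 * c0 + 4) + 32) * (40000 * 2 ^ (10 * c0) *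
        (q2 C.μ + q2 C.μ)) := by gcongr
    _ = 2 ^ (3 * m + 25 * (2 * g + 3 * c0 + 4) + 32) * (80000 * 2 ^ (10 * c0) * q2 C.μ) := by ring
    _ ≤ 2 ^ (3 * m + 25 * (2 * g + 3 * c0 + 4) + 32) * (2 ^ 17 * 2 ^ (10 * c0) *
        q2 ((3 * m + 25 * (2 * g + 3 * c0 + 4) + 32) + (10 * c0 + 17))) := by
        gcongr
        norm_num
    _ = 1 := by
        rw [q2_add (3 * m + 25 * (2 * g + 3 * c0 + 4) + 32) (10 * c0 + 17), q2_add (10 * c0) 17]
        have e1 := q2_mul_pow (3 * m + 25 * (2 * g + 3 * c0 + 4) + 32)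
        have e2 := q2_mul_pow (10 * c0)
        have e3 := q2_mul_pow 17
        calc _ = (2 ^ (3 * m + 25 * (2 * g + 3 * c0 + 4) + 32) *
              q2 (3 * m + 25 * (2 * g + 3 * c0 + 4) + 32)) * (2 ^ (10 * c0) * q2 (10 * c0)) *
              (2 ^ 17 * q2 17) := by ring
          _ = 1 := by rw [e1, e2, e3]; norm_num

/-- **the N-step in the deep kappa regime, weak form** -/
theorem psatKapW (P : Law Ω) (C : Pth Ω τ) (K : ℝ) (c0 m g p b b' f j js i : ℕ) (ι₁ ι₂ : ℝ)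
    (H : Ctx C (fun ω => 0 < P.w ω) K f (j + 1) js i b b' p) (hA : Adv C m b j)
    (hK : 2 * K ≤ 2 ^ c0) (hm : 1 ≤ m) (hmg : m ≤ g) (hμ : 800 * (g + c0 + 1) ≤ C.μ) (hp : C.μ ≤ p)
    (hfr : C.a (j + 1) = C.a j + m → f ≤ j) (hki : ¬ C.rf i ≤ b + C.rk i)
    (h1 : mi P (fun ω => fl1 (b + p) (C.l ω).v) (C.cell i b)
      (fun ω => (C.cell (j + 1) b ω, C.T i ω)) ≤ ι₁)
    (h2 : mi P (C.T i) (C.cell (j + 1) b') (C.cell (j + 1) b) ≤ ι₂) :
    SatN P C b j i (wt C b j * Real.log 2 - (800 * (c0 + 1) + 800 * m * (cT P C b (j + 1) g +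
      cW P C b f (j + 1) i (2 * g) + cY P C b (j + 1) g) +
      (2 : ℝ) ^ (800 * (g + c0 + 1)) * (Real.sqrt ι₁ + Real.sqrt ι₂))) := by
  have hne : Nonempty Ω := by
    by_contra hcon
    rw [not_nonempty_iff] at hcon
    have := P.sum_one
    simp at this
  obtain ⟨dr, hdr⟩ := exists_rep (fun ω => 0 < P.w ω) (C.cell (j + 1) b)
  obtain ⟨tr, htr⟩ := exists_rep (fun ω => 0 < P.w ω) (fun ω => (C.cell (j + 1) b ω, C.T i ω))
  have hK1 := H.K1
  have hb8 := H.b8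
  have hRk := Ctx_Rk H
  obtain ⟨p₁, p₂, ha, hR, q1, q2', hwt, hf⟩ : ∃ p₁ p₂ : ℕ, C.a (j + 1) = C.a j + p₁ ∧
      C.R (j + 1) b = C.R j b + p₂ ∧ p₁ ≤ m ∧ p₂ ≤ m ∧
      wt C b j ≤ 3 * (p₁ : ℝ) + 2 * p₂ ∧ (f ≤ j ∨ C.a (j + 1) = C.a j) := by
    rcases hA with ⟨h3, h4⟩ | ⟨h3, h4⟩
    · refine ⟨m, 0, h3, by omega, le_rfl, by omega, ?_, Or.inl (hfr h3)⟩
      unfold wt
      rw [h3, h4]
      push_cast
      linarith
    · refine ⟨0, m, by omega, h4, by omega, le_rfl, ?_, Or.inr h3⟩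
      unfold wt
      rw [h3, h4]
      push_cast
      have : (0 : ℝ) ≤ m := Nat.cast_nonneg _
      linarith
  have L : LvK C K c0 m g p b f j p₁ p₂ (tol K C p) (12 * K ^ 5 * q2 C.μ ^ 7) :=
    { hK := hK
      m1 := hm
      mg := hmg
      gp := by omega
      gμ := by omega
      cμ := by omega
      a := ha
      R := hR
      q1 := q1
      q2' := q2'
      R2 := by omega
      fr := hf
      r0 := by
        unfold tol
        have := q2_pos p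
        have := q2_pos C.μ
        positivity
      r1 := tol_le hK1 hK hmg (by omega) hp
      r' := rr_le hK1 hK (by omega) }
  have main := satKCw H L (tol_le2 hK1 hK hmg (by omega) hp) hdr htr (chainK H hdr htr)
    (fun ω hω => by
      have hv := htr.val ω hω
      have := H.TT_near hω (htr.mem ω hω) (Prod.mk.inj hv).1 (Prod.mk.inj hv).2
      refine this.trans (le_of_eq ?_)
      ring) h1 h2
  refine SatN.of_T hki (le_trans ?_ main)
  -- the numbers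
  have hlog := nK_log c0
  have hl2 : 0 < Real.log 2 := Real.log_pos (by norm_num)
  have t1 : wt C b j * Real.log 2 ≤ (3 * (p₁ : ℝ) + 2 * p₂) * Real.log 2 :=
    mul_le_mul_of_nonneg_right hwt hl2.le
  have fnD : Fn P (C.cell (j + 1) b) (Dp C (j + 1) b) := fun _ _ _ _ e => congrArg Prod.fst e
  have t3 : colp P (fun ω => fl1 (b + g) (C.l ω).v) (C.cell (j + 1) b) ≤ cY P C b (j + 1) g :=
    colp_mono_cond P _ fnD
  have n1 : 0 ≤ cT P C b (j + 1) g := colp_nonneg P _ _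
  have n2 : 0 ≤ cY P C b (j + 1) g := colp_nonneg P _ _
  have n3 : 0 ≤ cW P C b f (j + 1) i (2 * g) := Law.ex_nonneg _ fun _ _ => ind_nonneg _
  have m0 : (0 : ℝ) ≤ m := Nat.cast_nonneg _
  have c00 : (0 : ℝ) ≤ c0 := Nat.cast_nonneg _
  have t4 : 4 * (m : ℝ) * (cW P C b f (j + 1) i (2 * g) +
      18 * colp P (fun ω => fl1 (b + g) (C.l ω).v) (C.cell (j + 1) b)) ≤
      800 * m * (cT P C b (j + 1) g + cW P C b f (j + 1) i (2 * g) + cY P C b (j + 1) g) := by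
    calc _ ≤ 4 * (m : ℝ) * (cW P C b f (j + 1) i (2 * g) + 18 * cY P C b (j + 1) g) := by gcongr
      _ = m * (4 * cW P C b f (j + 1) i (2 * g) + 72 * cY P C b (j + 1) g) := by ring
      _ ≤ m * (800 * (cT P C b (j + 1) g + cW P C b f (j + 1) i (2 * g) + cY P C b (j + 1) g)) := by
          apply mul_le_mul_of_nonneg_left _ m0
          linarith
      _ = _ := by ring
  have t5 : (2 : ℝ) ^ (57 * (2 * g + 3 * c0 + 4)) * 4 / q2 (2 * g) *
      (Real.sqrt ι₁ + Real.sqrt ι₂) ≤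
      2 ^ (800 * (g + c0 + 1)) * (Real.sqrt ι₁ + Real.sqrt ι₂) := by
    apply mul_le_mul_of_nonneg_right _ (by positivity)
    rw [div_le_iff₀ (q2_pos _)]
    have e : (2 : ℝ) ^ (57 * (2 * g + 3 * c0 + 4)) * 4 =
        2 ^ (57 * (2 * g + 3 * c0 + 4) + 2 + 2 * g) * q2 (2 * g) := by
      rw [pow_add _ _ (2 * g), mul_assoc, q2_mul_pow, mul_one, pow_add]; norm_num
    rw [e]
    apply mul_le_mul_of_nonneg_right _ (q2_pos _).le
    exact pow_le_pow_right₀ (by norm_num) (by omega)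
  linarith

end Vale.Agent.P106.H25
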