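import Vale.Agent.P106.H25.SatL
import Vale.Agent.P106.TV.MStepR
import Vale.Agent.P106.U.H683.SatP

/-!
# P106 / H25 : THE N-STEP, KAPPA REGIME, abstract form

State at the virtual letter: `X = (V, Z, ε)`, `M` central.  One chain of `TV.MStepR` acts by the group element
`(FK S T x x', -S T (x - x')² / 2)`: `V += S (x - x')`, `Z += S (x² - x'²) / 2`, `ε -= T (x - x')`,
`M += ε (V_b - V_a) - S T (x - x')² / 2` (`S` = difference of the times, `T` = difference of the kappas, `x`, `x'` =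
the two directions).  Two such elements have the commutator `M += (x - x')² (S₁ T₂ - S₂ T₁)`.
-/

set_option autoImplicit false

namespace Vale.Agent.P106.H25

open Finset Vale.Agent.P127 Vale.Agent.P127.Stk Vale.Agent.P127.U.Pin Vale.Agent.P127.U.Mic
open Vale.Agent.P127.U.CellD Vale.Agent.P127.TV
open Vale.Agent.P106.TV Vale.Agent.P106.U.H683

variable {Ω : Type} [Fintype Ω] {S U V Z : Type*}

/-- the displacement of `(V, Z, ε)` -/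
noncomputable def FK (s k x x' : ℝ) : Fin 3 → ℝ :=
  ![s * (x - x'), s * (x ^ 2 - x' ^ 2) / 2, -(k * (x - x'))]

/-- the relation of one chain -/
def RK (X : Ω → Fin 3 → ℝ) (M : Ω → ℝ) (Sf Tf : U → V → V → ℝ) (ρ : ℝ) (d : U) (θ θ' : V)
    (x x' : ℝ) (a b : Ω) : Prop :=
  St X M (FK (Sf d θ θ') (Tf d θ θ') x x') (-(Sf d θ θ' * Tf d θ θ' * (x - x') ^ 2 / 2)) ρ ρ a b

/-- the three words -/
noncomputable def vK (Sf Tf : U → V → V → ℝ) (d : U) (θ : V) (θs : Fin 2 → V) (xs : Fin 3 → ℝ)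
    (k : Fin 3) : Fin 3 → ℝ :=
  FK (Sf d θ (θs (f3 k).1)) (Tf d θ (θs (f3 k).1)) (xs (f3 k).2.1) (xs (f3 k).2.2)

lemma FK_neg (s k x x' : ℝ) : FK s k x' x = fun i => - FK s k x x' i := by
  funext i
  fin_cases i
  · show s * (x' - x) = -(s * (x - x')); ring
  · show s * (x' ^ 2 - x ^ 2) / 2 = -(s * (x ^ 2 - x' ^ 2) / 2); ring
  · show -(k * (x' - x)) = - -(k * (x - x')); ring

lemma FK_le {s k x x' : ℝ} (hs : |s| ≤ 1) (hk : |k| ≤ 1) (hx : 0 ≤ x ∧ x ≤ 1)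
    (hx' : 0 ≤ x' ∧ x' ≤ 1) (i : Fin 3) : |FK s k x x' i| ≤ 1 := by
  have h1 : |x - x'| ≤ 1 := by rw [abs_le]; constructor <;> linarith [hx.1, hx.2, hx'.1, hx'.2]
  have h2 : |(x ^ 2 - x' ^ 2) / 2| ≤ 1 := by
    rw [abs_le]; constructor <;> nlinarith [hx.1, hx.2, hx'.1, hx'.2]
  fin_cases i
  · show |s * (x - x')| ≤ 1
    rw [abs_mul]
    exact mul_le_one₀ hs (abs_nonneg _) h1
  · show |s * (x ^ 2 - x' ^ 2) / 2| ≤ 1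
    rw [mul_div_assoc, abs_mul]
    exact mul_le_one₀ hs (abs_nonneg _) h2
  · show |-(k * (x - x'))| ≤ 1
    rw [abs_neg, abs_mul]
    exact mul_le_one₀ hk (abs_nonneg _) h1

lemma detK (Sf Tf : U → V → V → ℝ) (d : U) (θ : V) (θs : Fin 2 → V) (xs : Fin 3 → ℝ) :
    Matrix.det (Matrix.of (vK Sf Tf d θ θs xs)) =
      (xs 0 - xs 1) ^ 2 * (xs 0 - xs 2) * (xs 1 - xs 2) * Sf d θ (θs 0) *
        (Sf d θ (θs 0) * Tf d θ (θs 1) - Sf d θ (θs 1) * Tf d θ (θs 0)) / 2 := by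
  rw [Matrix.det_fin_three]
  simp only [Matrix.of_apply, vK, FK, f3]
  simp only [Matrix.cons_val_zero, Matrix.cons_val_one, Matrix.cons_val]
  ring

lemma comK (Sf Tf : U → V → V → ℝ) (d : U) (θ : V) (θs : Fin 2 → V) (xs : Fin 3 → ℝ) :
    vK Sf Tf d θ θs xs 2 0 * vK Sf Tf d θ θs xs 0 2 - vK Sf Tf d θ θs xs 0 0 *
      vK Sf Tf d θ θs xs 2 2 =
      (xs 0 - xs 1) ^ 2 * (Sf d θ (θs 0) * Tf d θ (θs 1) - Sf d θ (θs 1) * Tf d θ (θs 0)) := by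
  simp only [vK, FK, f3]
  simp only [Matrix.cons_val_zero, Matrix.cons_val_one, Matrix.cons_val]
  ring

/-- nondegenerate copies -/
def GoodK (Sf Tf : U → V → V → ℝ) (τ τ' : ℝ) (d : U) (θ : V) (θs : Fin 2 → V)
    (xs : Fin 3 → ℝ) : Prop :=
  (∀ k i, |vK Sf Tf d θ θs xs k i| ≤ 1) ∧ τ ≤ |Matrix.det (Matrix.of (vK Sf Tf d θ θs xs))| ∧
    τ' ≤ |vK Sf Tf d θ θs xs 2 0 * vK Sf Tf d θ θs xs 0 2 -
      vK Sf Tf d θ θs xs 0 0 * vK Sf Tf d θ θs xs 2 2|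

open Classical in
/-- the weight -/
noncomputable def chiK (Sf Tf : U → V → V → ℝ) (τ τ' : ℝ) (d : U) (θ : V) (θs : Fin 2 → V)
    (xs : Fin 3 → ℝ) : ℝ := if GoodK Sf Tf τ τ' d θ θs xs then 1 else 0

lemma chiK_nonneg (Sf Tf : U → V → V → ℝ) (τ τ' : ℝ) (d : U) (θ : V) (θs : Fin 2 → V)
    (xs : Fin 3 → ℝ) : 0 ≤ chiK Sf Tf τ τ' d θ θs xs := by
  unfold chiK; split_ifs <;> norm_num

lemma chiK_le (Sf Tf : U → V → V → ℝ) (τ τ' : ℝ) (d : U) (θ : V) (θs : Fin 2 → V)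
    (xs : Fin 3 → ℝ) : chiK Sf Tf τ τ' d θ θs xs ≤ 1 := by
  unfold chiK; split_ifs <;> norm_num

/-- the words and their inverses -/
def AK : Finset (Fin 2 × Fin 3 × Fin 3) :=
  {(0, 0, 1), (0, 0, 2), (1, 0, 1), (0, 1, 0), (0, 2, 0), (1, 1, 0)}

lemma AK_ne : ∀ p ∈ AK, p.2.1 ≠ p.2.2 := by decide

lemma AK_card : AK.card = 6 := by decide

lemma AK_mem (k : Fin 3) : f3 k ∈ AK ∧ ((f3 k).1, (f3 k).2.2, (f3 k).2.1) ∈ AK := by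
  fin_cases k <;> decide

/-- the hypothesis `hsat` of `mstepR` -/
theorem hsatK (P : Law Ω) {D : Ω → U} {Θ : Ω → V} {X : Ω → Fin 3 → ℝ} {M : Ω → ℝ}
    {Sf Tf : U → V → V → ℝ} {ρ : ℝ} (τ τ' L Lv Le : ℝ) (R R₃ : ℕ) (hτ : 0 < τ) (hτ1 : τ ≤ 1)
    (hτ' : 0 < τ') (hLv : 1 ≤ Lv) (hLe : 1 ≤ Le) (hLvL : Lv ≤ L) (hLeL : Le ≤ L)
    (hR : 36 * L ≤ R * τ) (hR3 : 10 * (R : ℝ) ^ 2 ≤ R₃ * τ') (hρ : 0 ≤ ρ)
    (hRρ : 100 * R * R₃ * ρ ≤ 1) (hR1 : 1 ≤ R) (hR31 : 1 ≤ R₃)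
    (d : U) (θ : V) (θs : Fin 2 → V) (xs : Fin 3 → ℝ) (hχ : 0 < chiK Sf Tf τ τ' d θ θs xs)
    (Q : Law Ω) (ε : Fin 2 × Fin 3 × Fin 3 → ℝ)
    (_ : ∀ ω, 0 < Q.w ω → 0 < P.w ω ∧ D ω = d ∧ Θ ω = θ) (hε : ∀ p, 0 ≤ ε p)
    (hA : ∀ p ∈ AK, SubC Q Q (RK X M Sf Tf ρ d θ (θs p.1) (xs p.2.1) (xs p.2.2)) (ε p)) :
    (3 * Real.log Lv + 2 * Real.log Le - 18) -
        ((3 * R + 4 * R₃) * (1 + 3 * Real.log R + Real.log R₃)) * ∑ p ∈ AK, ε p ≤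
      hc Q (fun ω => lbk 1 1 (X ω) (M ω)) (fun ω => lbk Lv Le (X ω) (M ω)) := by
  have hG : GoodK Sf Tf τ τ' d θ θs xs := by
    by_contra hcon
    unfold chiK at hχ
    rw [if_neg hcon] at hχ
    exact lt_irrefl _ hχ
  obtain ⟨h1, h2, h3⟩ := hG
  have hsum0 : 0 ≤ ∑ p ∈ AK, ε p := Finset.sum_nonneg fun p _ => hε p
  have hle : ∀ p ∈ AK, ε p ≤ ∑ p ∈ AK, ε p := fun p hp =>
    Finset.single_le_sum (f := ε) (fun q _ => hε q) hp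
  have main := satL Q X M (vK Sf Tf d θ θs xs) τ τ' L Lv Le ρ (∑ p ∈ AK, ε p) R R₃ h1 hτ hτ1 h2
    hτ' h3 hLv hLe hLvL hLeL hR hR3 hρ hRρ hsum0 ?_ ?_
  · refine le_trans (le_of_eq ?_) main
    ring
  · intro k
    refine (hA _ (AK_mem k).1).mono ?_ (hle _ (AK_mem k).1)
    intro a b hab
    have e : vK Sf Tf d θ θs xs k 0 * vK Sf Tf d θ θs xs k 2 / 2 =
        -(Sf d θ (θs (f3 k).1) * Tf d θ (θs (f3 k).1) * (xs (f3 k).2.1 - xs (f3 k).2.2) ^ 2 / 2) := by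
      show (Sf d θ (θs (f3 k).1) * (xs (f3 k).2.1 - xs (f3 k).2.2)) *
        (-(Tf d θ (θs (f3 k).1) * (xs (f3 k).2.1 - xs (f3 k).2.2))) / 2 = _
      ring
    rw [e]
    exact hab
  · intro k
    refine (hA _ (AK_mem k).2).mono ?_ (hle _ (AK_mem k).2)
    intro a b hab
    have e : vK Sf Tf d θ θs xs k 0 * vK Sf Tf d θ θs xs k 2 / 2 =
        -(Sf d θ (θs (f3 k).1) * Tf d θ (θs (f3 k).1) * (xs (f3 k).2.2 - xs (f3 k).2.1) ^ 2 / 2) := by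
      show (Sf d θ (θs (f3 k).1) * (xs (f3 k).2.1 - xs (f3 k).2.2)) *
        (-(Tf d θ (θs (f3 k).1) * (xs (f3 k).2.1 - xs (f3 k).2.2))) / 2 = _
      ring
    rw [e]
    have e2 : (fun i => - vK Sf Tf d θ θs xs k i) =
        FK (Sf d θ (θs (f3 k).1)) (Tf d θ (θs (f3 k).1)) (xs (f3 k).2.2) (xs (f3 k).2.1) :=
      (FK_neg _ _ _ _).symm
    rw [e2]
    exact hab

section steps

variable (P : Law Ω) {D : Ω → U} {Θ : Ω → V} {W : Ω → S} {E : Ω → Z} {e : U → S → ℝ}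
  {X : Ω → Fin 3 → ℝ} {M : Ω → ℝ} {Sf Tf : U → V → V → ℝ} {ρ : ℝ}

/-- **pointwise form** (for the weak nonatomicity: divide by `avG`) -/
theorem satK_pt (geo : GeoR P D Θ W E e (RK X M Sf Tf ρ)) (τ τ' L Lv Le : ℝ) (R R₃ : ℕ)
    (hτ : 0 < τ) (hτ1 : τ ≤ 1)
    (hτ' : 0 < τ') (hLv : 1 ≤ Lv) (hLe : 1 ≤ Le) (hLvL : Lv ≤ L) (hLeL : Le ≤ L)
    (hR : 36 * L ≤ R * τ) (hR3 : 10 * (R : ℝ) ^ 2 ≤ R₃ * τ') (hρ : 0 ≤ ρ)
    (hRρ : 100 * R * R₃ * ρ ≤ 1) (hR1 : 1 ≤ R) (hR31 : 1 ≤ R₃) :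
    ∃ er : Ω → ℝ, (∀ ω, 0 ≤ er ω) ∧
      P.ex er ≤ 6 * (8 * Real.sqrt (mi P (fun ω => e (D ω) (W ω)) E (fun ω => (D ω, Θ ω))) +
        64 * Real.sqrt (mi P Θ W D)) ∧
      ∀ ω, 0 < P.w ω →
        avG P D Θ W e (chiK Sf Tf τ τ') ω * (3 * Real.log Lv + 2 * Real.log Le - 18) -
          ((3 * R + 4 * R₃) * (1 + 3 * Real.log R + Real.log R₃)) * er ω ≤
        avG P D Θ W e (chiK Sf Tf τ τ') ω *
          hc (P.cond (fun ω => (D ω, Θ ω)) (D ω, Θ ω)) (fun ω => lbk 1 1 (X ω) (M ω))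
            (fun ω => lbk Lv Le (X ω) (M ω)) := by
  have hlR : 0 ≤ Real.log R := Real.log_nonneg (by exact_mod_cast hR1)
  have hlR3 : 0 ≤ Real.log R₃ := Real.log_nonneg (by exact_mod_cast hR31)
  have main := mstepR_pt P D Θ W E e (RK X M Sf Tf ρ) geo AK AK_ne (chiK Sf Tf τ τ')
    (chiK_nonneg Sf Tf τ τ') (chiK_le Sf Tf τ τ') (fun _ _ ω => lbk 1 1 (X ω) (M ω))
    (fun _ _ ω => lbk Lv Le (X ω) (M ω)) (3 * Real.log Lv + 2 * Real.log Le - 18)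
    ((3 * R + 4 * R₃) * (1 + 3 * Real.log R + Real.log R₃)) (by positivity)
    (fun d θ θs xs hχ Q ε hQ hε hA => hsatK P τ τ' L Lv Le R R₃ hτ hτ1 hτ' hLv hLe hLvL hLeL hR hR3
      hρ hRρ hR1 hR31 d θ θs xs hχ Q ε hQ hε hA)
  rw [AK_card] at main
  exact_mod_cast main

/-- averaged form -/
theorem satK_av (geo : GeoR P D Θ W E e (RK X M Sf Tf ρ)) (τ τ' L Lv Le : ℝ) (R R₃ : ℕ)
    (hτ : 0 < τ) (hτ1 : τ ≤ 1)
    (hτ' : 0 < τ') (hLv : 1 ≤ Lv) (hLe : 1 ≤ Le) (hLvL : Lv ≤ L) (hLeL : Le ≤ L)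
    (hR : 36 * L ≤ R * τ) (hR3 : 10 * (R : ℝ) ^ 2 ≤ R₃ * τ') (hρ : 0 ≤ ρ)
    (hRρ : 100 * R * R₃ * ρ ≤ 1) (hR1 : 1 ≤ R) (hR31 : 1 ≤ R₃) :
    P.ex (avG P D Θ W e (chiK Sf Tf τ τ')) * (3 * Real.log Lv + 2 * Real.log Le - 18) -
        ((3 * R + 4 * R₃) * (1 + 3 * Real.log R + Real.log R₃)) * (6 *
        (8 * Real.sqrt (mi P (fun ω => e (D ω) (W ω)) E (fun ω => (D ω, Θ ω))) +
        64 * Real.sqrt (mi P Θ W D))) ≤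
      hc P (fun ω => lbk 1 1 (X ω) (M ω)) (fun ω => (lbk Lv Le (X ω) (M ω), (D ω, Θ ω))) := by
  have hlR : 0 ≤ Real.log R := Real.log_nonneg (by exact_mod_cast hR1)
  have hlR3 : 0 ≤ Real.log R₃ := Real.log_nonneg (by exact_mod_cast hR31)
  have main := mstepR P D Θ W E e (RK X M Sf Tf ρ) geo AK AK_ne (chiK Sf Tf τ τ')
    (chiK_nonneg Sf Tf τ τ') (chiK_le Sf Tf τ τ') (fun _ _ ω => lbk 1 1 (X ω) (M ω))
    (fun _ _ ω => lbk Lv Le (X ω) (M ω)) (3 * Real.log Lv + 2 * Real.log Le - 18)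
    ((3 * R + 4 * R₃) * (1 + 3 * Real.log R + Real.log R₃)) (by positivity)
    (fun d θ θs xs hχ Q ε hQ hε hA => hsatK P τ τ' L Lv Le R R₃ hτ hτ1 hτ' hLv hLe hLvL hLeL hR hR3
      hρ hRρ hR1 hR31 d θ θs xs hχ Q ε hQ hε hA)
  rw [AK_card] at main
  exact_mod_cast main

end steps

end Vale.Agent.P106.H25
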