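import Vale.Agent.P106.H25.LabP
import Vale.Agent.P106.H25.SatKN

/-!
# P106 / H25 : the N-step in the kappa regime over the cells

* `ChainK` : statement of the geometry of the chain (helper466).
* `geoR_of_chain` : it gives the relation `RK` of `satK`.
* `satKC` : the saturation over the cells.
-/

set_option autoImplicit false

namespace Vale.Agent.P106.H25

open Finset Vale.Agent.P127 Vale.Agent.P127.Stk Vale.Agent.P127.U.Mic
open Vale.Agent.P127.U.CellD (q2 rd q2_pos q2_add q2_le rd_le lt_rd rd_err rd_mono rd_sub fl1_fl1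
  q2_mul_pow div_pow_eq)
open Vale.Agent.P106.TV
open Vale.Agent.P106.U.Cell Vale.Agent.P106.U.H84 Vale.Agent.P106.U.H466

variable {Ω τ : Type}

/-- direction in the cell of cap `b`, to `p` digits -/
noncomputable def dirD (C : Pth Ω τ) (b p : ℕ) (ω : Ω) : ℝ :=
  2 ^ b * (rd (b + p) (C.l ω).v - rd b (C.l ω).v)

/-- **geometry of the chain** -/
def ChainK (C : Pth Ω τ) (S : Ω → Prop) (f k i b bb p : ℕ) (dr tr : Ω → Ω) (r : ℝ) : Prop :=
  ∀ a a₁ a₂ a₃ a₄ c, S a → S a₁ → S a₂ → S a₃ → S a₄ → S c →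
    C.cell k b a₁ = C.cell k b a → C.cell k b a₂ = C.cell k b a → C.cell k b a₃ = C.cell k b a →
    C.cell k b a₄ = C.cell k b a → C.cell k b c = C.cell k b a →
    C.T i a₁ = C.T i a → C.T i a₃ = C.T i a₂ → C.T i a₄ = C.T i a → C.T i c = C.T i a →
    C.cell i b a = C.cell i b a₁ → C.cell k bb a₁ = C.cell k bb a₂ → C.cell i b a₂ = C.cell i b a₃ →
    C.cell k bb a₃ = C.cell k bb a₄ → C.cell i b a₄ = C.cell i b c →
    |sV C k i b c - sV C k i b a -
      2 ^ C.a k * (C.s i a₂ - C.s i a) * (dirD C b p a₁ - dirD C b p a₄)| ≤ r ∧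
    |sZ C k i b c - sZ C k i b a -
      2 ^ C.a k * (C.s i a₂ - C.s i a) * (dirD C b p a₁ ^ 2 - dirD C b p a₄ ^ 2) / 2| ≤ r ∧
    |sE C f k i b dr tr c - sE C f k i b dr tr a +
      2 ^ C.rk k * (TT C f i (tr a₂) - TT C f i (tr a)) * (dirD C b p a₁ - dirD C b p a₄)| ≤ r ∧
    |sM C f k i b dr tr c - sM C f k i b dr tr a -
      sE C f k i b dr tr a * (sV C k i b c - sV C k i b a) +
      2 ^ C.a k * (C.s i a₂ - C.s i a) * (2 ^ C.rk k * (TT C f i (tr a₂) - TT C f i (tr a))) *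
        (dirD C b p a₁ - dirD C b p a₄) ^ 2 / 2| ≤ r

/-! ### functions of values -/

open Classical in
/-- kappa as a function of the values -/
noncomputable def Tv (C : Pth Ω τ) (f k i b : ℕ) (tr : Ω → Ω) (d : τ × Pth.Dg) (θ : τ) : ℝ :=
  if h : ∃ ω, C.cell k b ω = d ∧ C.T i ω = θ then TT C f i (tr h.choose) else 0

open Classical in
/-- direction as a function of the values -/
noncomputable def ev (C : Pth Ω τ) (k b bb p : ℕ) (d w : τ × Pth.Dg) : ℝ :=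
  if h : ∃ ω, C.cell k b ω = d ∧ C.cell k bb ω = w then dirD C b p h.choose else 0

/-- the difference of the times -/
noncomputable def Sv (C : Pth Ω τ) (k i : ℕ) (_d : τ × Pth.Dg) (θ θ' : τ) : ℝ :=
  2 ^ C.a k * (C.tv i θ' - C.tv i θ)

/-- the difference of the kappas -/
noncomputable def Tf (C : Pth Ω τ) (c f k i b : ℕ) (tr : Ω → Ω) (d : τ × Pth.Dg) (θ θ' : τ) : ℝ :=
  2 ^ C.rk k * (Tv C f k i b tr d θ' - Tv C f k i b tr d θ) / 2 ^ c

variable {C : Pth Ω τ}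

lemma Tv_eq {S : Ω → Prop} {f k i b : ℕ} {tr : Ω → Ω}
    (htr : Rep S (fun ω => (C.cell k b ω, C.T i ω)) tr) (ω : Ω) :
    Tv C f k i b tr (C.cell k b ω) (C.T i ω) = TT C f i (tr ω) := by
  unfold Tv
  have h : ∃ ω', C.cell k b ω' = C.cell k b ω ∧ C.T i ω' = C.T i ω := ⟨ω, rfl, rfl⟩
  rw [dif_pos h]
  have h2 := h.choose_spec
  rw [htr.eq h.choose ω (Prod.ext h2.1 h2.2)]

lemma cell_fl {k b : ℕ} {ω ω' : Ω} (h : C.cell k b ω = C.cell k b ω') :
    fl1 b (C.l ω).v = fl1 b (C.l ω').v := (Pth.cell_iff.1 h).2.1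

lemma ev_eq {k b bb p : ℕ} (hp : b + p ≤ bb) (ω ω' : Ω) (h : C.cell k b ω' = C.cell k b ω) :
    ev C k b bb p (C.cell k b ω) (C.cell k bb ω') = dirD C b p ω' := by
  unfold ev
  have h1 : ∃ ω'', C.cell k b ω'' = C.cell k b ω ∧ C.cell k bb ω'' = C.cell k bb ω' := ⟨ω', h, rfl⟩
  rw [dif_pos h1]
  obtain ⟨h2, h3⟩ := h1.choose_spec
  unfold dirD
  have e1 : rd (b + p) (C.l h1.choose).v = rd (b + p) (C.l ω').v := by
    unfold rd; rw [fl1_fl1 hp (cell_fl h3)]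
  have e2 : rd b (C.l h1.choose).v = rd b (C.l ω').v := by
    unfold rd; rw [cell_fl (h2.trans h.symm)]
  rw [e1, e2]

lemma Sv_eq (k i : ℕ) (d : τ × Pth.Dg) (ω ω' : Ω) :
    Sv C k i d (C.T i ω) (C.T i ω') = 2 ^ C.a k * (C.s i ω' - C.s i ω) := by
  unfold Sv
  rw [Pth.tv_T, Pth.tv_T]

lemma dir_mem (b p : ℕ) (ω : Ω) : 0 ≤ dirD C b p ω ∧ dirD C b p ω ≤ 1 := by
  unfold dirD
  have h1 := rd_mono (Nat.le_add_right b p) (C.l ω).v
  have h2 := rd_le (b + p) (C.l ω).v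
  have h3 := lt_rd b (C.l ω).v
  have h4 := q2_mul_pow b
  have h5 : (0 : ℝ) < 2 ^ b := by positivity
  constructor
  · apply mul_nonneg h5.le; linarith
  · calc _ ≤ 2 ^ b * q2 b := by apply mul_le_mul_of_nonneg_left _ h5.le; linarith
      _ = 1 := h4

variable [Fintype Ω]

/-- the geometry of the chain gives the relation `RK` -/
theorem geoR_of_chain {P : Law Ω} {f k i b bb p c : ℕ} {dr tr : Ω → Ω} {r : ℝ}
    (hp : b + p ≤ bb) (htr : Rep (fun ω => 0 < P.w ω) (fun ω => (C.cell k b ω, C.T i ω)) tr)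
    (h : ChainK C (fun ω => 0 < P.w ω) f k i b bb p dr tr r) :
    GeoR P (C.cell k b) (C.T i) (C.cell k bb) (C.cell i b) (ev C k b bb p)
      (RK (stX C (Phi C f i b dr tr) c k b i) (stM C (Phi C f i b dr tr) c k b i)
        (Sv C k i) (Tf C c f k i b tr) r) := by
  intro a a₁ a₂ a₃ a₄ b' p0 p1 p2 p3 p4 pb d1 d2 d3 d4 db t1 t3 t4 tb g1 g2 g3 g4 g5
  obtain ⟨h1, h2, h3, h4⟩ := h a a₁ a₂ a₃ a₄ b' p0 p1 p2 p3 p4 pb d1 d2 d3 d4 db t1 t3 t4 tb
    g1 g2 g3 g4 g5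
  have eT : Tf C c f k i b tr (C.cell k b a) (C.T i a) (C.T i a₂) =
      2 ^ C.rk k * (TT C f i (tr a₂) - TT C f i (tr a)) / 2 ^ c := by
    unfold Tf
    rw [Tv_eq htr a]
    rw [← d2, Tv_eq htr a₂]
  have hc1 : (1 : ℝ) ≤ 2 ^ c := one_le_pow₀ (by norm_num)
  have hc0 : (0 : ℝ) < 2 ^ c := by positivity
  have hdiv : ∀ x : ℝ, |x| ≤ r → |x / 2 ^ c| ≤ r := by
    intro x hx
    rw [abs_div, abs_of_pos hc0]
    exact (div_le_self (abs_nonneg _) hc1).trans hx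
  unfold RK
  rw [Sv_eq, eT, ev_eq hp a a₁ d1, ev_eq hp a a₄ d4]
  constructor
  · intro n
    fin_cases n
    · exact h1
    · exact h2
    · have := hdiv _ h3
      refine le_trans (le_of_eq ?_) this
      congr 1
      show sE C f k i b dr tr b' / 2 ^ c - sE C f k i b dr tr a / 2 ^ c -
        (-(2 ^ C.rk k * (TT C f i (tr a₂) - TT C f i (tr a)) / 2 ^ c *
          (dirD C b p a₁ - dirD C b p a₄))) = _
      ring
  · have := hdiv _ h4
    refine le_trans (le_of_eq ?_) this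
    congr 1
    show sM C f k i b dr tr b' / 2 ^ c - sM C f k i b dr tr a / 2 ^ c -
      sE C f k i b dr tr a / 2 ^ c * (sV C k i b b' - sV C k i b a) -
        (-(2 ^ C.a k * (C.s i a₂ - C.s i a) *
          (2 ^ C.rk k * (TT C f i (tr a₂) - TT C f i (tr a)) / 2 ^ c) *
          (dirD C b p a₁ - dirD C b p a₄) ^ 2 / 2)) = _
    ring

/-! ### levels -/

/-- the hypotheses on the levels, in addition to `Ctx` -/
structure LvK (C : Pth Ω τ) (K : ℝ) (c0 m g p b f j p₁ p₂ : ℕ) (r r' : ℝ) : Prop where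
  hK : 2 * K ≤ 2 ^ c0
  m1 : 1 ≤ m
  mg : m ≤ g
  gp : g ≤ p
  gμ : g ≤ C.μ
  cμ : 4 * c0 + 2 ≤ C.μ
  a : C.a (j + 1) = C.a j + p₁
  R : C.R (j + 1) b = C.R j b + p₂
  q1 : p₁ ≤ m
  q2' : p₂ ≤ m
  R2 : 2 * C.μ ≤ C.R j b
  fr : f ≤ j ∨ C.a (j + 1) = C.a j
  r0 : 0 ≤ r
  r1 : 2 ^ (3 * m + 25 * (g + 3 * c0 + 3) + 32) * r ≤ 1
  r' : 8 * r' ≤ q2 (2 * g)

section lv

variable {P : Law Ω} {K : ℝ} {c0 m g p b bb f j js i p₁ p₂ : ℕ} {r r' : ℝ} {dr tr : Ω → Ω}

lemma Ctx_Rk {S : Ω → Prop} (H : Ctx C S K f (j + 1) js i b bb p) :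
    C.R (j + 1) b = C.rk (j + 1) + b := by
  have h1 := H.kf
  have h2 := H.rkf
  have h3 := C.hf H.fj
  have h4 := H.bb8
  rw [Pth.R_eq]
  omega

/-- the functional `Phi` satisfies the hypotheses of the label comparison -/
theorem labD (H : Ctx C (fun ω => 0 < P.w ω) K f (j + 1) js i b bb p)
    (L : LvK C K c0 m g p b f j p₁ p₂ r r')
    (hdr : Rep (fun ω => 0 < P.w ω) (C.cell (j + 1) b) dr)
    (htr : Rep (fun ω => 0 < P.w ω) (fun ω => (C.cell (j + 1) b ω, C.T i ω)) tr) :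
    LabD P C (9 * ((2 : ℝ) ^ c0) ^ 7) (3 * c0 + 2) j (j + 1) b i p₁ p₂
      (Phi C f i b dr tr) := by
  set Kc : ℝ := 2 ^ c0 with hKc
  have hKc1 : 1 ≤ Kc := one_le_pow₀ (by norm_num)
  have hKK : K ≤ Kc := by have := L.hK; have := H.K1; linarith
  have hK0 : 0 ≤ K := by have := H.K1; linarith
  have k7 : Kc ≤ Kc ^ 7 := le_self_pow₀ hKc1 (by norm_num)
  have k71 : 1 ≤ Kc ^ 7 := one_le_pow₀ hKc1
  have okc : ∀ ω, 0 < P.w ω → C.Ok Kc ω := fun ω hω => Ok_mono hK0 hKK (H.ok ω hω)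
  have hji : j + 1 ≤ i := H.jjs.trans H.jsi
  have hb8 := H.b8
  have hμ : 4 * Kc ^ 4 * q2 C.μ ≤ 1 := by
    have h1 : q2 C.μ ≤ q2 (4 * c0 + 2) := q2_le L.cμ
    have h2 : 4 * Kc ^ 4 = 2 ^ (4 * c0 + 2) := by
      rw [hKc, ← pow_mul, pow_add, mul_comm c0 4]; norm_num; ring
    rw [h2]
    calc (2 : ℝ) ^ (4 * c0 + 2) * q2 C.μ ≤ 2 ^ (4 * c0 + 2) * q2 (4 * c0 + 2) := by gcongr
      _ = 1 := q2_mul_pow _
  have agc : ∀ ω, 0 < P.w ω → ∀ x y, x ≤ y →
      |(C.F y ω).cN (C.l ω) (C.s y ω) - (C.F x ω).cN (C.l ω) (C.s x ω)| ≤ Kc * q2 (C.rk x) := by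
    intro ω hω x y hxy
    have h := ((okc ω hω).ag x y hxy).cN
    rwa [cN_F] at h
  have hT : ∀ ω, 0 < P.w ω → C.T i (tr ω) = C.T i ω := fun ω hω => (Prod.mk.inj (htr.val ω hω)).2
  refine ⟨by linarith, fun ω hω => Ok_mono (by linarith) (by linarith) (okc ω hω), ?_, Nat.le_succ j,
    hji, by omega, Ctx_Rk H, L.a, L.R, L.R2, ?_, ?_, ?_⟩
  · have e : (2 : ℝ) ^ (3 * c0 + 2) = 4 * Kc ^ 3 := by
      rw [hKc, ← pow_mul, pow_add, mul_comm c0 3]; norm_num; ring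
    rw [e]
    have h1 : Kc ^ 3 ≤ (9 * Kc ^ 7) ^ 3 := by
      apply pow_le_pow_left₀ (by linarith)
      linarith
    have h2 : 0 ≤ (9 * Kc ^ 7) ^ 3 := by positivity
    linarith
  · intro ω hω
    refine fok_gen hKc1 hμ (by omega) (okc ω hω) (okc _ (htr.mem ω hω)) H.fj hji hji
      (hdr.val ω hω) (hT ω hω) ?_ ?_ (le_of_eq H.rkf.symm) (C.ha H.fj)
    · rw [← H.rkf]; exact agc ω hω f (j + 1) H.fj
    · have h := ((okc ω hω).ag f (j + 1) H.fj).al
      rw [← H.rkf]; exact h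
  · intro ω hω
    rcases L.fr with hf | haj
    · have hrk : C.rk j = C.rk f := by
        have h1 := C.hk hf
        have h2 := C.hk (Nat.le_succ j)
        have h3 := H.rkf
        simp only [Nat.succ_eq_add_one] at h2
        omega
      refine fok_gen hKc1 hμ (by omega) (okc ω hω) (okc _ (htr.mem ω hω)) H.fj hji (by omega)
        (hdr.val ω hω) (hT ω hω) ?_ ?_ (le_of_eq hrk) (C.ha hf)
      · rw [hrk]; exact agc ω hω f j hf
      · have h := ((okc ω hω).ag f j hf).al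
        rw [hrk]; exact h
    · by_cases hf : f ≤ j
      · have hrk : C.rk j = C.rk f := by
          have h1 := C.hk hf
          have h2 := C.hk (Nat.le_succ j)
          have h3 := H.rkf
          simp only [Nat.succ_eq_add_one] at h2
          omega
        refine fok_gen hKc1 hμ (by omega) (okc ω hω) (okc _ (htr.mem ω hω)) H.fj hji (by omega)
          (hdr.val ω hω) (hT ω hω) ?_ ?_ (le_of_eq hrk) (C.ha hf)
        · rw [hrk]; exact agc ω hω f j hf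
        · have h := ((okc ω hω).ag f j hf).al
          rw [hrk]; exact h
      · have hf1 : f = j + 1 := by have := H.fj; omega
        subst hf1
        refine fok_gen hKc1 hμ (by omega) (okc ω hω) (okc _ (htr.mem ω hω)) le_rfl hji (by omega)
          (hdr.val ω hω) (hT ω hω) ?_ ?_ (C.hk (Nat.le_succ j)) (le_of_eq haj)
        · rw [abs_sub_comm]; exact agc ω hω j (j + 1) (Nat.le_succ j)
        · have h := ((okc ω hω).ag j (j + 1) (Nat.le_succ j)).al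
          rw [haj] at h
          rw [abs_sub_comm]; exact h
  · intro ω ω' hω hω' hD hTi
    have e1 : dr ω' = dr ω := hdr.eq _ _ hD
    have e2 : tr ω' = tr ω := htr.eq _ _ (Prod.ext hD hTi)
    have e3 : C.s i ω' = C.s i ω := s_eq C hTi
    have e4 : C.s f ω' = C.s f ω := s_eq C (T_eq C hTi (H.fj.trans hji))
    have e5 : wb C b ω' = wb C b ω := by
      have h3 := (Pth.cell_iff.1 hD).2.2 1
      rw [Pth.va1, Pth.va1, Pth.lv1] at h3
      unfold wb Pth.ro rd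
      rw [h3]
    have e6 : vb C b ω' = vb C b ω := by
      unfold vb rd
      rw [cell_fl hD]
    unfold Phi G0
    rw [e1, e2, e3, e4, e5, e6]

end lv

end Vale.Agent.P106.H25
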