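import Vale.Agent.P106.H25.SatKC

/-!
# P106 / H25 : the N-step in the kappa regime over the cells, final form modulo the geometry of the chain

* `satKC` : strong form; `satKCw` : weak form.
-/

set_option autoImplicit false

namespace Vale.Agent.P106.H25

open Finset Vale.Agent.P127 Vale.Agent.P127.Stk Vale.Agent.P127.U.Mic
open Vale.Agent.P127.U.CellD (q2 rd q2_pos q2_add q2_le rd_le lt_rd rd_err rd_mono rd_sub fl1_fl1
  q2_mul_pow div_pow_eq)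
open Vale.Agent.P106.TV
open Vale.Agent.P106.U.Cell Vale.Agent.P106.U.H84 Vale.Agent.P106.U.H466

variable {Ω τ : Type} [Fintype Ω] {C : Pth Ω τ}

section lv

variable {P : Law Ω} {K : ℝ} {c0 m g p b bb f j js i p₁ p₂ : ℕ} {r r' : ℝ} {dr tr : Ω → Ω}

/-- the times of a cell -/
lemma s_cell {k i b : ℕ} (hki : k ≤ i) {ω ω' : Ω} (h : C.cell k b ω' = C.cell k b ω) :
    |C.s i ω' - C.s i ω| ≤ q2 (C.a k) := by
  have hs : C.s k ω' = C.s k ω := s_eq C (Pth.cell_iff.1 h).1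
  have h1 := rd_mono (C.ha hki) (C.t ω)
  have h2 := rd_le (C.a i) (C.t ω)
  have h3 := lt_rd (C.a k) (C.t ω)
  have h1' := rd_mono (C.ha hki) (C.t ω')
  have h2' := rd_le (C.a i) (C.t ω')
  have h3' := lt_rd (C.a k) (C.t ω')
  unfold Pth.s at *
  rw [abs_le]
  constructor <;> linarith

/-- different digits ⇒ distant rounded numbers -/
lemma far_rd {s n : ℕ} (h : s ≤ n) {x y : ℝ} (hxy : ¬ |fl1 s x - fl1 s y| ≤ ((1 : ℕ) : ℤ)) :
    q2 s ≤ |rd n x - rd n y| := by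
  have e1 : fl1 s (rd n x) = fl1 s x := by
    have h1 := rd_mono h x
    have h2 := rd_le n x
    have h3 := lt_rd s x
    have h4 := rd_le s x
    unfold fl1
    have hp : (0 : ℝ) < 2 ^ s := by positivity
    have e0 : (fl1 s x : ℝ) = 2 ^ s * rd s x := by
      unfold rd; field_simp
    have hq := q2_mul_pow s
    rw [Int.floor_eq_iff]
    have e2 : ((⌊(2 : ℝ) ^ s * x⌋ : ℤ) : ℝ) = 2 ^ s * rd s x := by rw [← e0]; rfl
    rw [e2]
    constructor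
    · exact mul_le_mul_of_nonneg_left h1 hp.le
    · have : (2 : ℝ) ^ s * rd n x < 2 ^ s * (rd s x + q2 s) := mul_lt_mul_of_pos_left (by linarith) hp
      rw [mul_add, hq] at this
      exact this
  have e2 : fl1 s (rd n y) = fl1 s y := by
    have h1 := rd_mono h y
    have h2 := rd_le n y
    have h3 := lt_rd s y
    unfold fl1
    have hp : (0 : ℝ) < 2 ^ s := by positivity
    have e0 : (fl1 s y : ℝ) = 2 ^ s * rd s y := by
      unfold rd; field_simp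
    have hq := q2_mul_pow s
    rw [Int.floor_eq_iff]
    have e2 : ((⌊(2 : ℝ) ^ s * y⌋ : ℤ) : ℝ) = 2 ^ s * rd s y := by rw [← e0]; rfl
    rw [e2]
    constructor
    · exact mul_le_mul_of_nonneg_left h1 hp.le
    · have : (2 : ℝ) ^ s * rd n y < 2 ^ s * (rd s y + q2 s) := mul_lt_mul_of_pos_left (by linarith) hp
      rw [mul_add, hq] at this
      exact this
  by_contra hcon
  push Not at hcon
  apply hxy
  rw [← e1, ← e2]
  have := fl1_range (n := s) (M := 1) (x := rd n x) (y := rd n y) (by push_cast; linarith)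
  -- range with strict inequality
  have hp : (0 : ℝ) < 2 ^ s := by positivity
  have h5 : |(2 : ℝ) ^ s * rd n x - 2 ^ s * rd n y| < 1 := by
    rw [← mul_sub, abs_mul, abs_of_pos hp]
    calc (2 : ℝ) ^ s * |rd n x - rd n y| < 2 ^ s * q2 s := mul_lt_mul_of_pos_left hcon hp
      _ = 1 := q2_mul_pow s
  rw [abs_lt] at h5
  unfold fl1
  have a1 := Int.floor_le ((2 : ℝ) ^ s * rd n x)
  have a2 := Int.lt_floor_add_one ((2 : ℝ) ^ s * rd n x)
  have a3 := Int.floor_le ((2 : ℝ) ^ s * rd n y)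
  have a4 := Int.lt_floor_add_one ((2 : ℝ) ^ s * rd n y)
  have b1 : ((⌊(2 : ℝ) ^ s * rd n x⌋ - ⌊(2 : ℝ) ^ s * rd n y⌋ : ℤ) : ℝ) < ((2 : ℤ) : ℝ) := by
    push_cast; linarith [h5.2]
  have b2 : ((-2 : ℤ) : ℝ) < ((⌊(2 : ℝ) ^ s * rd n x⌋ - ⌊(2 : ℝ) ^ s * rd n y⌋ : ℤ) : ℝ) := by
    push_cast; linarith [h5.1]
  have c1 := Int.cast_lt.1 b1
  have c2 := Int.cast_lt.1 b2
  push_cast
  rw [abs_le]
  constructor <;> omega

/-- the late time of the points of a cell with different digits of the time -/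
lemma S_far {k : ℕ} (hki : C.a k + g ≤ C.a i) {ω ω' : Ω}
    (h : ¬ |fl1 (C.a k + g) (C.t ω) - fl1 (C.a k + g) (C.t ω')| ≤ ((1 : ℕ) : ℤ)) :
    q2 g ≤ |2 ^ C.a k * (C.s i ω' - C.s i ω)| := by
  have h1 := far_rd hki h
  have hp : (0 : ℝ) < 2 ^ C.a k := by positivity
  rw [abs_mul, abs_of_pos hp, abs_sub_comm]
  calc q2 g = 2 ^ C.a k * q2 (C.a k + g) := by rw [q2_add, ← mul_assoc, q2_mul_pow, one_mul]
    _ ≤ _ := mul_le_mul_of_nonneg_left h1 hp.le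

lemma dir_far {k : ℕ} (hgp : g ≤ p) {ω ω' : Ω} (hD : C.cell k b ω' = C.cell k b ω)
    (h : ¬ |fl1 (b + g) (C.l ω).v - fl1 (b + g) (C.l ω').v| ≤ ((1 : ℕ) : ℤ)) :
    q2 g ≤ |dirD C b p ω - dirD C b p ω'| := by
  have h1 := far_rd (show b + g ≤ b + p by omega) h
  have hp : (0 : ℝ) < 2 ^ b := by positivity
  have e : dirD C b p ω - dirD C b p ω' =
      2 ^ b * (rd (b + p) (C.l ω).v - rd (b + p) (C.l ω').v) := by
    unfold dirD
    have : rd b (C.l ω').v = rd b (C.l ω).v := by unfold rd; rw [cell_fl hD]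
    rw [this]; ring
  rw [e, abs_mul, abs_of_pos hp]
  calc q2 g = 2 ^ b * q2 (b + g) := by rw [q2_add, ← mul_assoc, q2_mul_pow, one_mul]
    _ ≤ _ := mul_le_mul_of_nonneg_left h1 hp.le

/-- the difference of the kappas is at most one in absolute value -/
lemma Tf_le (H : Ctx C (fun ω => 0 < P.w ω) K f (j + 1) js i b bb p) (hK : 2 * K ≤ 2 ^ c0)
    (htr : Rep (fun ω => 0 < P.w ω) (fun ω => (C.cell (j + 1) b ω, C.T i ω)) tr) {ω ω' : Ω}
    (hω : 0 < P.w ω) (hω' : 0 < P.w ω') (hD : C.cell (j + 1) b ω' = C.cell (j + 1) b ω) :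
    Tf C (3 * c0 + 2) f (j + 1) i b tr (C.cell (j + 1) b ω) (C.T i ω) (C.T i ω') =
      2 ^ C.rk (j + 1) * (TT C f i (tr ω') - TT C f i (tr ω)) / 2 ^ (3 * c0 + 2) ∧
    |Tf C (3 * c0 + 2) f (j + 1) i b tr (C.cell (j + 1) b ω) (C.T i ω) (C.T i ω')| ≤ 1 := by
  have e : Tf C (3 * c0 + 2) f (j + 1) i b tr (C.cell (j + 1) b ω) (C.T i ω) (C.T i ω') =
      2 ^ C.rk (j + 1) * (TT C f i (tr ω') - TT C f i (tr ω)) / 2 ^ (3 * c0 + 2) := by
    unfold Tf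
    rw [Tv_eq htr ω, ← hD, Tv_eq htr ω']
  refine ⟨e, ?_⟩
  rw [e]
  have hK1 := H.K1
  have hfi : f ≤ i := H.fj.trans (H.jjs.trans H.jsi)
  have t1 := TT_le (f := f) (i := i) hK1 (H.ok _ (htr.mem ω hω)) hfi
  have t2 := TT_le (f := f) (i := i) hK1 (H.ok _ (htr.mem ω' hω')) hfi
  have hrk := H.rkf
  rw [hrk] at t1 t2
  have t3 := subb t2 t1
  have hp : (0 : ℝ) < 2 ^ C.rk (j + 1) := by positivity
  have hc : (0 : ℝ) < 2 ^ (3 * c0 + 2) := by positivity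
  rw [abs_div, abs_of_pos hc, div_le_one hc, abs_mul, abs_of_pos hp]
  calc _ ≤ 2 ^ C.rk (j + 1) * (2 * K ^ 3 * q2 (C.rk (j + 1)) + 2 * K ^ 3 * q2 (C.rk (j + 1))) :=
        mul_le_mul_of_nonneg_left t3 hp.le
    _ = 4 * K ^ 3 * (2 ^ C.rk (j + 1) * q2 (C.rk (j + 1))) := by ring
    _ = 4 * K ^ 3 := by rw [q2_mul_pow, mul_one]
    _ ≤ 4 * (2 ^ c0) ^ 3 := by
        have : K ≤ 2 ^ c0 := by linarith
        gcongr
    _ = 2 ^ (3 * c0 + 2) := by rw [← pow_mul, pow_add, mul_comm c0 3]; norm_num; ring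

/-- area of a triangle, rounded and rescaled -/
lemma area {S₁ S₂ T₁ T₂ U₁ U₂ r : ℝ} {n c : ℕ} (hS1 : |S₁| ≤ 1) (hS2 : |S₂| ≤ 1)
    (h1 : |U₁ - T₁| ≤ 2 * r) (h2 : |U₂ - T₂| ≤ 2 * r) (hr : 8 * r ≤ q2 n)
    (h : q2 n ≤ |S₁ * T₂ - S₂ * T₁|) :
    q2 (n + 1 + c) ≤ |S₁ * (U₂ / 2 ^ c) - S₂ * (U₁ / 2 ^ c)| := by
  have e : S₁ * (U₂ / 2 ^ c) - S₂ * (U₁ / 2 ^ c) =
      ((S₁ * T₂ - S₂ * T₁) + (S₁ * (U₂ - T₂) - S₂ * (U₁ - T₁))) / 2 ^ c := by ring
  have hc : (0 : ℝ) < 2 ^ c := by positivity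
  rw [e, abs_div, abs_of_pos hc, le_div_iff₀ hc]
  have h3 : |S₁ * (U₂ - T₂) - S₂ * (U₁ - T₁)| ≤ 4 * r := by
    refine (subb (mulb hS1 h2) (mulb hS2 h1)).trans (le_of_eq ?_)
    ring
  have h4 : |S₁ * T₂ - S₂ * T₁| ≤ |(S₁ * T₂ - S₂ * T₁) + (S₁ * (U₂ - T₂) - S₂ * (U₁ - T₁))| +
      |S₁ * (U₂ - T₂) - S₂ * (U₁ - T₁)| := by
    have := abs_sub ((S₁ * T₂ - S₂ * T₁) + (S₁ * (U₂ - T₂) - S₂ * (U₁ - T₁)))
      (S₁ * (U₂ - T₂) - S₂ * (U₁ - T₁))
    rwa [add_sub_cancel_right] at this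
  have h5 : q2 (n + 1 + c) * 2 ^ c = q2 n / 2 := by
    rw [q2_add, mul_assoc, mul_comm (q2 c), q2_mul_pow, mul_one, q2_add]
    have : q2 1 = 1 / 2 := by unfold q2; norm_num
    rw [this]; ring
  rw [h5]
  linarith

/-- **THE N-STEP, KAPPA REGIME, over the cells**, strong form -/
theorem satKC (H : Ctx C (fun ω => 0 < P.w ω) K f (j + 1) js i b bb p)
    (L : LvK C K c0 m g p b f j p₁ p₂ r r')
    (hdr : Rep (fun ω => 0 < P.w ω) (C.cell (j + 1) b) dr)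
    (htr : Rep (fun ω => 0 < P.w ω) (fun ω => (C.cell (j + 1) b ω, C.T i ω)) tr)
    (hch : ChainK C (fun ω => 0 < P.w ω) f (j + 1) i b bb p dr tr r)
    (htt : ∀ ω, 0 < P.w ω → |TT C f i (tr ω) - TT C f i ω| ≤ r' * q2 (C.rk (j + 1)))
    {ι₁ ι₂ pw : ℝ}
    (hw : av3 P (C.cell (j + 1) b) (fun ω a a' => Law.ind (¬ q2 (2 * g) ≤
      |2 ^ C.a (j + 1) * (C.s i a - C.s i ω) * (2 ^ C.rk (j + 1) * (TT C f i a' - TT C f i ω)) -
        2 ^ C.a (j + 1) * (C.s i a' - C.s i ω) *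
          (2 ^ C.rk (j + 1) * (TT C f i a - TT C f i ω))|)) ≤ pw)
    (h1 : mi P (fun ω => fl1 (b + p) (C.l ω).v) (C.cell i b)
      (fun ω => (C.cell (j + 1) b ω, C.T i ω)) ≤ ι₁)
    (h2 : mi P (C.T i) (C.cell (j + 1) bb) (C.cell (j + 1) b) ≤ ι₂) :
    (3 * p₁ + 2 * p₂) * Real.log 2 - (18 + 32 * m * (
      colp P (fun ω => fl1 (C.a (j + 1) + g) (C.t ω)) (C.cell (j + 1) b) +
      colp P (fun ω => fl1 (b + g) (C.l ω).v) (C.cell (j + 1) b) + pw) +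
      2 ^ (57 * (g + 3 * c0 + 3)) * (Real.sqrt ι₁ + Real.sqrt ι₂) +
      5 * Real.log ((2 * nK (9 * ((2 : ℝ) ^ c0) ^ 7) + 3 : ℕ) : ℝ)) ≤
    hc P (C.A (j + 1) b i) (fun ω => (C.A j b i ω, (C.cell (j + 1) b ω, C.T i ω))) := by
  classical
  set Φ := Phi C f i b dr tr with hΦ
  have hji : j + 1 ≤ i := H.jjs.trans H.jsi
  have hlab := lab (labD H L hdr htr)
  have geo := geoR_of_chain (c := 3 * c0 + 2) H.bbp htr hch
  have hki : C.a (j + 1) + g ≤ C.a i := by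
    have h3 := H.a8
    have h4 := C.ha H.jjs
    have := L.gμ
    omega
  have hp0 : (0 : ℝ) < 2 ^ C.a (j + 1) := by positivity
  have hSle : ∀ ω ω', C.cell (j + 1) b ω' = C.cell (j + 1) b ω →
      |2 ^ C.a (j + 1) * (C.s i ω' - C.s i ω)| ≤ 1 := by
    intro ω ω' hD
    rw [abs_mul, abs_of_pos hp0]
    calc _ ≤ 2 ^ C.a (j + 1) * q2 (C.a (j + 1)) := mul_le_mul_of_nonneg_left (s_cell hji hD) hp0.le
      _ = 1 := q2_mul_pow _
  have hqg : q2 (g + 3 * c0 + 3) ≤ q2 g := q2_le (by omega)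
  have main := satK P geo (g := g + 3 * c0 + 3) (m := m) (p₁ := p₁) (p₂ := p₂) L.m1
    (L.mg.trans (by omega)) L.q1 L.q2' (fun ω => fl1 (C.a (j + 1) + g) (C.t ω))
    (fun ω => fl1 (b + g) (C.l ω).v) ?_ ?_ ?_ ?_ ?_ L.r0 L.r1 (ι₁ := ι₁) (ι₂ := ι₂) (pw := pw)
    ?_ ?_ h2
  · linarith
  · intro ω ω' _ _ hD
    rw [Sv_eq]
    exact hSle ω ω' hD
  · intro ω ω' hω hω' hD
    exact (Tf_le H L.hK htr hω hω' hD).2
  · intro ω ω' _ _ hD
    rw [ev_eq H.bbp ω ω' hD]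
    exact dir_mem b p ω'
  · intro ω ω' _ _ _ hne
    rw [Sv_eq]
    exact hqg.trans (S_far hki hne)
  · intro ω a a' _ _ _ hDa hDb hne
    rw [ev_eq H.bbp ω a hDa, ev_eq H.bbp ω a' hDb]
    exact hqg.trans (dir_far L.gp (hDb.trans hDa.symm) hne)
  · -- collinearity
    refine le_trans ?_ hw
    unfold av3
    refine P.ex_mono fun ω hω => ?_
    refine Law.ex_mono _ fun a ha => ?_
    refine Law.ex_mono _ fun a' ha' => ?_
    obtain ⟨da, pa⟩ := Vale.Agent.P127.U.Pin.cond_supp P (C.cell (j + 1) b)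
      (P.pr_pos (C.cell (j + 1) b) hω) ha
    obtain ⟨da', pa'⟩ := Vale.Agent.P127.U.Pin.cond_supp P (C.cell (j + 1) b)
      (P.pr_pos (C.cell (j + 1) b) hω) ha'
    show Law.ind _ ≤ Law.ind _
    by_cases hq : q2 (2 * g) ≤
      |2 ^ C.a (j + 1) * (C.s i a - C.s i ω) * (2 ^ C.rk (j + 1) * (TT C f i a' - TT C f i ω)) -
        2 ^ C.a (j + 1) * (C.s i a' - C.s i ω) * (2 ^ C.rk (j + 1) * (TT C f i a - TT C f i ω))|
    · have hTd : ∀ x, 0 < P.w x → |2 ^ C.rk (j + 1) * (TT C f i (tr x) - TT C f i (tr ω)) -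
          2 ^ C.rk (j + 1) * (TT C f i x - TT C f i ω)| ≤ 2 * r' := by
        intro x hx
        have hrp : (0 : ℝ) < 2 ^ C.rk (j + 1) := by positivity
        have e : 2 ^ C.rk (j + 1) * (TT C f i (tr x) - TT C f i (tr ω)) -
          2 ^ C.rk (j + 1) * (TT C f i x - TT C f i ω) =
          2 ^ C.rk (j + 1) * ((TT C f i (tr x) - TT C f i x) - (TT C f i (tr ω) - TT C f i ω)) := by
          ring
        rw [e, abs_mul, abs_of_pos hrp]
        calc _ ≤ 2 ^ C.rk (j + 1) * (r' * q2 (C.rk (j + 1)) + r' * q2 (C.rk (j + 1))) :=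
              mul_le_mul_of_nonneg_left (subb (htt x hx) (htt ω hω)) hrp.le
          _ = 2 * r' * (2 ^ C.rk (j + 1) * q2 (C.rk (j + 1))) := by ring
          _ = 2 * r' := by rw [q2_mul_pow, mul_one]
      have hT1 := (Tf_le H L.hK htr hω pa da).1
      have hT2 := (Tf_le H L.hK htr hω pa' da').1
      have har := area (c := 3 * c0 + 2) (hSle ω a da) (hSle ω a' da') (hTd a pa) (hTd a' pa')
        L.r' hq
      have hfin : q2 (2 * (g + 3 * c0 + 3)) ≤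
          |Sv C (j + 1) i (C.cell (j + 1) b ω) (C.T i ω) (C.T i a) *
            Tf C (3 * c0 + 2) f (j + 1) i b tr (C.cell (j + 1) b ω) (C.T i ω) (C.T i a') -
          Sv C (j + 1) i (C.cell (j + 1) b ω) (C.T i ω) (C.T i a') *
            Tf C (3 * c0 + 2) f (j + 1) i b tr (C.cell (j + 1) b ω) (C.T i ω) (C.T i a)| := by
        rw [Sv_eq, Sv_eq, hT1, hT2]
        exact (q2_le (by omega)).trans har
      rw [Law.ind_not (not_not.2 hfin)]
      exact Vale.Agent.P127.U.Mic.ind_nonneg _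
    · rw [Law.ind_of hq]
      exact Vale.Agent.P127.U.Mic.ind_le_one _
  · refine le_trans (mi_mono_left P _ ?_) h1
    intro ω ω' _ _ e
    simp only [Prod.mk.injEq] at e
    obtain ⟨e1, e2, -⟩ := e
    show ev C (j + 1) b bb p (C.cell (j + 1) b ω) (C.cell (j + 1) bb ω) =
      ev C (j + 1) b bb p (C.cell (j + 1) b ω') (C.cell (j + 1) bb ω')
    rw [ev_eq H.bbp ω ω rfl, ev_eq H.bbp ω' ω' rfl]
    unfold dirD rd
    rw [e1, cell_fl e2]

end lv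

end Vale.Agent.P106.H25
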