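import Vale.Agent.P106.U.H572.HeisN
import Vale.Agent.P106.H25.LatN

/-!
# P106 / H25 : type (ii), one step `(a, b)` : ALL the coordinates of the cell (4 m bits)

State `X = (V, Z, φ, κ)`, central coordinate `M`, group `St4` of 572.  `lbH L X M` : cells of side `L` and the sheared
digit of `M` at scale `L²`.  Two generators `u, w` (entries at most `B`) with commutator `≥ τ` and their inverses:
`4 log L - (17 + 4 log B) - err ≤ H(lbH 1 | lbH L)` : two bits of every translation plane (the plane of `u, w` in `ℝ⁴`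
projects well to two of the four coordinates, the two others are functions of these up to `O(L)`), two of the centre.
-/

set_option autoImplicit false

namespace Vale.Agent.P106.H25

open Finset Vale.Agent.P127 Vale.Agent.P127.Stk Vale.Agent.P127.TV Vale.Agent.P127.TV.Lat
open Vale.Agent.P106.TV Vale.Agent.P106.U.H572

variable {Ω : Type} [Fintype Ω] {X : Ω → Fin 4 → ℝ} {M : Ω → ℝ}

/-- powers of a generator -/
theorem sub4_pow {Q : Law Ω} {u : Fin 4 → ℝ} {m ρ e B : ℝ} (hB : 1 ≤ B) (hu : ∀ i, |u i| ≤ B)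
    (hρ : 0 ≤ ρ) (hρ1 : ρ ≤ 1) (h : SubC Q Q (St4 X M u m ρ ρ) e) (n : ℕ) :
    SubC Q Q (St4 X M (fun i => n * u i)
      (n * m + (n : ℝ) * (n - 1) / 2 * (u 0 * u 2 + u 1 * u 3)) (n * ρ)
      (3 * B * (n : ℝ) ^ 2 * ρ)) (n * e) := by
  induction n with
  | zero =>
    refine (SubC.refl Q).mono ?_ (by simp)
    rintro a b rfl
    refine ⟨fun i => by simp, by simp⟩
  | succ n ih =>
    have hn0 : (0 : ℝ) ≤ n := Nat.cast_nonneg n
    refine sub4_comp ih h (fun i => ?_) ?_ ?_ ?_ ?_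
    · push_cast; ring
    · push_cast; ring
    · push_cast; linarith
    · have h1 : ∀ i, |(n : ℝ) * u i| * ρ ≤ B * (n * ρ) := fun i => by
        rw [abs_mul, abs_of_nonneg hn0]
        have := mul_le_mul_of_nonneg_left (hu i) (mul_nonneg hn0 hρ)
        linarith
      have h2 : ∀ i, |u i| * (n * ρ) ≤ B * (n * ρ) := fun i =>
        mul_le_mul_of_nonneg_right (hu i) (by positivity)
      have h3 : n * ρ * ρ ≤ n * ρ := mul_le_of_le_one_right (by positivity) hρ1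
      have h4 : ρ ≤ B * ρ := le_mul_of_one_le_left hρ hB
      have h5 : (n : ℝ) * ρ ≤ B * (n * ρ) := le_mul_of_one_le_left (by positivity) hB
      push_cast
      have a1 := h1 2
      have a2 := h1 3
      have a3 := h2 0
      have a4 := h2 1
      have e : 3 * B * ((n : ℝ) + 1) ^ 2 * ρ =
        3 * B * (n : ℝ) ^ 2 * ρ + 6 * (B * (n * ρ)) + 3 * (B * ρ) := by ring
      rw [e]
      linarith
    · push_cast; linarith

/-- the central displacement of `u^n₀ w^n₁` -/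
noncomputable def dr4 (u w : Fin 4 → ℝ) (mu mw : ℝ) (n₀ n₁ : ℕ) : ℝ :=
  (n₀ * mu + (n₀ : ℝ) * (n₀ - 1) / 2 * (u 0 * u 2 + u 1 * u 3)) +
    (n₁ * mw + (n₁ : ℝ) * (n₁ - 1) / 2 * (w 0 * w 2 + w 1 * w 3)) +
    (n₁ * w 0) * (n₀ * u 2) + (n₁ * w 1) * (n₀ * u 3)

theorem mulB_le {x y B : ℝ} (hx : |x| ≤ B) (hy : |y| ≤ B) : |x * y| ≤ B ^ 2 := by
  rw [abs_mul, pow_two]
  exact mul_le_mul hx hy (abs_nonneg _) ((abs_nonneg _).trans hx)

theorem dr4_le {u w : Fin 4 → ℝ} {mu mw B : ℝ} (hu : ∀ i, |u i| ≤ B) (hw : ∀ i, |w i| ≤ B)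
    (hmu : |mu| ≤ B ^ 2) (hmw : |mw| ≤ B ^ 2) {n₀ n₁ R : ℕ} (hR : 1 ≤ R) (h0 : n₀ ≤ R)
    (h1 : n₁ ≤ R) : |dr4 u w mu mw n₀ n₁| ≤ 6 * (B ^ 2 * (R : ℝ) ^ 2) := by
  have hRr : (1 : ℝ) ≤ R := by exact_mod_cast hR
  have hRR : (R : ℝ) ≤ R ^ 2 := by nlinarith
  have hB2 : 0 ≤ B ^ 2 := sq_nonneg B
  have g : ∀ {n : ℕ} {v : Fin 4 → ℝ} {m : ℝ}, n ≤ R → (∀ i, |v i| ≤ B) → |m| ≤ B ^ 2 →
      |(n : ℝ) * m + (n : ℝ) * (n - 1) / 2 * (v 0 * v 2 + v 1 * v 3)| ≤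
        2 * (B ^ 2 * (R : ℝ) ^ 2) := by
    intro n v m hn hv hm
    have hnR : (n : ℝ) ≤ R := by exact_mod_cast hn
    have hn0 : (0 : ℝ) ≤ n := Nat.cast_nonneg _
    have e1 : |(n : ℝ) * m| ≤ B ^ 2 * (R : ℝ) ^ 2 := by
      rw [abs_mul, abs_of_nonneg hn0]
      have h2 : (n : ℝ) * |m| ≤ R * B ^ 2 := mul_le_mul hnR hm (abs_nonneg _) (by linarith)
      have h3 : (R : ℝ) * B ^ 2 ≤ R ^ 2 * B ^ 2 := mul_le_mul_of_nonneg_right hRR hB2
      linarith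
    have e2 : |(n : ℝ) * (n - 1) / 2| ≤ (R : ℝ) ^ 2 / 2 := by
      have h3 : 0 ≤ (n : ℝ) * (n - 1) := by
        rcases Nat.eq_zero_or_pos n with h | h
        · subst h; simp
        · have : (1 : ℝ) ≤ n := by exact_mod_cast h
          exact mul_nonneg hn0 (by linarith)
      rw [abs_of_nonneg (by linarith)]
      nlinarith
    have e3 : |v 0 * v 2 + v 1 * v 3| ≤ 2 * B ^ 2 := by
      refine (abs_add_le _ _).trans ?_
      linarith [mulB_le (hv 0) (hv 2), mulB_le (hv 1) (hv 3)]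
    refine (abs_add_le _ _).trans ?_
    have e4 : |(n : ℝ) * (n - 1) / 2 * (v 0 * v 2 + v 1 * v 3)| ≤ (R : ℝ) ^ 2 / 2 * (2 * B ^ 2) := by
      rw [abs_mul]
      exact mul_le_mul e2 e3 (abs_nonneg _) (by positivity)
    linarith
  have c : ∀ i j, |((n₁ : ℝ) * w i) * (n₀ * u j)| ≤ B ^ 2 * (R : ℝ) ^ 2 := by
    intro i j
    have e : ((n₁ : ℝ) * w i) * (n₀ * u j) = ((n₁ : ℝ) * n₀) * (w i * u j) := by ring
    rw [e, abs_mul, abs_of_nonneg (by positivity)]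
    have h2 : (n₁ : ℝ) * n₀ ≤ R * R :=
      mul_le_mul (by exact_mod_cast h1) (by exact_mod_cast h0) (Nat.cast_nonneg _) (by linarith)
    calc _ ≤ (R : ℝ) * R * B ^ 2 := mul_le_mul h2 (mulB_le (hw i) (hu j)) (abs_nonneg _)
          (by positivity)
      _ = _ := by ring
  unfold dr4
  refine (abs_add_le _ _).trans ((add_le_add ((abs_add_le _ _).trans (add_le_add (abs_add_le _ _)
    le_rfl)) le_rfl).trans ?_)
  linarith [g h0 hu hmu, g h1 hw hmw, c 0 2, c 1 3]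

/-- **the words** `u^n₀ w^n₁ [u, w]^k` -/
theorem sub4_word {Q : Law Ω} {u w : Fin 4 → ℝ} {mu mw c ρ e B : ℝ} {R R₃ : ℕ} (hB : 1 ≤ B)
    (hu : ∀ i, |u i| ≤ B) (hw : ∀ i, |w i| ≤ B) (hρ : 0 ≤ ρ) (he : 0 ≤ e)
    (hR : 1 ≤ R) (hρ1 : R₃ * ρ ≤ 1) (hρ2 : R * ρ ≤ 1)
    (h : SubC Q Q (St4 X M u mu ρ ρ) e) (h' : SubC Q Q (St4 X M w mw ρ ρ) e)
    (hc : SubC Q Q (St4 X M (fun _ => 0) c (4 * ρ) (36 * B * ρ)) (4 * e))
    {n₀ n₁ k : ℕ} (hn0 : n₀ ≤ R) (hn1 : n₁ ≤ R) (hk : k ≤ R₃) :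
    SubC Q Q (St4 X M (fun i => n₀ * u i + n₁ * w i) (dr4 u w mu mw n₀ n₁ + k * c)
      ((2 * R + 4 * R₃) * ρ) ((12 * (R : ℝ) ^ 2 + 68 * R₃ + 16 * R * R₃) * (B * ρ)))
      ((2 * R + 4 * R₃) * e) := by
  have hRr : (1 : ℝ) ≤ R := by exact_mod_cast hR
  have hB0 : 0 < B := by linarith
  have hρ1' : ρ ≤ 1 := by nlinarith
  have h0R : (n₀ : ℝ) ≤ R := by exact_mod_cast hn0
  have h1R : (n₁ : ℝ) ≤ R := by exact_mod_cast hn1
  have hkR : (k : ℝ) ≤ R₃ := by exact_mod_cast hk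
  have h00 : (0 : ℝ) ≤ n₀ := Nat.cast_nonneg _
  have h10 : (0 : ℝ) ≤ n₁ := Nat.cast_nonneg _
  have hk0 : (0 : ℝ) ≤ k := Nat.cast_nonneg _
  have hp0 : ∀ i, |(n₀ : ℝ) * u i| ≤ R * B := fun i => by
    rw [abs_mul, abs_of_nonneg h00]
    exact mul_le_mul h0R (hu i) (abs_nonneg _) (by linarith)
  have hp1 : ∀ i, |(n₁ : ℝ) * w i| ≤ R * B := fun i => by
    rw [abs_mul, abs_of_nonneg h10]
    exact mul_le_mul h1R (hw i) (abs_nonneg _) (by linarith)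
  have hn0ρ : (n₀ : ℝ) * ρ ≤ R * ρ := mul_le_mul_of_nonneg_right h0R hρ
  have hn1ρ : (n₁ : ℝ) * ρ ≤ R * ρ := mul_le_mul_of_nonneg_right h1R hρ
  have hkρ : (k : ℝ) * ρ ≤ R₃ * ρ := mul_le_mul_of_nonneg_right hkR hρ
  have hRρ0 : 0 ≤ (R : ℝ) * ρ := by positivity
  have hR3ρ0 : 0 ≤ (R₃ : ℝ) * ρ := by positivity
  have hRR : (R : ℝ) ≤ R ^ 2 := by nlinarith
  have hRρB : (R : ℝ) * ρ ≤ (R : ℝ) ^ 2 * (B * ρ) := by
    have h2 : ρ ≤ B * ρ := le_mul_of_one_le_left hρ hB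
    exact mul_le_mul hRR h2 hρ (by positivity)
  have hR3ρB : (R₃ : ℝ) * ρ ≤ R₃ * (B * ρ) :=
    mul_le_mul_of_nonneg_left (le_mul_of_one_le_left hρ hB) (Nat.cast_nonneg _)
  have s0 : 3 * B * (n₀ : ℝ) ^ 2 * ρ ≤ 3 * ((R : ℝ) ^ 2 * (B * ρ)) := by
    have h2 := mul_le_mul_of_nonneg_right (pow_le_pow_left₀ h00 h0R 2) (by positivity : 0 ≤ B * ρ)
    linarith
  have s1 : 3 * B * (n₁ : ℝ) ^ 2 * ρ ≤ 3 * ((R : ℝ) ^ 2 * (B * ρ)) := by
    have h2 := mul_le_mul_of_nonneg_right (pow_le_pow_left₀ h10 h1R 2) (by positivity : 0 ≤ B * ρ)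
    linarith
  have e1 : SubC Q Q (St4 X M (fun i => n₀ * u i + n₁ * w i) (dr4 u w mu mw n₀ n₁)
      (2 * R * ρ) (12 * ((R : ℝ) ^ 2 * (B * ρ)))) (2 * R * e) := by
    refine sub4_comp (sub4_pow hB hu hρ hρ1' h n₀) (sub4_pow hB hw hρ hρ1' h' n₁) (fun i => rfl)
      ?_ ?_ ?_ ?_
    · unfold dr4; ring
    · linarith
    · have b1 : ∀ i, |(n₀ : ℝ) * u i| * (n₁ * ρ) ≤ (R : ℝ) ^ 2 * (B * ρ) := fun i => by
        have := mul_le_mul (hp0 i) hn1ρ (by positivity) (by positivity)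
        calc _ ≤ (R : ℝ) * B * (R * ρ) := this
          _ = _ := by ring
      have b2 : ∀ i, |(n₁ : ℝ) * w i| * (n₀ * ρ) ≤ (R : ℝ) ^ 2 * (B * ρ) := fun i => by
        have := mul_le_mul (hp1 i) hn0ρ (by positivity) (by positivity)
        calc _ ≤ (R : ℝ) * B * (R * ρ) := this
          _ = _ := by ring
      have b3 : (n₀ : ℝ) * ρ * (n₁ * ρ) ≤ R * ρ := by
        have := mul_le_mul hn0ρ (hn1ρ.trans hρ2) (by positivity) hRρ0
        linarith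
      have a1 := b1 2
      have a2 := b1 3
      have a3 := b2 0
      have a4 := b2 1
      linarith
    · have q0 := mul_le_mul_of_nonneg_right h0R he
      have q1 := mul_le_mul_of_nonneg_right h1R he
      linarith
  have e2 := sub4_shift hc k
  refine sub4_comp e1 e2 (fun i => by simp) (by ring) ?_ ?_ ?_
  · nlinarith
  · have b0 : ∀ i, |(n₀ : ℝ) * u i + n₁ * w i| ≤ 2 * (R * B) := fun i =>
      (abs_add_le _ _).trans (by linarith [hp0 i, hp1 i])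
    have b2 : ∀ i, |(n₀ : ℝ) * u i + n₁ * w i| * (k * (4 * ρ)) ≤ 8 * (R * R₃ * (B * ρ)) := fun i => by
      have h4 : (k : ℝ) * (4 * ρ) ≤ 4 * (R₃ * ρ) := by linarith
      have := mul_le_mul (b0 i) h4 (by positivity) (by positivity)
      linarith
    have b3 : (k : ℝ) * (36 * B * ρ) ≤ 36 * (R₃ * (B * ρ)) := by
      have := mul_le_mul_of_nonneg_right hkR (by positivity : 0 ≤ B * ρ)
      linarith
    have b4 : (k : ℝ) ^ 2 * (4 * ρ) ^ 2 ≤ 16 * (R₃ * ρ) := by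
      have e1 : (k : ℝ) ^ 2 * (4 * ρ) ^ 2 = 16 * ((k * ρ) * (k * ρ)) := by ring
      have e3 : ((k : ℝ) * ρ) * (k * ρ) ≤ (R₃ * ρ) * 1 :=
        mul_le_mul hkρ (hkρ.trans hρ1) (by positivity) (by positivity)
      rw [e1]; linarith
    have b5 : 2 * R * ρ * (k * (4 * ρ)) ≤ 8 * (R₃ * ρ) := by
      have e3 : ((R : ℝ) * ρ) * (k * ρ) ≤ 1 * (R₃ * ρ) :=
        mul_le_mul hρ2 hkρ (by positivity) (by norm_num)
      calc 2 * R * ρ * (k * (4 * ρ)) = 8 * (((R : ℝ) * ρ) * (k * ρ)) := by ring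
        _ ≤ 8 * (R₃ * ρ) := by linarith
    simp only [abs_zero, zero_mul, add_zero]
    have a1 := b2 2
    have a2 := b2 3
    have e5 : (12 * (R : ℝ) ^ 2 + 68 * R₃ + 16 * R * R₃) * (B * ρ) =
        12 * ((R : ℝ) ^ 2 * (B * ρ)) + 68 * (R₃ * (B * ρ)) + 16 * (R * R₃ * (B * ρ)) := by ring
    rw [e5]
    linarith
  · have : (k : ℝ) * (4 * e) ≤ R₃ * (4 * e) := mul_le_mul_of_nonneg_right hkR (by positivity)
    linarith

/-- the natural label at scale `L` : cells of side `L` and the sheared digit at scale `L²` -/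
noncomputable def lbH (L : ℝ) (X : Fin 4 → ℝ) (M : ℝ) : ℤ × (Fin 4 → ℤ) :=
  (⌊(M - L * ⌊X 2 / L⌋ * X 0 - L * ⌊X 3 / L⌋ * X 1) / (L * L)⌋, fun i => ⌊X i / L⌋)

omit [Fintype Ω] in
/-- the fine label determines `k c` up to `5 / 2` -/
theorem fibH {u : Fin 4 → ℝ} {c d R ρX σM B : ℝ} {a : Ω}
    {f : ℤ × (Fin 4 → ℤ)} (hB : 1 ≤ B) (hc0 : 0 < |c|) (hcB : |c| ≤ 4 * B ^ 2) (hR : 0 ≤ R)
    (hu : ∀ i, |u i| ≤ 2 * (R * B)) (hσM1 : σM ≤ 1) (hρX1 : ρX * (2 * (R * B) + 2) ≤ 1 / 2)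
    (S : Finset ℕ)
    (hS : ∀ k ∈ S, ∃ b, St4 X M u (d + (k : ℝ) * c) ρX σM a b ∧ lbH 1 (X b) (M b) = f) :
    (S.card : ℝ) ≤ 9 * B ^ 2 / |c| := by
  have hB0 : 0 < B := by linarith
  have h5 := card_nat_le S c ((f.1 : ℝ) + 1 / 2 + (f.2 2 : ℝ) * (X a 0 + u 0) +
    (f.2 3 : ℝ) * (X a 1 + u 1) - M a - X a 2 * u 0 - X a 3 * u 1 - d) (5 / 2) (abs_pos.1 hc0)
    (by norm_num) ?_
  · refine h5.trans ?_
    rw [div_add_one hc0.ne']
    exact div_le_div_of_nonneg_right (by nlinarith) hc0.le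
  · intro k hk
    obtain ⟨b, hW, hF⟩ := hS k hk
    have g0 := hW.1 0
    have g1 := hW.1 1
    have g2 := hW.1 2
    have g3 := hW.1 3
    have g4 : |M b - M a - X a 2 * (X b 0 - X a 0) - X a 3 * (X b 1 - X a 1) - (d + k * c)| ≤ 1 :=
      hW.2.trans hσM1
    rw [Prod.ext_iff] at hF
    obtain ⟨k1, k2⟩ := hF
    have q2 : ⌊X b 2 / 1⌋ = f.2 2 := congrFun k2 2
    have q3 : ⌊X b 3 / 1⌋ = f.2 3 := congrFun k2 3
    simp only [lbH] at k1
    rw [q2, q3] at k1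
    have m2 := abs_fl one_pos q2
    have m3 := abs_fl one_pos q3
    have m1 := abs_fl (by norm_num : (0 : ℝ) < 1 * 1) k1
    have hRB : 0 ≤ R * B := by positivity
    have hρX2 : ρX ≤ 1 / 4 := by nlinarith
    set δ0 := X b 0 - X a 0 - u 0 with hδ0
    set δ1 := X b 1 - X a 1 - u 1 with hδ1
    have m4 : |(f.2 2 : ℝ) - X a 2| ≤ 2 * (R * B) + 2 := by
      have : (f.2 2 : ℝ) - X a 2 = -(X b 2 - ((f.2 2 : ℝ) + 1 / 2) * 1) - 1 / 2 +
          (X b 2 - X a 2 - u 2) + u 2 := by ring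
      have hu2 := hu 2
      rw [this]
      rw [abs_le] at g2 m2 hu2 ⊢
      constructor <;> linarith [g2.1, g2.2, m2.1, m2.2, hu2.1, hu2.2]
    have m5 : |(f.2 3 : ℝ) - X a 3| ≤ 2 * (R * B) + 2 := by
      have : (f.2 3 : ℝ) - X a 3 = -(X b 3 - ((f.2 3 : ℝ) + 1 / 2) * 1) - 1 / 2 +
          (X b 3 - X a 3 - u 3) + u 3 := by ring
      have hu3 := hu 3
      rw [this]
      rw [abs_le] at g3 m3 hu3 ⊢
      constructor <;> linarith [g3.1, g3.2, m3.1, m3.2, hu3.1, hu3.2]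
    have m6 : |((f.2 2 : ℝ) - X a 2) * δ0| ≤ 1 / 2 := by
      rw [abs_mul]
      refine le_trans (mul_le_mul m4 g0 (abs_nonneg _) (by positivity)) ?_
      linarith
    have m7 : |((f.2 3 : ℝ) - X a 3) * δ1| ≤ 1 / 2 := by
      rw [abs_mul]
      refine le_trans (mul_le_mul m5 g1 (abs_nonneg _) (by positivity)) ?_
      linarith
    have e0 : (k : ℝ) * c - ((f.1 : ℝ) + 1 / 2 + (f.2 2 : ℝ) * (X a 0 + u 0) +
        (f.2 3 : ℝ) * (X a 1 + u 1) - M a - X a 2 * u 0 - X a 3 * u 1 - d) =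
        -(M b - M a - X a 2 * (X b 0 - X a 0) - X a 3 * (X b 1 - X a 1) - (d + k * c)) +
          ((M b - 1 * (f.2 2 : ℝ) * X b 0 - 1 * (f.2 3 : ℝ) * X b 1) -
            ((f.1 : ℝ) + 1 / 2) * (1 * 1)) +
          ((f.2 2 : ℝ) - X a 2) * δ0 + ((f.2 3 : ℝ) - X a 3) * δ1 := by
      rw [hδ0, hδ1]; ring
    rw [e0]
    rw [abs_le] at g4 m1 m6 m7 ⊢
    constructor <;> linarith [g4.1, g4.2, m1.1, m1.2, m6.1, m6.2, m7.1, m7.2]

/-- five values of a floor -/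
theorem floor5 {x y : ℝ} (h : |y - x| ≤ 2) : ⌊y⌋ ∈ Finset.Icc (⌊x⌋ - 2) (⌊x⌋ + 2) := by
  rw [Finset.mem_Icc]
  have h1 := Int.floor_le x
  have h2 := Int.lt_floor_add_one x
  rw [abs_le] at h
  constructor
  · rw [Int.le_floor]; push_cast; linarith [h.1]
  · have : (⌊y⌋ : ℝ) < ⌊x⌋ + 3 := by linarith [Int.floor_le y, h.2]
    have h3 : (⌊y⌋ : ℤ) < ⌊x⌋ + 3 := by exact_mod_cast this
    omega

omit [Fintype Ω] in
/-- number of coarse labels over a point and a coarse cell of the good pair `i₀, i₁` of coordinates -/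
theorem crsH {L R Bd B ρX σM : ℝ} {a : Ω} {i₀ i₁ : Fin 4} {al be : Fin 4 → ℝ} {q₀ q₁ : ℤ}
    (hB : 1 ≤ B) (hal : ∀ l, |al l| ≤ 1) (hbe : ∀ l, |be l| ≤ 1)
    (hL : 1 ≤ L) (hLR : 16 * L ≤ R) (hBd : 10 * (B ^ 2 * R ^ 2) ≤ Bd) (hσM1 : σM ≤ 1)
    (hρX2 : ρX ≤ 1 / 4) (S : Finset (ℤ × (Fin 4 → ℤ)))
    (hS : ∀ g ∈ S, ∃ (u : Fin 4 → ℝ) (d kc : ℝ) (b : Ω), (∀ l, |u l| ≤ 2 * (R * B)) ∧
      (∀ l, u l = al l * u i₀ + be l * u i₁) ∧ |d| ≤ 6 * (B ^ 2 * R ^ 2) ∧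
      |kc| ≤ Bd ∧ St4 X M u (d + kc) ρX σM a b ∧ ⌊X b i₀ / L⌋ = q₀ ∧ ⌊X b i₁ / L⌋ = q₁ ∧
      lbH L (X b) (M b) = g) :
    (S.card : ℝ) ≤ 5 * Bd / (L * L) * 625 := by
  classical
  have hL0 : 0 < L := by linarith
  have hR16 : 16 ≤ R := by linarith
  have hR2 : 0 ≤ R ^ 2 := sq_nonneg R
  have hB1 : 1 ≤ B ^ 2 := by nlinarith
  have hBR : R ^ 2 ≤ B ^ 2 * R ^ 2 := le_mul_of_one_le_left hR2 hB1
  have hR1 : 1 ≤ R ^ 2 := by nlinarith
  have hBd0 : 0 ≤ Bd := by linarith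
  have hLLR : L * L ≤ R ^ 2 := by nlinarith
  have hRB : R ≤ R * B := le_mul_of_one_le_right (by linarith) hB
  have hRB0 : 0 < R * B := by linarith
  have hBB : B ≤ B ^ 2 := by nlinarith
  refine card_pair_le _ _ _ (by positivity) ?_ ?_
  · intro T hT
    set cc : Fin 4 → ℝ := fun l => X a l - al l * X a i₀ - be l * X a i₁ +
      al l * (((q₀ : ℝ) + 1 / 2) * L) + be l * (((q₁ : ℝ) + 1 / 2) * L) with hcc
    have hsub : T ⊆ Fintype.piFinset fun i : Fin 4 =>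
        Finset.Icc (⌊cc i / L⌋ - 2) (⌊cc i / L⌋ + 2) := by
      intro q hq
      obtain ⟨j, hj⟩ := hT q hq
      obtain ⟨u, d, kc, b, h1, h2, _, _, hW, h5, h6, hF⟩ := hS _ hj
      rw [Fintype.mem_piFinset]
      intro l
      have h7 : ⌊X b l / L⌋ = q l := congrFun (congrArg Prod.snd hF) l
      rw [← h7]
      refine floor5 ?_
      rw [← sub_div, abs_div, abs_of_pos hL0, div_le_iff₀ hL0]
      have m5 := abs_fl hL0 h5
      have m6 := abs_fl hL0 h6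
      have gl := hW.1 l
      have g0 := hW.1 i₀
      have g1 := hW.1 i₁
      have e0 : X b l - cc l = al l * (X b i₀ - ((q₀ : ℝ) + 1 / 2) * L) +
          be l * (X b i₁ - ((q₁ : ℝ) + 1 / 2) * L) + (X b l - X a l - u l) -
          al l * (X b i₀ - X a i₀ - u i₀) - be l * (X b i₁ - X a i₁ - u i₁) := by
        rw [hcc, h2 l]
        ring
      have p : ∀ {x y z : ℝ}, |x| ≤ 1 → |y| ≤ z → |x * y| ≤ z := fun hx hy => by
        rw [abs_mul]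
        exact (mul_le_of_le_one_left (abs_nonneg _) hx).trans hy
      have p1 := p (hal l) m5
      have p2 := p (hbe l) m6
      have p3 := p (hal l) g0
      have p4 := p (hbe l) g1
      rw [e0]
      rw [abs_le] at p1 p2 p3 p4 gl ⊢
      constructor <;> linarith [p1.1, p1.2, p2.1, p2.2, p3.1, p3.2, p4.1, p4.2, gl.1, gl.2]
    have h3 := Finset.card_le_card hsub
    rw [Fintype.card_piFinset] at h3
    have h4 : (∏ i : Fin 4, (Finset.Icc (⌊cc i / L⌋ - 2) (⌊cc i / L⌋ + 2)).card) = 625 := by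
      have : ∀ i : Fin 4, (Finset.Icc (⌊cc i / L⌋ - 2) (⌊cc i / L⌋ + 2)).card = 5 := by
        intro i
        rw [Int.card_Icc]
        have : ⌊cc i / L⌋ + 2 + 1 - (⌊cc i / L⌋ - 2) = 5 := by ring
        rw [this]
        rfl
      simp only [this]
      simp
    rw [h4] at h3
    exact_mod_cast h3
  · intro q T hT
    have h5 := card_int_le T (L * L) (M a - X a 2 * X a 0 - X a 3 * X a 1 +
      (X a 2 - L * q 2) * (((q 0 : ℝ) + 1 / 2) * L) + (X a 3 - L * q 3) * (((q 1 : ℝ) + 1 / 2) * L))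
      (2 * Bd) (by positivity) (by positivity) ?_
    · refine h5.trans ?_
      rw [abs_of_pos (by positivity), div_add_one (by positivity)]
      refine div_le_div_of_nonneg_right ?_ (by positivity)
      linarith
    · intro w hw
      obtain ⟨u, d, kc, b, h1, _, h3, h4, hW, _, _, hF⟩ := hS _ (hT w hw)
      rw [Prod.ext_iff] at hF
      obtain ⟨k1, k2⟩ := hF
      have r0 : ⌊X b 0 / L⌋ = q 0 := congrFun k2 0
      have r1 : ⌊X b 1 / L⌋ = q 1 := congrFun k2 1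
      have r2 : ⌊X b 2 / L⌋ = q 2 := congrFun k2 2
      have r3 : ⌊X b 3 / L⌋ = q 3 := congrFun k2 3
      simp only [lbH] at k1
      rw [r2, r3] at k1
      have m0 := abs_fl hL0 r0
      have m1 := abs_fl hL0 r1
      have m2 := abs_fl hL0 r2
      have m3 := abs_fl hL0 r3
      have mM := abs_fl (by positivity : 0 < L * L) k1
      have g2 := hW.1 2
      have g3 := hW.1 3
      have g4 : |M b - M a - X a 2 * (X b 0 - X a 0) - X a 3 * (X b 1 - X a 1) - (d + kc)| ≤ 1 :=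
        hW.2.trans hσM1
      have n2 : |X a 2 - L * q 2| ≤ 3 * (R * B) := by
        have : X a 2 - L * q 2 = (X b 2 - ((q 2 : ℝ) + 1 / 2) * L) + L / 2 -
          (X b 2 - X a 2 - u 2) - u 2 := by ring
        have hu2 := h1 2
        rw [this]
        rw [abs_le] at g2 m2 hu2 ⊢
        constructor <;> linarith [g2.1, g2.2, m2.1, m2.2, hu2.1, hu2.2]
      have n3 : |X a 3 - L * q 3| ≤ 3 * (R * B) := by
        have : X a 3 - L * q 3 = (X b 3 - ((q 3 : ℝ) + 1 / 2) * L) + L / 2 -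
          (X b 3 - X a 3 - u 3) - u 3 := by ring
        have hu3 := h1 3
        rw [this]
        rw [abs_le] at g3 m3 hu3 ⊢
        constructor <;> linarith [g3.1, g3.2, m3.1, m3.2, hu3.1, hu3.2]
      have p : ∀ {x y : ℝ}, |x| ≤ 3 * (R * B) → |y| ≤ L / 2 → |x * y| ≤ B ^ 2 * R ^ 2 :=
        fun hx hy => by
          rw [abs_mul]
          have h6 := mul_le_mul hx hy (abs_nonneg _) (by linarith)
          have h7 : 3 * (R * B) * (L / 2) ≤ R * B * R := by nlinarith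
          have h8 : R * B * R ≤ B ^ 2 * R ^ 2 := by
            have := mul_le_mul_of_nonneg_right hBB hR2
            linarith
          linarith
      have p1 := p n2 m0
      have p2 := p n3 m1
      have e0 : (w : ℝ) * (L * L) - (M a - X a 2 * X a 0 - X a 3 * X a 1 +
          (X a 2 - L * q 2) * (((q 0 : ℝ) + 1 / 2) * L) +
          (X a 3 - L * q 3) * (((q 1 : ℝ) + 1 / 2) * L)) =
          -((M b - L * (q 2 : ℝ) * X b 0 - L * (q 3 : ℝ) * X b 1) - ((w : ℝ) + 1 / 2) * (L * L)) -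
            1 / 2 * (L * L) +
          (M b - M a - X a 2 * (X b 0 - X a 0) - X a 3 * (X b 1 - X a 1) - (d + kc)) + d + kc +
          (X a 2 - L * q 2) * (X b 0 - ((q 0 : ℝ) + 1 / 2) * L) +
          (X a 3 - L * q 3) * (X b 1 - ((q 1 : ℝ) + 1 / 2) * L) := by ring
      rw [e0]
      rw [abs_le] at g4 mM p1 p2 h3 h4 ⊢
      constructor <;> linarith [g4.1, g4.2, mM.1, mM.2, p1.1, p1.2, p2.1, p2.2, h3.1, h3.2, h4.1,
        h4.2]

/-- the best `2 × 2` minor -/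
theorem best_minor {u w : Fin 4 → ℝ} {τ : ℝ} (hτ : 0 < τ) (h : τ ≤ |comH u w|) :
    ∃ i₀ i₁ : Fin 4, τ / 2 ≤ |u i₀ * w i₁ - u i₁ * w i₀| ∧ ∃ al be : Fin 4 → ℝ,
      (∀ l, |al l| ≤ 1) ∧ (∀ l, |be l| ≤ 1) ∧ (∀ l, u l = al l * u i₀ + be l * u i₁) ∧
        (∀ l, w l = al l * w i₀ + be l * w i₁) := by
  classical
  obtain ⟨⟨i₀, i₁⟩, _, hmax⟩ := Finset.exists_max_image (univ : Finset (Fin 4 × Fin 4))
    (fun p => |u p.1 * w p.2 - u p.2 * w p.1|) ⟨(0, 0), Finset.mem_univ _⟩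
  have hm : ∀ i j, |u i * w j - u j * w i| ≤ |u i₀ * w i₁ - u i₁ * w i₀| := fun i j =>
    hmax (i, j) (Finset.mem_univ _)
  have h1 : |comH u w| ≤ 2 * |u i₀ * w i₁ - u i₁ * w i₀| := by
    have e : comH u w = (u 2 * w 0 - u 0 * w 2) + (u 3 * w 1 - u 1 * w 3) := by
      unfold comH; ring
    rw [e]
    refine (abs_add_le _ _).trans ?_
    linarith [hm 2 0, hm 3 1]
  have h2 : τ / 2 ≤ |u i₀ * w i₁ - u i₁ * w i₀| := by linarith
  have hD0 : 0 < |u i₀ * w i₁ - u i₁ * w i₀| := by linarith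
  have hD : u i₀ * w i₁ - u i₁ * w i₀ ≠ 0 := abs_pos.1 hD0
  refine ⟨i₀, i₁, h2, fun l => (u l * w i₁ - u i₁ * w l) / (u i₀ * w i₁ - u i₁ * w i₀),
    fun l => (u i₀ * w l - u l * w i₀) / (u i₀ * w i₁ - u i₁ * w i₀), ?_, ?_, ?_, ?_⟩
  · intro l
    rw [abs_div, div_le_one hD0]
    exact hm l i₁
  · intro l
    rw [abs_div, div_le_one hD0]
    exact hm i₀ l
  · intro l
    rw [div_mul_eq_mul_div, div_mul_eq_mul_div, ← add_div, eq_div_iff hD]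
    ring
  · intro l
    rw [div_mul_eq_mul_div, div_mul_eq_mul_div, ← add_div, eq_div_iff hD]
    ring

/-- numerical end -/
theorem numG {L R₃ c B E H : ℝ} (hB : 1 ≤ B) (hL : 1 ≤ L) (hR3 : 0 < R₃) (hc : 0 < c)
    (key : (2 : ℝ) * Real.log (L / B / 1) - 2 * Real.log (3 * (2 * 2 + 3)) +
      (Real.log R₃ - Real.log (9 * B ^ 2 / c) - Real.log (5 * (R₃ * c) / (L * L) * 625)) - E ≤ H) :
    4 * Real.log L - (17 + 4 * Real.log B) - E ≤ H := by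
  have hL0 : 0 < L := by linarith
  have hB0 : 0 < B := by linarith
  have e1 : Real.log (9 * B ^ 2 / c) = Real.log 9 + 2 * Real.log B - Real.log c := by
    rw [Real.log_div (by positivity) hc.ne', Real.log_mul (by norm_num) (by positivity),
      Real.log_pow]
    push_cast
    ring
  have e2 : Real.log (5 * (R₃ * c) / (L * L) * 625) =
      Real.log 3125 + Real.log R₃ + Real.log c - 2 * Real.log L := by
    have e3 : 5 * (R₃ * c) / (L * L) * 625 = 3125 * R₃ * c / L ^ 2 := by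
      field_simp
      ring
    rw [e3, Real.log_div (by positivity) (by positivity), Real.log_mul (by positivity)
      (by positivity), Real.log_mul (by norm_num) (by positivity), Real.log_pow]
    push_cast
    ring
  have e0 : Real.log (L / B / 1) = Real.log L - Real.log B := by
    rw [div_one, Real.log_div (by positivity) (by positivity)]
  rw [e0, e1, e2] at key
  have e4 : 2 * Real.log (3 * (2 * 2 + 3)) + (Real.log 9 + Real.log 3125) ≤ 17 := by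
    have h1 : 2 * Real.log (3 * (2 * 2 + 3)) + (Real.log 9 + Real.log 3125) =
        Real.log (21 ^ 2 * (9 * 3125)) := by
      have q2 : Real.log ((21 : ℝ) ^ 2 * (9 * 3125)) = Real.log ((21 : ℝ) ^ 2) + Real.log (9 * 3125) :=
        Real.log_mul (by norm_num) (by norm_num)
      have q4 : Real.log ((9 : ℝ) * 3125) = Real.log 9 + Real.log 3125 :=
        Real.log_mul (by norm_num) (by norm_num)
      have q3 : (3 : ℝ) * (2 * 2 + 3) = 21 := by norm_num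
      rw [q2, q4, q3, Real.log_pow]
      push_cast
      ring
    rw [h1]
    have h2 : Real.log (21 ^ 2 * (9 * 3125)) ≤ Real.log (Real.exp 17) := by
      refine Real.log_le_log (by norm_num) ?_
      have h3 : (2.7182818283 : ℝ) ^ 17 ≤ Real.exp 17 := by
        have h4 : Real.exp 17 = Real.exp 1 ^ 17 := by
          rw [← Real.exp_nat_mul]; norm_num
        rw [h4]
        exact pow_le_pow_left₀ (by norm_num) Real.exp_one_gt_d9.le 17
      refine le_trans ?_ h3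
      norm_num
    rwa [Real.log_exp] at h2
  linarith

/-- the tolerances -/
theorem tolG {R R₃ ρ B : ℝ} (hB : 1 ≤ B) (hRr : 16 ≤ R) (hR3R : R ≤ R₃) (hρ : 0 ≤ ρ)
    (hRρ : 100 * B * R * R₃ * ρ ≤ 1) :
    (12 * R ^ 2 + 68 * R₃ + 16 * R * R₃) * (B * ρ) ≤ 1 ∧
      (2 * R + 4 * R₃) * ρ * (2 * (R * B) + 2) ≤ 1 / 2 ∧ (2 * R + 4 * R₃) * ρ ≤ 1 / 4 ∧
      R₃ * ρ ≤ 1 ∧ R * ρ ≤ 1 ∧ ρ ≤ 1 := by
  have hB0 : 0 < B := by linarith
  have hsmall : ∀ {x y : ℝ}, x ≤ y → x * ρ ≤ y * ρ := fun hxy => mul_le_mul_of_nonneg_right hxy hρ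
  have hR3r : 0 < R₃ := by linarith
  have hRR3 : 16 * R₃ ≤ R * R₃ := mul_le_mul_of_nonneg_right hRr hR3r.le
  have hRR3' : R ^ 2 ≤ R * R₃ := by
    rw [pow_two]; exact mul_le_mul_of_nonneg_left hR3R (by linarith)
  have hRR0 : 0 ≤ R * R₃ := by linarith
  have hBRR : R * R₃ ≤ B * (R * R₃) := le_mul_of_one_le_left hRR0 hB
  have hρ1 : R₃ * ρ ≤ 1 := (hsmall (by linarith : R₃ ≤ 100 * B * R * R₃)).trans hRρ
  have hρ2 : R * ρ ≤ 1 := (hsmall hR3R).trans hρ1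
  refine ⟨?_, ?_, ?_, hρ1, hρ2, ?_⟩
  · have h1 : (12 * R ^ 2 + 68 * R₃ + 16 * R * R₃) * B ≤ 100 * B * R * R₃ := by
      have h2 : 12 * R ^ 2 + 68 * R₃ + 16 * R * R₃ ≤ 100 * (R * R₃) := by linarith
      have := mul_le_mul_of_nonneg_right h2 hB0.le
      linarith
    have h2 := (hsmall h1).trans hRρ
    calc _ = (12 * R ^ 2 + 68 * R₃ + 16 * R * R₃) * B * ρ := by ring
      _ ≤ 1 := h2
  · have h1 : (2 * R + 4 * R₃) * (2 * (R * B) + 2) * 2 ≤ 100 * B * R * R₃ := by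
      have h2 : 2 * (R * B) + 2 ≤ 3 * (R * B) := by nlinarith
      have h3 : 2 * R + 4 * R₃ ≤ 6 * R₃ := by linarith
      have h4 : 0 ≤ R * B := by nlinarith
      have h5 := mul_le_mul h3 h2 (by linarith) (by linarith)
      have h6 : 0 ≤ B * (R * R₃) := by positivity
      nlinarith
    have h2 := (hsmall h1).trans hRρ
    have e : (2 * R + 4 * R₃) * ρ * (2 * (R * B) + 2) =
        (2 * R + 4 * R₃) * (2 * (R * B) + 2) * 2 * ρ / 2 := by
      ring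
    rw [e]; linarith
  · have h1 : (2 * R + 4 * R₃) * 4 ≤ 100 * B * R * R₃ := by linarith
    have h2 := (hsmall h1).trans hRρ
    linarith
  · exact (le_mul_of_one_le_left hρ (by linarith : (1 : ℝ) ≤ R)).trans hρ2

/-- the good pair of coordinates, divided by `B` -/
noncomputable def vG (B : ℕ) (u w : Fin 4 → ℝ) (i₀ i₁ : Fin 4) : Fin 2 → Fin 2 → ℝ :=
  ![![u i₀ / B, u i₁ / B], ![w i₀ / B, w i₁ / B]]

theorem divB {B : ℕ} (hB : 1 ≤ B) {x r : ℝ} (hx : |x| ≤ r) : |x / B| ≤ r / B := by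
  have : (0 : ℝ) < B := by exact_mod_cast hB
  rw [abs_div, Nat.abs_cast]
  exact div_le_div_of_nonneg_right hx this.le

theorem cmbG (B : ℕ) (u w : Fin 4 → ℝ) (i₀ i₁ : Fin 4) (n : Fin 2 → ℕ) :
    cmb (vG B u w i₀ i₁) (fun k => (n k : ℝ)) 0 = (n 0 * u i₀ + n 1 * w i₀) / B ∧
      cmb (vG B u w i₀ i₁) (fun k => (n k : ℝ)) 1 = (n 0 * u i₁ + n 1 * w i₁) / B := by
  constructor
  · show ∑ k, (n k : ℝ) * vG B u w i₀ i₁ k 0 = _
    rw [Fin.sum_univ_two]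
    show (n 0 : ℝ) * (u i₀ / B) + (n 1 : ℝ) * (w i₀ / B) = _
    ring
  · show ∑ k, (n k : ℝ) * vG B u w i₀ i₁ k 1 = _
    rw [Fin.sum_univ_two]
    show (n 0 : ℝ) * (u i₁ / B) + (n 1 : ℝ) * (w i₁ / B) = _
    ring

theorem vG_le {B : ℕ} (hB : 1 ≤ B) {u w : Fin 4 → ℝ} (hu : ∀ i, |u i| ≤ B) (hw : ∀ i, |w i| ≤ B)
    (i₀ i₁ : Fin 4) : ∀ k i, |vG B u w i₀ i₁ k i| ≤ 1 := by
  have hB0 : (B : ℝ) ≠ 0 := by
    have : (0 : ℝ) < B := by exact_mod_cast hB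
    exact this.ne'
  have q : ∀ {x : ℝ}, |x| ≤ B → |x / B| ≤ 1 := fun hx => (divB hB hx).trans (by rw [div_self hB0])
  intro k i
  fin_cases k <;> fin_cases i
  · exact q (hu i₀)
  · exact q (hu i₁)
  · exact q (hw i₀)
  · exact q (hw i₁)

theorem vG_det {B : ℕ} (hB : 1 ≤ B) {u w : Fin 4 → ℝ} {i₀ i₁ : Fin 4} {τ : ℝ}
    (hmin : τ / 2 ≤ |u i₀ * w i₁ - u i₁ * w i₀|) :
    τ / (2 * B ^ 2) ≤ |Matrix.det (Matrix.of (vG B u w i₀ i₁))| := by
  have hB0 : (0 : ℝ) < B := by exact_mod_cast hB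
  rw [Matrix.det_fin_two]
  show τ / (2 * B ^ 2) ≤ |u i₀ / B * (w i₁ / B) - u i₁ / B * (w i₀ / B)|
  have e : u i₀ / B * (w i₁ / B) - u i₁ / B * (w i₀ / B) =
      (u i₀ * w i₁ - u i₁ * w i₀) / (B : ℝ) ^ 2 := by
    field_simp
  rw [e, abs_div, abs_of_pos (by positivity : (0 : ℝ) < (B : ℝ) ^ 2), ← div_div]
  exact div_le_div_of_nonneg_right hmin (by positivity)

theorem flB {B : ℕ} {x y : ℝ} (hxy : ⌊x / 1⌋ = ⌊y / 1⌋) : ⌊x / B / 1⌋ = ⌊y / B / 1⌋ := by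
  rw [div_one, div_one] at hxy
  rw [div_one, div_one, Int.floor_div_natCast, Int.floor_div_natCast, hxy]

omit [Fintype Ω] in
theorem celG {B : ℕ} (hB : 1 ≤ B) (X : Ω → Fin 4 → ℝ) (i₀ i₁ : Fin 4) (s : ℝ) (b : Ω) :
    celd (s / B) (![X b i₀ / B, X b i₁ / B] : Fin 2 → ℝ) 0 = ⌊X b i₀ / s⌋ ∧
      celd (s / B) (![X b i₀ / B, X b i₁ / B] : Fin 2 → ℝ) 1 = ⌊X b i₁ / s⌋ := by
  have hB0 : (B : ℝ) ≠ 0 := by
    have : (0 : ℝ) < B := by exact_mod_cast hB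
    exact this.ne'
  constructor
  · show ⌊X b i₀ / B / (s / B)⌋ = _
    rw [div_div_div_cancel_right₀ hB0]
  · show ⌊X b i₁ / B / (s / B)⌋ = _
    rw [div_div_div_cancel_right₀ hB0]

theorem dispG {B : ℝ} {u w : Fin 4 → ℝ} (hu : ∀ i, |u i| ≤ B) (hw : ∀ i, |w i| ≤ B) {R : ℕ}
    {n : Fin 2 → ℕ} (hn : ∀ i, n i < R) (l : Fin 4) :
    |(n 0 : ℝ) * u l + n 1 * w l| ≤ 2 * (R * B) := by
  have h1 : ((n 0 : ℕ) : ℝ) ≤ R := by exact_mod_cast (hn 0).le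
  have h2 : ((n 1 : ℕ) : ℝ) ≤ R := by exact_mod_cast (hn 1).le
  refine (abs_add_le _ _).trans ?_
  rw [abs_mul, abs_mul, Nat.abs_cast, Nat.abs_cast]
  have h3 := mul_le_mul h1 (hu l) (abs_nonneg _) (Nat.cast_nonneg _)
  have h4 := mul_le_mul h2 (hw l) (abs_nonneg _) (Nat.cast_nonneg _)
  linarith

omit [Fintype Ω] in
/-- the word moves the good pair -/
theorem mvdG {B : ℕ} (hB : 1 ≤ B) {u w : Fin 4 → ℝ} {i₀ i₁ : Fin 4} {n : Fin 2 → ℕ}
    {m ρX σM : ℝ} {a b : Ω} (hρ : ρX ≤ 1)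
    (hW : St4 X M (fun i => n 0 * u i + n 1 * w i) m ρX σM a b) :
    Mvd (vG B u w i₀ i₁) (![X a i₀ / B, X a i₁ / B] : Fin 2 → ℝ) n ![X b i₀ / B, X b i₁ / B] := by
  have hB0 : (1 : ℝ) ≤ B := by exact_mod_cast hB
  have p : ∀ {x : ℝ}, |x| ≤ ρX → |x / B| ≤ 1 := fun hx => (divB hB hx).trans (by
    rw [div_le_one (by linarith)]
    linarith)
  obtain ⟨c0, c1⟩ := cmbG B u w i₀ i₁ n
  intro i
  fin_cases i
  · show |X b i₀ / B - X a i₀ / B - cmb (vG B u w i₀ i₁) (fun k => (n k : ℝ)) 0| ≤ 1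
    rw [c0]
    have e : X b i₀ / B - X a i₀ / B - (n 0 * u i₀ + n 1 * w i₀) / B =
      (X b i₀ - X a i₀ - (n 0 * u i₀ + n 1 * w i₀)) / B := by ring
    rw [e]
    exact p (hW.1 i₀)
  · show |X b i₁ / B - X a i₁ / B - cmb (vG B u w i₀ i₁) (fun k => (n k : ℝ)) 1| ≤ 1
    rw [c1]
    have e : X b i₁ / B - X a i₁ / B - (n 0 * u i₁ + n 1 * w i₁) / B =
      (X b i₁ - X a i₁ - (n 0 * u i₁ + n 1 * w i₁)) / B := by ring
    rw [e]
    exact p (hW.1 i₁)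

/-- **SATURATION of the whole cell** from the near invariances under two generators and their inverses -/
theorem satG (Q : Law Ω) {u w : Fin 4 → ℝ} {mu mw mu' mw' τ L ρ e : ℝ} {B R R₃ : ℕ} (hB : 1 ≤ B)
    (hu : ∀ i, |u i| ≤ B) (hw : ∀ i, |w i| ≤ B) (hmu : |mu| ≤ (B : ℝ) ^ 2)
    (hmw : |mw| ≤ (B : ℝ) ^ 2)
    (hmu' : mu' = u 0 * u 2 + u 1 * u 3 - mu) (hmw' : mw' = w 0 * w 2 + w 1 * w 3 - mw)
    (hτ : 0 < τ) (hτ1 : τ ≤ 1) (hcc : τ ≤ |comH u w|) (hL : 1 ≤ L)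
    (hR : 16 * (B * L) ≤ R * τ) (hR3 : 10 * ((B : ℝ) ^ 2 * (R : ℝ) ^ 2) ≤ R₃ * τ) (hρ : 0 ≤ ρ)
    (hRρ : 100 * B * R * R₃ * ρ ≤ 1) (he : 0 ≤ e)
    (h : SubC Q Q (St4 X M u mu ρ ρ) e) (h' : SubC Q Q (St4 X M w mw ρ ρ) e)
    (hi : SubC Q Q (St4 X M (fun i => - u i) mu' ρ ρ) e)
    (hi' : SubC Q Q (St4 X M (fun i => - w i) mw' ρ ρ) e) :
    4 * Real.log L - (17 + 4 * Real.log B) -
        (2 * R + 4 * R₃) * e * (1 + 2 * Real.log R + Real.log R₃) ≤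
      hc Q (fun ω => lbH 1 (X ω) (M ω)) (fun ω => lbH L (X ω) (M ω)) := by
  classical
  have hBr : (1 : ℝ) ≤ B := by exact_mod_cast hB
  have hB0 : (0 : ℝ) < B := by linarith
  have hRτ : (R : ℝ) * τ ≤ R * 1 := mul_le_mul_of_nonneg_left hτ1 (Nat.cast_nonneg _)
  have hBL : L ≤ B * L := le_mul_of_one_le_left (by linarith) hBr
  have hLR : 16 * L ≤ R := by linarith
  have hRr : (16 : ℝ) ≤ R := by linarith
  set c : ℝ := comH u w with hcdef
  have hc0 : 0 < |c| := hτ.trans_le hcc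
  have hcB : |c| ≤ 4 * (B : ℝ) ^ 2 := comH_le hB0.le hu hw
  have hR3c : 10 * ((B : ℝ) ^ 2 * (R : ℝ) ^ 2) ≤ R₃ * |c| :=
    hR3.trans (mul_le_mul_of_nonneg_left hcc (Nat.cast_nonneg _))
  have hB2 : 1 ≤ (B : ℝ) ^ 2 := by nlinarith
  have hR3R : (R : ℝ) ≤ R₃ := by
    have h1 : (R₃ : ℝ) * τ ≤ R₃ * 1 := mul_le_mul_of_nonneg_left hτ1 (Nat.cast_nonneg _)
    have h2 : (R : ℝ) ^ 2 ≤ (B : ℝ) ^ 2 * (R : ℝ) ^ 2 := le_mul_of_one_le_left (sq_nonneg _) hB2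
    nlinarith
  have hR3r : (0 : ℝ) < R₃ := by linarith
  have hRr0 : (0 : ℝ) < R := by linarith
  have hR0 : 0 < R := by exact_mod_cast hRr0
  have hR30 : 0 < R₃ := by exact_mod_cast hR3r
  have hlR : 0 ≤ Real.log R := Real.log_nonneg (by linarith)
  have hlR3 : 0 ≤ Real.log R₃ := Real.log_nonneg (by linarith)
  have hE0 : 0 ≤ (2 * R + 4 * R₃) * e * (1 + 2 * Real.log R + Real.log R₃) := by positivity
  rcases lt_or_ge L B with hL4 | hL4
  · have h1 : Real.log L ≤ Real.log B := Real.log_le_log (by linarith) hL4.le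
    have h3 := hc_nonneg Q (fun ω => lbH 1 (X ω) (M ω)) (fun ω => lbH L (X ω) (M ω))
    linarith
  obtain ⟨i₀, i₁, hmin, al, be, hal, hbe, hual, hwal⟩ := best_minor hτ hcc
  obtain ⟨hσM1, hρX1, hρX2, hρ1, hρ2, hρ11⟩ := tolG hBr hRr hR3R hρ hRρ
  have hcom : SubC Q Q (St4 X M (fun _ => 0) c (4 * ρ) (36 * B * ρ)) (4 * e) :=
    sub4_comm hBr hu hw hρ hρ11 h h' (hmu' ▸ hi) (hmw' ▸ hi')
  have hBc : 1 ≤ 5 * (R₃ * |c|) / (L * L) := by
    rw [le_div_iff₀ (by positivity)]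
    have h1 : L * L ≤ (R : ℝ) ^ 2 := by
      rw [pow_two]
      exact mul_le_mul (by linarith) (by linarith) (by linarith) (by linarith)
    have h2 : (R : ℝ) ^ 2 ≤ (B : ℝ) ^ 2 * (R : ℝ) ^ 2 := le_mul_of_one_le_left (sq_nonneg _) hB2
    have h3 : 0 ≤ (R : ℝ) ^ 2 := sq_nonneg _
    linarith
  have key := lat_n (d := 2) Q (fun ω => ![X ω i₀ / B, X ω i₁ / B]) (vG B u w i₀ i₁)
    (τ / (2 * B ^ 2)) 1
    (L / B) ((2 * R + 4 * R₃) * e) R R₃
    (fun k n a b => St4 X M (fun i => n 0 * u i + n 1 * w i) (dr4 u w mu mw (n 0) (n 1) + k * c)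
      ((2 * R + 4 * R₃) * ρ) ((12 * (R : ℝ) ^ 2 + 68 * R₃ + 16 * R * R₃) * (B * ρ)) a b)
    (fun ω => lbH 1 (X ω) (M ω)) (fun ω => lbH L (X ω) (M ω)) (9 * (B : ℝ) ^ 2 / |c|)
    (5 * (R₃ * |c|) / (L * L) * 625)
    (vG_le hB hu hw i₀ i₁) (by positivity) (vG_det hB hmin) le_rfl
    (by rw [le_div_iff₀ hB0]; linarith) (by
      push_cast
      have h2 : ((Nat.factorial 2 : ℕ) : ℝ) = 2 := by norm_num [Nat.factorial]
      rw [h2, ← mul_div_assoc, ← mul_div_assoc, div_le_div_iff₀ hB0 (by positivity)]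
      have h3 := mul_le_mul_of_nonneg_right hR hB0.le
      linarith) hR0 hR30 (by rw [le_div_iff₀ hc0]; linarith) (by linarith)
    (fun k n hk hn => sub4_word hBr hu hw hρ he hR0 hρ1 hρ2 h h' hcom (hn 0).le (hn 1).le hk.le)
    (fun k n a b _ _ hW => mvdG hB (hρX2.trans (by norm_num)) hW)
    (fun a n f S _ hn hS => fibH (d := dr4 u w mu mw (n 0) (n 1)) hBr hc0 hcB hRr0.le
      (dispG hu hw hn) hσM1 hρX1 S fun k hk => (hS k hk).2)
    (fun a b hab => by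
      have h2 := congrArg Prod.snd hab
      funext i
      fin_cases i
      · exact flB (congrFun h2 i₀)
      · exact flB (congrFun h2 i₁))
    (fun a q S _ hS => crsH (Bd := R₃ * |c|) (q₀ := q 0) (q₁ := q 1) hBr hal hbe hL hLR hR3c hσM1
      hρX2 S
      fun g hg => by
        obtain ⟨k, n, b, hk, hn, hW, h5, h6⟩ := hS g hg
        obtain ⟨c0, c1⟩ := celG hB X i₀ i₁ L b
        refine ⟨_, dr4 u w mu mw (n 0) (n 1), k * c, b, dispG hu hw hn, fun l => ?_,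
          dr4_le hu hw hmu hmw hR0 (hn 0).le (hn 1).le, ?_, hW, ?_, ?_, h6⟩
        · show (n 0 : ℝ) * u l + n 1 * w l = al l * (n 0 * u i₀ + n 1 * w i₀) +
            be l * (n 0 * u i₁ + n 1 * w i₁)
          rw [hual l, hwal l]
          ring
        · rw [abs_mul, abs_of_nonneg (Nat.cast_nonneg _)]
          refine mul_le_mul_of_nonneg_right ?_ hc0.le
          exact_mod_cast hk.le
        · rw [← c0, h5]
        · rw [← c1, h5])
  exact numG hBr hL hR3r hc0 (by exact_mod_cast key)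

end Vale.Agent.P106.H25
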